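import Vale.Agent.P092.H866.G1

/-!
P092, stage 3, block [P3-COUNT], row (g1) (helper866), part 2: (Z1), (Z2), (Z3) of the zoom, in the
form `ZmS` of helper217 (#9825).
-/

set_option linter.all false

namespace Vale.Agent.P092.H866.G1

open Finset Matrix
open Vale.Agent.P092.H820 (wd)
open Vale.Agent.P092.H714.Cl (hf hf_add_left hf_smul_left hf_add_right hf_smul_right hf_zero_left
  hf_zero_right)
open Vale.Agent.P092.H835.PlF (w3 Alt sq sq_wd alt_wd alt_sq bl bl_self bl_anti sq_apply bl_le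
  bl_add_right bl_smul_right)
open Vale.Agent.P092.H589.K2 (Nrm mn mn_wd wd_norm_le chain_mn nrm_one nrm_ne)
open Vale.Agent.P092.H87.N (cn cn_nonneg)
open Vale.Agent.P092.H217.F

variable {k : Type} [NontriviallyNormedField k] {n : Type} [Fintype n] [DecidableEq n]
  {σ : k →+* k} {J : Matrix n n k} {β Cz : ℝ} {g ζ : n → k}

/-- the interface of helper217 -/
structure Zm (σ : k →+* k) (J : Matrix n n k) (C C' c c' : ℝ) (ρ : k) (g : n → k)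
    (a a' : Matrix n n k) : Prop where
  inv : a * a' = 1
  iso : ∀ v w, hf σ J (a *ᵥ v) (a *ᵥ w) = hf σ J v w
  z1 : ∀ (m : ℝ) (M : Matrix n n k) (x : n → k), Nw σ J C m M → ‖M *ᵥ x‖ * m ≤ C → Nrm x →
    hf σ J x x = 0 → Near σ J C ρ x g → 1 ≤ m * ‖ρ‖ → Nw σ J C' (m * ‖ρ‖) (M * a')
  z2 : ∀ x, Nrm x → hf σ J x x = 0 → Near σ J C ρ x g →
    ‖a *ᵥ x‖ ≤ C' * ‖ρ‖ ∧ ‖ρ‖ ≤ C' * ‖a *ᵥ x‖
  z3 : ∀ x y, Nrm x → hf σ J x x = 0 → Nrm y → hf σ J y y = 0 → Near σ J C ρ x g →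
    Near σ J C ρ y g → c * ‖ρ‖ ≤ ‖wd x y‖ → c' * ‖ρ‖ ^ 2 ≤ ‖wd (a *ᵥ x) (a *ᵥ y)‖

/-- the interface of helper217 -/
def ZmS (σ : k →+* k) (J : Matrix n n k) : Prop := ∀ C c : ℝ, 1 ≤ C → 0 < c →
  ∃ C' c' : ℝ, 1 ≤ C' ∧ 0 < c' ∧ ∀ (g : n → k) (ρ : k), Nrm g → hf σ J g g = 0 → ρ ≠ 0 →
    ‖ρ‖ ≤ 1 → ∃ a a', Zm σ J C C' c c' ρ g a a'

section

variable (hJ : Fm σ J β) (hp : Hp σ J Cz g ζ)
include hJ hp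

lemma pr_eq (c : k) (r : n → k) : pr σ J g ζ (c • g + r) = pr σ J g ζ r := by
  unfold pr
  rw [hf_add_left, hf_add_left, hf_smul_left, hf_smul_left, hp.gz, hp.gg, mul_zero, zero_add,
    mul_one]
  funext i
  simp only [Pi.add_apply, Pi.sub_apply, Pi.smul_apply, smul_eq_mul]
  ring

variable {C : ℝ} {ρ : k} {x : n → k}

/-- decomposition of a near point -/
lemma near_dec (hN : Near σ J C ρ x g) :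
    ∃ (c : k) (r : n → k), x = c • g + r ∧ ‖c‖ ≤ ‖x‖ ∧ ‖r‖ ≤ C * ‖ρ‖ := by
  have hg : g ≠ 0 := by
    intro h
    have := hp.g1
    rw [h, norm_zero] at this
    exact zero_ne_one this
  obtain ⟨c, r, h1, h2, h3⟩ := dec_max (w := x) hg
  rw [hp.g1, mul_one] at h2 h3
  exact ⟨c, r, h1, h2, h3.trans hN.1⟩

lemma near_dec' (hx : ‖x‖ = 1) (hxx : hf σ J x x = 0) (hN : Near σ J C ρ x g) :
    ∃ (c : k) (r : n → k), g = c • x + r ∧ ‖c‖ ≤ 1 ∧ ‖r‖ ≤ C * ‖ρ‖ ∧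
      ‖hf σ J r x‖ ≤ C * ‖ρ‖ ^ 2 := by
  have hx0 : x ≠ 0 := by
    intro h
    rw [h, norm_zero] at hx
    exact zero_ne_one hx
  obtain ⟨c, r, h1, h2, h3⟩ := dec_max (w := g) hx0
  rw [hx, mul_one] at h2 h3
  rw [hp.g1] at h2
  refine ⟨c, r, h1, h2, h3.trans ?_, ?_⟩
  · rw [wd_comm_norm]; exact hN.1
  · have e : r = g - c • x := by rw [h1]; abel
    rw [e, hf_sub_left, hf_smul_left, hxx, mul_zero, sub_zero, hJ.sym]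
    exact hN.2

/-- (N1) -/
lemma near_perp (hx : ‖x‖ = 1) (hN : Near σ J C ρ x g) {v : n → k} (hv : hf σ J v g = 0) :
    ‖hf σ J v x‖ ≤ β * (‖v‖ * (C * ‖ρ‖)) := by
  obtain ⟨c, r, h1, -, h3⟩ := near_dec hJ hp hN
  have e : hf σ J v x = hf σ J v r := by
    rw [h1, hf_add_right, hf_smul_right, hv, mul_zero, zero_add]
  rw [e]
  exact hJ.le le_rfl h3

/-- **(Z2)**, upper bound -/
lemma z2u (hρ : ρ ≠ 0) (hx : ‖x‖ = 1) (hC : 1 ≤ C) (hN : Near σ J C ρ x g) :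
    ‖az σ J g ζ ρ *ᵥ x‖ ≤ (3 * (β * Cz) * C + β * Cz + C * Cz) * ‖ρ‖ := by
  have hb := hJ.b0
  have hz := Cz0 hJ hp
  have hr : 0 < ‖ρ‖ := norm_pos_iff.2 hρ
  rw [az_dec hJ hp]
  refine (norm_add_le _ _).trans ((add_le_add (norm_add_le _ _) le_rfl).trans ?_)
  rw [norm_smul, norm_smul, hp.g1, mul_one, norm_mul, norm_mul, norm_inv, hJ.iso, norm_div,
    en hJ hp, div_one]
  obtain ⟨c, r, h1, -, h3⟩ := near_dec hJ hp hN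
  have e1 : ‖pr σ J g ζ x‖ ≤ 3 * (β * Cz) * (C * ‖ρ‖) := by
    rw [h1, pr_eq hJ hp]
    refine (pr_le hJ hp r).trans ?_
    gcongr
  have e2 : ‖ρ‖ * ‖hf σ J x ζ‖ ≤ ‖ρ‖ * (β * Cz) := by
    have := al_le hJ hp x
    rw [hx, mul_one] at this
    gcongr
  have e3 : ‖ρ‖⁻¹ * ‖hf σ J x g‖ * ‖ζ‖ ≤ C * Cz * ‖ρ‖ := by
    have h4 : ‖ρ‖⁻¹ * ‖hf σ J x g‖ ≤ C * ‖ρ‖ := by
      calc ‖ρ‖⁻¹ * ‖hf σ J x g‖ ≤ ‖ρ‖⁻¹ * (C * ‖ρ‖ ^ 2) := by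
            gcongr
            exact hN.2
        _ = _ := by field_simp
    calc _ ≤ C * ‖ρ‖ * Cz := by
          gcongr
          exact hp.zn
      _ = _ := by ring
  linarith

/-- **(Z2)**, lower bound -/
lemma z2l (hρ : ρ ≠ 0) (hρ1 : ‖ρ‖ ≤ 1) (hx : ‖x‖ = 1) :
    ‖ρ‖ ≤ 5 * (β * Cz) * ‖az σ J g ζ ρ *ᵥ x‖ := by
  have hr : 0 < ‖ρ‖ := norm_pos_iff.2 hρ
  have h1 := az_le hJ hp hρ hρ1 (az σ J g ζ ρ *ᵥ x)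
  rw [mulVec_mulVec, az_inv' hJ hp hρ, one_mulVec, hx] at h1
  calc ‖ρ‖ = ‖ρ‖ * 1 := (mul_one _).symm
    _ ≤ ‖ρ‖ * (5 * (β * Cz) * ‖ρ‖⁻¹ * ‖az σ J g ζ ρ *ᵥ x‖) := by gcongr
    _ = _ := by field_simp

/-- **(Z3)** -/
lemma z3' (hρ : ρ ≠ 0) (hρ1 : ‖ρ‖ ≤ 1) {c : ℝ} (x y : n → k) (h : c * ‖ρ‖ ≤ ‖wd x y‖) :
    c * ‖ρ‖ ^ 2 ≤ (cn n ^ 2 * (46 * (β * Cz) ^ 2)) * ‖wd (az σ J g ζ ρ *ᵥ x) (az σ J g ζ ρ *ᵥ y)‖ := by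
  have hb := hJ.b0
  have hz := Cz0 hJ hp
  have hr : 0 < ‖ρ‖ := norm_pos_iff.2 hρ
  have hcn : 0 ≤ cn n := cn_nonneg
  have h1 := sq_of_minors (A := az σ J g ζ ρ⁻¹) (K := 46 * (β * Cz) ^ 2 * ‖ρ‖⁻¹) (by positivity)
    (fun y w => az_wd hJ hp hρ hρ1 y w) (alt_wd (az σ J g ζ ρ *ᵥ x) (az σ J g ζ ρ *ᵥ y))
  rw [sq_wd, mulVec_mulVec, mulVec_mulVec, az_inv' hJ hp hρ, one_mulVec, one_mulVec] at h1
  calc c * ‖ρ‖ ^ 2 = (c * ‖ρ‖) * ‖ρ‖ := by ring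
    _ ≤ (cn n ^ 2 * (46 * (β * Cz) ^ 2 * ‖ρ‖⁻¹) *
        ‖wd (az σ J g ζ ρ *ᵥ x) (az σ J g ζ ρ *ᵥ y)‖) * ‖ρ‖ :=
        mul_le_mul_of_nonneg_right (h.trans h1) hr.le
    _ = _ := by field_simp

end

/-- the constants of (Z1) -/
def A1 (β C : ℝ) : ℝ := 2 * β ^ 2 * CA β C C + β * C * (β * C)
/-- the constants of (Z1) -/
def A2 (β C : ℝ) : ℝ := C + 2 * β ^ 2 * CA β C C * C + β * C * C
/-- the constants of (Z1) -/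
def A3 (β C : ℝ) : ℝ := CB β C C * (2 * β * C + 2)
/-- the constants of (Z1) -/
def A4 (β C : ℝ) : ℝ := 2 * A1 β C * C + CB β C C * (C + β * C ^ 2 + 2 * C)
/-- the constants of (Z1) -/
def A5 (C Cz : ℝ) : ℝ := 4 * C * C * Cz

section z1

variable (hJ : Fm σ J β) (hp : Hp σ J Cz g ζ)

variable {C m : ℝ} {ρ : k} {x : n → k} {M : Matrix n n k} (hC : 1 ≤ C) (hM : Nw σ J C m M)
  (hMx : ‖M *ᵥ x‖ * m ≤ C) (hx : ‖x‖ = 1) (hxx : hf σ J x x = 0) (hN : Near σ J C ρ x g)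
  (hmρ : 1 ≤ m * ‖ρ‖) (hρ1 : ‖ρ‖ ≤ 1)

lemma cx (hC : 1 ≤ C) (hMx : ‖M *ᵥ x‖ * m ≤ C) (hx : ‖x‖ = 1) (hxx : hf σ J x x = 0) :
    Cx σ J C m M x := ⟨hx, hxx, hC, hMx⟩

include hJ in
lemma CA0 (hC : 1 ≤ C) : 0 ≤ CA β C C := by
  have hb := hJ.b0
  unfold CA; positivity

include hJ in
lemma CB0 (hC : 1 ≤ C) : 0 ≤ CB β C C := zero_le_one.trans (CB1 hJ.b1 hC hC)

include hJ in
lemma A10 (hC : 1 ≤ C) : 0 ≤ A1 β C := by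
  have hb := hJ.b0
  have := CA0 hJ hC
  unfold A1; positivity

include hJ in
lemma A20 (hC : 1 ≤ C) : 0 ≤ A2 β C := by
  have hb := hJ.b0
  have := CA0 hJ hC
  unfold A2; positivity

include hJ in
lemma A30 (hC : 1 ≤ C) : 0 ≤ A3 β C := by
  have hb := hJ.b0
  have := CB0 hJ hC
  unfold A3; positivity

include hJ in
lemma A40 (hC : 1 ≤ C) : 0 ≤ A4 β C := by
  have hb := hJ.b0
  have := CB0 hJ hC
  have := A10 hJ hC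
  unfold A4; positivity

include hJ hp hC hM hMx hx hxx hN hmρ

/-- (M1) -/
lemma m1' {v : n → k} (hv : hf σ J v g = 0) : ‖M *ᵥ v‖ ≤ A1 β C * (m * ‖ρ‖) * ‖v‖ := by
  have hb := hJ.b0
  have hm := hM.m1
  have hCA := CA0 hJ hC
  have h1 := boundA1 hJ hM (cx hC hMx hx hxx) v
  have h2 := near_perp hJ hp hx hN hv
  refine h1.trans ?_
  have h3 : 2 * β ^ 2 * CA β C C * ‖v‖ ≤ 2 * β ^ 2 * CA β C C * ‖v‖ * (m * ‖ρ‖) :=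
    le_mul_of_one_le_right (by positivity) hmρ
  have h4 : β * C * m * ‖hf σ J v x‖ ≤ β * C * m * (β * (‖v‖ * (C * ‖ρ‖))) := by gcongr
  calc _ ≤ 2 * β ^ 2 * CA β C C * ‖v‖ * (m * ‖ρ‖) + β * C * m * (β * (‖v‖ * (C * ‖ρ‖))) := by
        linarith
    _ = _ := by unfold A1; ring

include hρ1 in
/-- (M2) -/
lemma m2' : ‖M *ᵥ g‖ ≤ A2 β C * (m * ‖ρ‖ ^ 2) := by
  have hb := hJ.b0
  have hm := hM.m1
  have hm0 : 0 < m := by linarith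
  have hCA := CA0 hJ hC
  obtain ⟨c, r, h1, h2, h3, h4⟩ := near_dec' hJ hp hx hxx hN
  have h5 := boundA1 hJ hM (cx hC hMx hx hxx) r
  have hr0 := norm_nonneg ρ
  have e1 : ‖ρ‖ ≤ m * ‖ρ‖ ^ 2 := by
    calc ‖ρ‖ = 1 * ‖ρ‖ := (one_mul _).symm
      _ ≤ (m * ‖ρ‖) * ‖ρ‖ := by gcongr
      _ = _ := by ring
  have e2 : ‖M *ᵥ x‖ ≤ C * (m * ‖ρ‖ ^ 2) := by
    have h6 : ‖M *ᵥ x‖ ≤ C / m := by rw [le_div_iff₀ hm0]; exact hMx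
    refine h6.trans ?_
    rw [div_le_iff₀ hm0]
    have h7 : 1 ≤ m * ‖ρ‖ ^ 2 * m := by
      calc (1 : ℝ) = 1 * 1 := by ring
        _ ≤ (m * ‖ρ‖) * (m * ‖ρ‖) := by gcongr
        _ = _ := by ring
    calc C = C * 1 := (mul_one _).symm
      _ ≤ C * (m * ‖ρ‖ ^ 2 * m) := by gcongr
      _ = _ := by ring
  rw [h1, mulVec_add, mulVec_smul]
  refine (norm_add_le _ _).trans ?_
  rw [norm_smul]
  have e3 : ‖c‖ * ‖M *ᵥ x‖ ≤ 1 * (C * (m * ‖ρ‖ ^ 2)) := by gcongr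
  have e4 : 2 * β ^ 2 * CA β C C * ‖r‖ ≤ 2 * β ^ 2 * CA β C C * (C * (m * ‖ρ‖ ^ 2)) := by
    gcongr
    exact h3.trans (by gcongr)
  have e5 : β * C * m * ‖hf σ J r x‖ ≤ β * C * m * (C * ‖ρ‖ ^ 2) := by gcongr
  calc _ ≤ 1 * (C * (m * ‖ρ‖ ^ 2)) + (2 * β ^ 2 * CA β C C * (C * (m * ‖ρ‖ ^ 2)) +
        β * C * m * (C * ‖ρ‖ ^ 2)) := by linarith
    _ = _ := by unfold A2; ring

/-- (W1) -/
lemma w1' {u v : n → k} (hu : hf σ J u g = 0) (hv : hf σ J v g = 0) :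
    ‖wd (M *ᵥ u) (M *ᵥ v)‖ ≤ A3 β C * (m * ‖ρ‖) * (‖u‖ * ‖v‖) := by
  have hb := hJ.b0
  have hm := hM.m1
  have hCB := CB0 hJ hC
  rw [← sq_wd]
  refine (boundB hJ hM (cx hC hMx hx hxx) (alt_wd u v)).trans ?_
  have h1 := near_perp hJ hp hx hN hu
  have h2 := near_perp hJ hp hx hN hv
  have h3 : ‖ct σ J x (wd u v)‖ ≤ 2 * β * C * ‖ρ‖ * (‖u‖ * ‖v‖) := by
    rw [ct_wd]
    refine (norm_sub_le _ _).trans ?_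
    rw [norm_smul, norm_smul]
    have e1 : ‖hf σ J v x‖ * ‖u‖ ≤ β * (‖v‖ * (C * ‖ρ‖)) * ‖u‖ := by gcongr
    have e2 : ‖hf σ J u x‖ * ‖v‖ ≤ β * (‖u‖ * (C * ‖ρ‖)) * ‖v‖ := by gcongr
    calc _ ≤ β * (‖v‖ * (C * ‖ρ‖)) * ‖u‖ + β * (‖u‖ * (C * ‖ρ‖)) * ‖v‖ := by linarith
      _ = _ := by ring
  have h4 : ‖wd u v‖ ≤ 2 * (‖u‖ * ‖v‖) * (m * ‖ρ‖) :=
    (wd_norm_le u v).trans (le_mul_of_one_le_right (by positivity) hmρ)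
  calc _ ≤ CB β C C * (m * (2 * β * C * ‖ρ‖ * (‖u‖ * ‖v‖)) + 2 * (‖u‖ * ‖v‖) * (m * ‖ρ‖)) := by
        gcongr
    _ = _ := by unfold A3; ring

include hρ1 in
/-- (W2) -/
lemma w2' {u : n → k} (hu : hf σ J u g = 0) :
    ‖wd (M *ᵥ u) (M *ᵥ g)‖ ≤ A4 β C * (m * ‖ρ‖ ^ 2) * ‖u‖ := by
  have hb := hJ.b0
  have hm := hM.m1
  have hm0 : 0 < m := by linarith
  have hCB := CB0 hJ hC
  have hA1 := A10 hJ hC
  have hr0 := norm_nonneg ρ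
  obtain ⟨c, r, h1, h2, h3, h4⟩ := near_dec' hJ hp hx hxx hN
  have e1 : ‖ρ‖ ≤ m * ‖ρ‖ ^ 2 := by
    calc ‖ρ‖ = 1 * ‖ρ‖ := (one_mul _).symm
      _ ≤ (m * ‖ρ‖) * ‖ρ‖ := by gcongr
      _ = _ := by ring
  have e : wd (M *ᵥ u) (M *ᵥ g) = c • wd (M *ᵥ u) (M *ᵥ x) + sq M *ᵥ wd u r := by
    rw [sq_wd]
    conv_lhs => rw [h1]
    rw [mulVec_add, mulVec_smul, wd_add_right, wd_smul_right]
  rw [e]
  refine (norm_add_le _ _).trans ?_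
  rw [norm_smul]
  have h5 : ‖c‖ * ‖wd (M *ᵥ u) (M *ᵥ x)‖ ≤ 2 * A1 β C * C * (m * ‖ρ‖ ^ 2) * ‖u‖ := by
    have k1 := m1' hJ hp hC hM hMx hx hxx hN hmρ hu
    have k2 : ‖wd (M *ᵥ u) (M *ᵥ x)‖ ≤ 2 * (A1 β C * ‖ρ‖ * ‖u‖ * C) := by
      refine (wd_norm_le _ _).trans ?_
      have : ‖M *ᵥ u‖ * ‖M *ᵥ x‖ ≤ A1 β C * ‖ρ‖ * ‖u‖ * C := by
        calc ‖M *ᵥ u‖ * ‖M *ᵥ x‖ ≤ (A1 β C * (m * ‖ρ‖) * ‖u‖) * ‖M *ᵥ x‖ := by gcongr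
          _ = A1 β C * ‖ρ‖ * ‖u‖ * (‖M *ᵥ x‖ * m) := by ring
          _ ≤ _ := by gcongr
      linarith
    calc ‖c‖ * ‖wd (M *ᵥ u) (M *ᵥ x)‖ ≤ 1 * (2 * (A1 β C * ‖ρ‖ * ‖u‖ * C)) := by gcongr
      _ = 2 * A1 β C * C * ‖u‖ * ‖ρ‖ := by ring
      _ ≤ 2 * A1 β C * C * ‖u‖ * (m * ‖ρ‖ ^ 2) := by gcongr
      _ = _ := by ring
  have h6 : ‖sq M *ᵥ wd u r‖ ≤ CB β C C * (C + β * C ^ 2 + 2 * C) * (m * ‖ρ‖ ^ 2) * ‖u‖ := by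
    refine (boundB hJ hM (cx hC hMx hx hxx) (alt_wd u r)).trans ?_
    have k1 := near_perp hJ hp hx hN hu
    have k3 : ‖ct σ J x (wd u r)‖ ≤ (C + β * C ^ 2) * ‖ρ‖ ^ 2 * ‖u‖ := by
      rw [ct_wd]
      refine (norm_sub_le _ _).trans ?_
      rw [norm_smul, norm_smul]
      have q1 : ‖hf σ J r x‖ * ‖u‖ ≤ C * ‖ρ‖ ^ 2 * ‖u‖ := by gcongr
      have q2 : ‖hf σ J u x‖ * ‖r‖ ≤ β * (‖u‖ * (C * ‖ρ‖)) * (C * ‖ρ‖) := by gcongr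
      calc _ ≤ C * ‖ρ‖ ^ 2 * ‖u‖ + β * (‖u‖ * (C * ‖ρ‖)) * (C * ‖ρ‖) := by linarith
        _ = _ := by ring
    have k4 : ‖wd u r‖ ≤ 2 * C * (m * ‖ρ‖ ^ 2) * ‖u‖ := by
      refine (wd_norm_le u r).trans ?_
      calc 2 * (‖u‖ * ‖r‖) ≤ 2 * (‖u‖ * (C * (m * ‖ρ‖ ^ 2))) := by
            gcongr
            exact h3.trans (by gcongr)
        _ = _ := by ring
    calc _ ≤ CB β C C * (m * ((C + β * C ^ 2) * ‖ρ‖ ^ 2 * ‖u‖) +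
          2 * C * (m * ‖ρ‖ ^ 2) * ‖u‖) := by gcongr
      _ = _ := by ring
  calc _ ≤ 2 * A1 β C * C * (m * ‖ρ‖ ^ 2) * ‖u‖ +
        CB β C C * (C + β * C ^ 2 + 2 * C) * (m * ‖ρ‖ ^ 2) * ‖u‖ := by linarith
    _ = _ := by unfold A4; ring

/-- (W3) -/
lemma w3' (u : n → k) : ‖wd (M *ᵥ u) (M *ᵥ ζ)‖ ≤ 2 * C * Cz * m * ‖u‖ := by
  have hm := hM.m1
  have hz := Cz0 hJ hp
  rw [← sq_wd]
  refine (hM.u2 _ (alt_wd u ζ)).trans ?_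
  have h1 := wd_norm_le u ζ
  calc C * m * ‖wd u ζ‖ ≤ C * m * (2 * (‖u‖ * Cz)) := by
        gcongr
        refine h1.trans ?_
        gcongr
        exact hp.zn
    _ = _ := by ring

/-- (W4) -/
lemma w4' : ‖wd (M *ᵥ g) (M *ᵥ ζ)‖ ≤ A5 C Cz * (m * ‖ρ‖) := by
  have hm := hM.m1
  have hm0 : 0 < m := by linarith
  have hz := Cz0 hJ hp
  obtain ⟨c, r, h1, h2, h3, h4⟩ := near_dec' hJ hp hx hxx hN
  have e : wd (M *ᵥ g) (M *ᵥ ζ) = c • wd (M *ᵥ x) (M *ᵥ ζ) + wd (M *ᵥ r) (M *ᵥ ζ) := by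
    conv_lhs => rw [h1]
    rw [mulVec_add, mulVec_smul, wd_add_left, wd_smul_left]
  rw [e]
  refine (norm_add_le _ _).trans ?_
  rw [norm_smul]
  have k1 := w3' hJ hp hC hM hMx hx hxx hN hmρ r
  have k2 : ‖wd (M *ᵥ x) (M *ᵥ ζ)‖ ≤ 2 * (C * (C * Cz)) := by
    refine (wd_norm_le _ _).trans ?_
    have hMζ : ‖M *ᵥ ζ‖ ≤ C * m * Cz := (hM.u1 ζ).trans (by
      gcongr
      exact hp.zn)
    have : ‖M *ᵥ x‖ * ‖M *ᵥ ζ‖ ≤ C * (C * Cz) := by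
      calc ‖M *ᵥ x‖ * ‖M *ᵥ ζ‖ ≤ ‖M *ᵥ x‖ * (C * m * Cz) := by gcongr
        _ = (‖M *ᵥ x‖ * m) * (C * Cz) := by ring
        _ ≤ _ := by gcongr
    linarith
  have k3 : ‖c‖ * ‖wd (M *ᵥ x) (M *ᵥ ζ)‖ ≤ 2 * (C * (C * Cz)) * (m * ‖ρ‖) := by
    calc ‖c‖ * ‖wd (M *ᵥ x) (M *ᵥ ζ)‖ ≤ 1 * (2 * (C * (C * Cz))) := by gcongr
      _ = 2 * (C * (C * Cz)) * 1 := by ring
      _ ≤ _ := by gcongr
  have k4 : ‖wd (M *ᵥ r) (M *ᵥ ζ)‖ ≤ 2 * C * Cz * m * (C * ‖ρ‖) := k1.trans (by gcongr)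
  calc _ ≤ 2 * (C * (C * Cz)) * (m * ‖ρ‖) + 2 * C * Cz * m * (C * ‖ρ‖) := by linarith
    _ = _ := by unfold A5; ring

include hρ1 in
/-- **(Z1)**, vectors -/
lemma z1u (hρ : ρ ≠ 0) (v : n → k) : ‖M *ᵥ (az σ J g ζ ρ⁻¹ *ᵥ v)‖ ≤
    (3 * (β * Cz) * A1 β C + β * Cz * A2 β C + β * C * Cz) * (m * ‖ρ‖) * ‖v‖ := by
  have hb := hJ.b0
  have hz := Cz0 hJ hp
  have hm := hM.m1
  have hm0 : 0 < m := by linarith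
  have hA1 := A10 hJ hC
  have hA2 := A20 hJ hC
  have hr : 0 < ‖ρ‖ := norm_pos_iff.2 hρ
  have hRρ : ‖ρ‖⁻¹ * ‖ρ‖ = 1 := inv_mul_cancel₀ hr.ne'
  rw [az_dec hJ hp, map_inv₀, inv_inv, mulVec_add, mulVec_add, mulVec_smul, mulVec_smul]
  refine (norm_add_le _ _).trans ((add_le_add (norm_add_le _ _) le_rfl).trans ?_)
  rw [norm_smul, norm_smul, norm_mul, norm_mul, norm_inv, hJ.iso]
  have k1 : ‖M *ᵥ pr σ J g ζ v‖ ≤ A1 β C * (m * ‖ρ‖) * (3 * (β * Cz) * ‖v‖) :=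
    (m1' hJ hp hC hM hMx hx hxx hN hmρ (pr_g hJ hp v)).trans (by
      gcongr
      exact pr_le hJ hp v)
  have k2 : ‖ρ‖⁻¹ * ‖hf σ J v ζ‖ * ‖M *ᵥ g‖ ≤ β * Cz * A2 β C * (m * ‖ρ‖) * ‖v‖ := by
    calc _ ≤ ‖ρ‖⁻¹ * (β * Cz * ‖v‖) * (A2 β C * (m * ‖ρ‖ ^ 2)) := by
          gcongr
          · exact al_le hJ hp v
          · exact m2' hJ hp hC hM hMx hx hxx hN hmρ hρ1
      _ = (‖ρ‖⁻¹ * ‖ρ‖) * (β * Cz * A2 β C * (m * ‖ρ‖) * ‖v‖) := by ring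
      _ = _ := by rw [hRρ, one_mul]
  have k3 : ‖ρ‖ * ‖hf σ J v g / hf σ J ζ g‖ * ‖M *ᵥ ζ‖ ≤ β * C * Cz * (m * ‖ρ‖) * ‖v‖ := by
    have hMζ : ‖M *ᵥ ζ‖ ≤ C * m * Cz := (hM.u1 ζ).trans (by
      gcongr
      exact hp.zn)
    calc _ ≤ ‖ρ‖ * (β * ‖v‖) * (C * m * Cz) := by
          gcongr
          exact be_le hJ hp v
      _ = _ := by ring
  calc _ ≤ A1 β C * (m * ‖ρ‖) * (3 * (β * Cz) * ‖v‖) + β * Cz * A2 β C * (m * ‖ρ‖) * ‖v‖ +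
        β * C * Cz * (m * ‖ρ‖) * ‖v‖ := by linarith
    _ = _ := by ring

include hρ1 in
/-- **(Z1)**, wedge products -/
lemma z1w (hρ : ρ ≠ 0) (y w : n → k) :
    ‖wd (M *ᵥ (az σ J g ζ ρ⁻¹ *ᵥ y)) (M *ᵥ (az σ J g ζ ρ⁻¹ *ᵥ w))‖ ≤
    (9 * (β * Cz) ^ 2 * A3 β C + 6 * (β * Cz) ^ 2 * A4 β C + 12 * (β * Cz) ^ 2 * C +
      2 * (β * Cz) * β * A5 C Cz) * (m * ‖ρ‖) * (‖y‖ * ‖w‖) := by
  have hb := hJ.b0
  have hz := Cz0 hJ hp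
  have hm := hM.m1
  have hm0 : 0 < m := by linarith
  have hA3 := A30 hJ hC
  have hA4 := A40 hJ hC
  have hA5 : 0 ≤ A5 C Cz := by unfold A5; positivity
  have hr : 0 < ‖ρ‖ := norm_pos_iff.2 hρ
  have hRρ : ‖ρ‖⁻¹ * ‖ρ‖ = 1 := inv_mul_cancel₀ hr.ne'
  rw [az_dec hJ hp, az_dec hJ hp, map_inv₀, inv_inv]
  simp only [mulVec_add, mulVec_smul]
  refine (wd_exp_le _ _ _ _ _ _ _ _).trans ?_
  have py := pr_le hJ hp y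
  have pw := pr_le hJ hp w
  have ay := al_le hJ hp y
  have aw := al_le hJ hp w
  have by' := be_le hJ hp y
  have bw := be_le hJ hp w
  have gy := pr_g hJ hp y
  have gw := pr_g hJ hp w
  rw [norm_mul, norm_mul, norm_mul, norm_mul, norm_inv, hJ.iso]
  have tg : ∀ v : n → k, ‖wd (M *ᵥ pr σ J g ζ v) (M *ᵥ g)‖ ≤
      A4 β C * (m * ‖ρ‖ ^ 2) * (3 * (β * Cz) * ‖v‖) := fun v =>
    (w2' hJ hp hC hM hMx hx hxx hN hmρ hρ1 (pr_g hJ hp v)).trans (by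
      gcongr
      exact pr_le hJ hp v)
  have tz : ∀ v : n → k, ‖wd (M *ᵥ pr σ J g ζ v) (M *ᵥ ζ)‖ ≤
      2 * C * Cz * m * (3 * (β * Cz) * ‖v‖) := fun v =>
    (w3' hJ hp hC hM hMx hx hxx hN hmρ _).trans (by
      gcongr
      exact pr_le hJ hp v)
  have t1 : ‖wd (M *ᵥ pr σ J g ζ y) (M *ᵥ pr σ J g ζ w)‖ ≤
      9 * (β * Cz) ^ 2 * A3 β C * (m * ‖ρ‖) * (‖y‖ * ‖w‖) := by
    refine (w1' hJ hp hC hM hMx hx hxx hN hmρ gy gw).trans ?_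
    calc A3 β C * (m * ‖ρ‖) * (‖pr σ J g ζ y‖ * ‖pr σ J g ζ w‖) ≤
        A3 β C * (m * ‖ρ‖) * ((3 * (β * Cz) * ‖y‖) * (3 * (β * Cz) * ‖w‖)) := by gcongr
      _ = _ := by ring
  have t2 : ∀ y w : n → k, ‖ρ‖⁻¹ * ‖hf σ J w ζ‖ * ‖wd (M *ᵥ pr σ J g ζ y) (M *ᵥ g)‖ ≤
      3 * (β * Cz) ^ 2 * A4 β C * (m * ‖ρ‖) * (‖y‖ * ‖w‖) := by
    intro y w
    calc _ ≤ ‖ρ‖⁻¹ * (β * Cz * ‖w‖) * (A4 β C * (m * ‖ρ‖ ^ 2) * (3 * (β * Cz) * ‖y‖)) := by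
          gcongr
          · exact al_le hJ hp w
          · exact tg y
      _ = (‖ρ‖⁻¹ * ‖ρ‖) * (3 * (β * Cz) ^ 2 * A4 β C * (m * ‖ρ‖) * (‖y‖ * ‖w‖)) := by ring
      _ = _ := by rw [hRρ, one_mul]
  have t3 : ∀ y w : n → k, ‖ρ‖ * ‖hf σ J w g / hf σ J ζ g‖ *
      ‖wd (M *ᵥ pr σ J g ζ y) (M *ᵥ ζ)‖ ≤ 6 * (β * Cz) ^ 2 * C * (m * ‖ρ‖) * (‖y‖ * ‖w‖) := by
    intro y w
    calc _ ≤ ‖ρ‖ * (β * ‖w‖) * (2 * C * Cz * m * (3 * (β * Cz) * ‖y‖)) := by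
          gcongr
          · exact be_le hJ hp w
          · exact tz y
      _ = _ := by ring
  have t6 : (‖ρ‖⁻¹ * ‖hf σ J y ζ‖ * (‖ρ‖ * ‖hf σ J w g / hf σ J ζ g‖) +
      ‖ρ‖ * ‖hf σ J y g / hf σ J ζ g‖ * (‖ρ‖⁻¹ * ‖hf σ J w ζ‖)) * ‖wd (M *ᵥ g) (M *ᵥ ζ)‖ ≤
      2 * (β * Cz) * β * A5 C Cz * (m * ‖ρ‖) * (‖y‖ * ‖w‖) := by
    calc _ = ((‖ρ‖⁻¹ * ‖ρ‖) * (‖hf σ J y ζ‖ * ‖hf σ J w g / hf σ J ζ g‖ +
        ‖hf σ J y g / hf σ J ζ g‖ * ‖hf σ J w ζ‖)) * ‖wd (M *ᵥ g) (M *ᵥ ζ)‖ := by ring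
      _ = (‖hf σ J y ζ‖ * ‖hf σ J w g / hf σ J ζ g‖ +
        ‖hf σ J y g / hf σ J ζ g‖ * ‖hf σ J w ζ‖) * ‖wd (M *ᵥ g) (M *ᵥ ζ)‖ := by
          rw [hRρ, one_mul]
      _ ≤ ((β * Cz * ‖y‖) * (β * ‖w‖) + (β * ‖y‖) * (β * Cz * ‖w‖)) *
          (A5 C Cz * (m * ‖ρ‖)) := by
          gcongr
          exact w4' hJ hp hC hM hMx hx hxx hN hmρ
      _ = _ := by ring
  have s2 := t2 y w
  have s2' := t2 w y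
  have s3 := t3 y w
  have s3' := t3 w y
  have c1 : ‖w‖ * ‖y‖ = ‖y‖ * ‖w‖ := mul_comm _ _
  rw [c1] at s2' s3'
  calc _ ≤ 9 * (β * Cz) ^ 2 * A3 β C * (m * ‖ρ‖) * (‖y‖ * ‖w‖) +
        3 * (β * Cz) ^ 2 * A4 β C * (m * ‖ρ‖) * (‖y‖ * ‖w‖) +
        6 * (β * Cz) ^ 2 * C * (m * ‖ρ‖) * (‖y‖ * ‖w‖) +
        3 * (β * Cz) ^ 2 * A4 β C * (m * ‖ρ‖) * (‖y‖ * ‖w‖) +
        6 * (β * Cz) ^ 2 * C * (m * ‖ρ‖) * (‖y‖ * ‖w‖) +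
        2 * (β * Cz) * β * A5 C Cz * (m * ‖ρ‖) * (‖y‖ * ‖w‖) := by linarith
    _ = _ := by ring

end z1

/-- **(g1)**: the zoom in the form of helper217 -/
theorem zmS (hJ : Fm σ J β) (hinv : ∀ a, σ (σ a) = a) {Cz : ℝ}
    (hz : ∀ g : n → k, Nrm g → hf σ J g g = 0 →
      ∃ ζ, hf σ J ζ ζ = 0 ∧ hf σ J g ζ = 1 ∧ ‖ζ‖ ≤ Cz) : ZmS σ J := by
  intro C c hC hc
  have hb := hJ.b0
  have hcn : 0 ≤ cn n := cn_nonneg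
  by_cases hex : 0 ≤ Cz
  swap
  · refine ⟨1, 1, le_rfl, one_pos, fun g ρ hg hgg _ _ => ?_⟩
    obtain ⟨ζ, -, -, h⟩ := hz g hg hgg
    exact absurd ((norm_nonneg _).trans h) hex
  have hA1 := A10 hJ hC
  have hA2 := A20 hJ hC
  have hA3 := A30 hJ hC
  have hA4 := A40 hJ hC
  have hA5 : 0 ≤ A5 C Cz := by unfold A5; positivity
  set U1 : ℝ := 3 * (β * Cz) * A1 β C + β * Cz * A2 β C + β * C * Cz with hU1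
  set U2 : ℝ := 9 * (β * Cz) ^ 2 * A3 β C + 6 * (β * Cz) ^ 2 * A4 β C + 12 * (β * Cz) ^ 2 * C +
      2 * (β * Cz) * β * A5 C Cz with hU2
  set U3 : ℝ := 3 * (β * Cz) * C + β * Cz + C * Cz with hU3
  have hU10 : 0 ≤ U1 := by positivity
  have hU20 : 0 ≤ U2 := by positivity
  have hU30 : 0 ≤ U3 := by positivity
  set K3 : ℝ := cn n ^ 2 * (46 * (β * Cz) ^ 2) with hK3
  have hK30 : 0 ≤ K3 := by positivity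
  set C' : ℝ := 1 + U1 + cn n ^ 2 * U2 + U3 + 5 * (β * Cz) with hC'
  have hV2 : 0 ≤ cn n ^ 2 * U2 := by positivity
  have hV5 : 0 ≤ 5 * (β * Cz) := by positivity
  refine ⟨C', c / (K3 + 1), by linarith, by positivity, fun g ρ hg hgg hρ hρ1 => ?_⟩
  obtain ⟨ζ, hζζ, hgζ, hζn⟩ := hz g hg hgg
  have hp : Hp σ J Cz g ζ := ⟨nrm_one hg, hgg, hζζ, hgζ, hζn⟩
  refine ⟨az σ J g ζ ρ, az σ J g ζ ρ⁻¹, az_inv hJ hp hρ, az_iso hJ hp hinv hρ, ?_, ?_, ?_⟩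
  · intro m M x hM hMx hx hxx hN hmρ
    have hx1 := nrm_one hx
    have hmρ0 : 0 ≤ m * ‖ρ‖ := zero_le_one.trans hmρ
    refine ⟨by linarith, hmρ, fun v w => ?_, fun v => ?_, fun P hP => ?_⟩
    · rw [← mulVec_mulVec, ← mulVec_mulVec, hM.iso, az_iso hJ hp hinv (inv_ne_zero hρ)]
    · rw [← mulVec_mulVec]
      refine (z1u hJ hp hC hM hMx hx1 hxx hN hmρ hρ1 hρ v).trans ?_
      rw [← hU1]
      gcongr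
      linarith
    · refine (sq_of_minors (A := M * az σ J g ζ ρ⁻¹) (K := U2 * (m * ‖ρ‖)) (by positivity)
        (fun y w => ?_) hP).trans ?_
      · rw [← mulVec_mulVec, ← mulVec_mulVec]
        exact z1w hJ hp hC hM hMx hx1 hxx hN hmρ hρ1 hρ y w
      · rw [← mul_assoc]
        gcongr
        linarith
  · intro x hx hxx hN
    have hx1 := nrm_one hx
    constructor
    · refine (z2u hJ hp hρ hx1 hC hN).trans ?_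
      rw [← hU3]
      gcongr
      linarith
    · refine (z2l hJ hp hρ hρ1 hx1).trans ?_
      gcongr
      linarith
  · intro x y hx hxx hy hyy hNx hNy h
    have h1 := z3' hJ hp hρ hρ1 x y h
    rw [← hK3] at h1
    rw [div_mul_eq_mul_div, div_le_iff₀ (by positivity)]
    have h2 := norm_nonneg (wd (az σ J g ζ ρ *ᵥ x) (az σ J g ζ ρ *ᵥ y))
    linarith

end Vale.Agent.P092.H866.G1
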