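import Vale.Agent.P092.H866.ErgQ
import Vale.Agent.P092.H805.Res
import Vale.Agent.P092.SR.St

/-!
P092 (helper866).  [Q-ERG-LIT], connected places, in the letters of `Q/Canon.lean`.
-/

set_option linter.all false

open scoped InnerProductSpace Topology ENNReal
open Filter ContinuousLinearMap

namespace Vale.Agent.P092.H866

open H160 SR H776
open PA (HM FacS)

/-- In a dense subgroup of a connected group the conjugates by elements near `1` of an element with
infinitely many conjugates are infinitely many. -/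
theorem inf_conj_icc {Γ G : Type} [Group Γ] [Group G] [TopologicalSpace G] [IsTopologicalGroup G]
    [PreconnectedSpace G] {p : Γ →* G} (hp : DenseRange p) {g : Γ}
    (hg : {y : Γ | ∃ h, y = h * g * h⁻¹}.Infinite) {N : Set G} (hN : N ∈ 𝓝 (1 : G)) :
    {y : Γ | ∃ w, p w ∈ N ∧ y = w * g * w⁻¹}.Infinite := by
  intro hfin
  -- a neighbourhood with the smallest number of conjugates
  have hex : ∃ n : ℕ, ∃ N' ∈ 𝓝 (1 : G), {y : Γ | ∃ w, p w ∈ N' ∧ y = w * g * w⁻¹}.Finite ∧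
      {y : Γ | ∃ w, p w ∈ N' ∧ y = w * g * w⁻¹}.ncard = n := ⟨_, N, hN, hfin, rfl⟩
  classical
  obtain ⟨N₀, hN₀, hf₀, hn₀⟩ := Nat.find_spec hex
  set S := {y : Γ | ∃ w, p w ∈ N₀ ∧ y = w * g * w⁻¹} with hS
  have hmin : ∀ N' ∈ 𝓝 (1 : G), N' ⊆ N₀ → S ⊆ {y : Γ | ∃ w, p w ∈ N' ∧ y = w * g * w⁻¹} := by
    intro N' hN' hsub
    have h1 : {y : Γ | ∃ w, p w ∈ N' ∧ y = w * g * w⁻¹} ⊆ S := by
      rintro y ⟨w, hw, rfl⟩
      exact ⟨w, hsub hw, rfl⟩
    have h2 := Nat.find_min' hex ⟨N', hN', hf₀.subset h1, rfl⟩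
    rw [← hn₀] at h2
    exact (Set.eq_of_subset_of_ncard_le h1 h2 hf₀).ge
  -- a small neighbourhood preserves `S`
  have h2 : Tendsto (fun z : G × G => z.1 * z.2) (𝓝 (1, 1)) (𝓝 1) := by
    have h3 := (continuous_mul (M := G)).tendsto (1, 1)
    simpa using h3
  have h3 := h2 hN₀
  rw [nhds_prod_eq] at h3
  obtain ⟨V, hV, hVN⟩ := Filter.mem_prod_same_iff.mp h3
  have hst : ∀ w, p w ∈ V → ∀ y ∈ S, w * y * w⁻¹ ∈ S := by
    intro w hw y hy
    obtain ⟨v, hv, rfl⟩ := hmin (V ∩ N₀) (Filter.inter_mem hV hN₀) Set.inter_subset_right hy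
    refine ⟨w * v, ?_, by group⟩
    rw [map_mul]
    exact hVN (Set.mk_mem_prod hw hv.1)
  -- the stabiliser
  let T : Subgroup Γ :=
    { carrier := {w | ∀ y, y ∈ S ↔ w * y * w⁻¹ ∈ S}
      one_mem' := fun y => by rw [one_mul, inv_one, mul_one]
      mul_mem' := fun {a b} ha hb y => by
        have e : a * b * y * (a * b)⁻¹ = a * (b * y * b⁻¹) * a⁻¹ := by group
        rw [e, ← ha, ← hb]
      inv_mem' := fun {a} ha y => by
        have h := ha (a⁻¹ * y * a⁻¹⁻¹)
        have e : a * (a⁻¹ * y * a⁻¹⁻¹) * a⁻¹ = y := by group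
        rw [e] at h
        exact h.symm }
  have hT : T = ⊤ := by
    refine eq_top_of_nhds hp T (N := V ∩ V⁻¹) (Filter.inter_mem hV ?_) ?_
    · exact inv_mem_nhds_one G hV
    · intro w hw y
      refine ⟨hst w hw.1 y, fun hy => ?_⟩
      have h4 := hst w⁻¹ (by rw [map_inv]; exact hw.2) _ hy
      have e : w⁻¹ * (w * y * w⁻¹) * w⁻¹⁻¹ = y := by group
      rwa [e] at h4
  refine hg (hf₀.subset ?_)
  rintro _ ⟨h, rfl⟩
  have h5 : h ∈ T := by rw [hT]; trivial
  have h6 : g ∈ S := ⟨1, by rw [map_one]; exact mem_of_mem_nhds hN₀, by group⟩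
  exact (h5 g).mp h6

/-- **[Q-ERG-LIT]** at a connected place. -/
theorem erg_icc {Γ Λ G : Type} [Group Γ] [Group Λ] [Group G] [TopologicalSpace G]
    {α : Γ →* (Ell2 Λ →L[ℂ] Ell2 Λ)} {p : Γ →* G} [PreconnectedSpace G] (hG : FacS G)
    (hΓ : SR.St.ICC Γ) (hΛ : SR.St.ICC Λ) (hα : Frame α) (hp : DenseRange p) :
    H805.Erg p (RRR α) (VV α) (dl (1 : Λ × Λ)) := by
  haveI := hG.top
  haveI := hG.t2
  intro T hT hcont
  refine erg_conn' hα hΛ hp (fd_of_facS hG hp) (fun g hg N hN => inf_conj_icc hp (hΓ g hg) hN)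
    (fun q => ?_) hcont
  refine comm_rho_of hα (fun g => ?_) (fun g => ?_) q
  · have := hT (g, 1)
    rw [RRR_apply, map_one, mul_one] at this
    exact this
  · have := hT (1, g)
    rw [RRR_apply, map_one, one_mul] at this
    exact this

/-- A local field is connected or ultrametric. -/
theorem conn_or_ultra {k : Type} [NontriviallyNormedField k] (hk : H933.LocK k) :
    PreconnectedSpace k ∨ IsUltrametricDist k := by
  rcases hk with ⟨φ, h⟩ | ⟨φ, h⟩ | h
  · exact Or.inl (preconnected_of_isom φ h)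
  · exact Or.inl (preconnected_of_isom φ h)
  · exact Or.inr h

end Vale.Agent.P092.H866
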