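import Vale.Agent.P092.H866.Fd
import Vale.Agent.P092.PA.Fac

/-!
P092 (helper866).  A dense subgroup of a non-compact group with the Howe-Moore property has no
non-trivial finite dimensional unitary representation which is continuous for the induced topology.
-/

set_option linter.all false

open scoped InnerProductSpace Topology ENNReal
open Filter ContinuousLinearMap

namespace Vale.Agent.P092.H866

open PA (HM FacS)

variable {Γ G : Type} [Group Γ] [Group G] [TopologicalSpace G]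

section ext

variable {X : Type} [NormedAddCommGroup X] [InnerProductSpace ℂ X] [CompleteSpace X]

theorem dist_rep {ρ : Γ →* (X →L[ℂ] X)} (hiso : ∀ w ξ, ‖ρ w ξ‖ = ‖ξ‖) (w v : Γ) :
    ‖ρ v - ρ w‖ ≤ ‖ρ (w⁻¹ * v) - 1‖ := by
  refine ContinuousLinearMap.opNorm_le_bound _ (norm_nonneg _) fun ξ => ?_
  have h1 : (ρ v - ρ w) ξ = ρ w ((ρ (w⁻¹ * v) - 1) ξ) := by
    rw [sub_apply, sub_apply, map_sub]
    congr 1
    change _ = (ρ w * ρ (w⁻¹ * v)) ξ
    rw [← map_mul, mul_inv_cancel_left]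
  rw [h1, hiso]
  exact le_opNorm _ _

/-- Extension of a representation from a dense subgroup. -/
theorem exists_ext [IsTopologicalGroup G] {p : Γ →* G} (hp : DenseRange p)
    (ρ : Γ →* (X →L[ℂ] X)) (hiso : ∀ w ξ, ‖ρ w ξ‖ = ‖ξ‖)
    (hc : Tendsto ρ (comap p (𝓝 1)) (𝓝 1)) :
    ∃ σ : G →* (X →L[ℂ] X), Continuous σ ∧ ∀ w, σ (p w) = ρ w := by
  letI : TopologicalSpace Γ := TopologicalSpace.induced p inferInstance
  have hdi : IsDenseInducing p := ⟨⟨rfl⟩, hp⟩
  have key : ∀ ε : ℝ, 0 < ε → ∃ U ∈ 𝓝 (1 : G), ∀ w, p w ∈ U → ‖ρ w - 1‖ < ε := by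
    intro ε hε
    have h1 := Metric.tendsto_nhds.mp hc ε hε
    obtain ⟨U, hU, hUε⟩ := Filter.mem_comap.mp h1
    exact ⟨U, hU, fun w hw => by
      have := hUε (show w ∈ p ⁻¹' U from hw)
      rwa [Set.mem_setOf_eq, dist_eq_norm] at this⟩
  have hlim : ∀ g : G, ∃ c, Tendsto ρ (comap p (𝓝 g)) (𝓝 c) := by
    intro g
    haveI := hdi.comap_nhds_neBot g
    have hC : Cauchy (map ρ (comap p (𝓝 g))) := by
      rw [Metric.cauchy_iff]
      refine ⟨inferInstance, fun ε hε => ?_⟩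
      obtain ⟨U, hU, hUε⟩ := key ε hε
      have h2 : Tendsto (fun z : G × G => z.1⁻¹ * z.2) (𝓝 (g, g)) (𝓝 1) := by
        have : Continuous fun z : G × G => z.1⁻¹ * z.2 := by fun_prop
        have h3 := this.tendsto (g, g)
        simpa using h3
      have h3 := h2 hU
      rw [nhds_prod_eq] at h3
      obtain ⟨V, hV, hVU⟩ := Filter.mem_prod_same_iff.mp h3
      refine ⟨ρ '' (p ⁻¹' V), Filter.image_mem_map (Filter.preimage_mem_comap hV), ?_⟩
      rintro _ ⟨v, hv, rfl⟩ _ ⟨w, hw, rfl⟩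
      rw [dist_eq_norm]
      refine lt_of_le_of_lt (dist_rep hiso w v) (hUε _ ?_)
      have h4 := hVU (Set.mk_mem_prod hw hv)
      rw [map_mul, map_inv]
      exact h4
    exact CompleteSpace.complete hC
  have hcont : Continuous (hdi.extend ρ) := hdi.continuous_extend hlim
  have hρc : Continuous ρ := by
    rw [continuous_iff_continuousAt]
    intro w
    obtain ⟨c, hc'⟩ := hlim (p w)
    rw [ContinuousAt, hdi.nhds_eq_comap]
    have h1 : ρ w = c := by
      have h2 : pure w ≤ comap p (𝓝 (p w)) := by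
        rw [← hdi.nhds_eq_comap]
        exact pure_le_nhds w
      have h3 := hc'.mono_left h2
      rw [tendsto_pure_left] at h3
      have h4 : ρ w ∈ ({c} : Set (X →L[ℂ] X)) := by
        have h5 : ∀ s ∈ 𝓝 c, ρ w ∈ s := h3
        have h6 : ρ w ∈ ⋂₀ (𝓝 c).sets := Set.mem_sInter.mpr fun s hs => h5 s hs
        by_contra hne
        have hne' : c ≠ ρ w := fun h => hne h.symm
        exact h5 _ (isOpen_compl_singleton.mem_nhds hne') rfl
      exact h4
    rw [h1]
    exact hc'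
  have hext : ∀ w, hdi.extend ρ (p w) = ρ w := fun w => hdi.extend_eq hρc w
  refine ⟨{ toFun := hdi.extend ρ
            map_one' := by
              rw [← map_one p, hext, map_one]
            map_mul' := ?_ }, hcont, hext⟩
  have h1 : (fun z : G × G => hdi.extend ρ (z.1 * z.2)) =
      fun z : G × G => hdi.extend ρ z.1 * hdi.extend ρ z.2 := by
    refine (hp.prodMap hp).equalizer (hcont.comp (by fun_prop))
      ((hcont.comp continuous_fst).mul (hcont.comp continuous_snd)) ?_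
    funext z
    change hdi.extend ρ (p z.1 * p z.2) = hdi.extend ρ (p z.1) * hdi.extend ρ (p z.2)
    rw [← map_mul, hext, hext, hext, map_mul]
  intro g h
  exact congrFun h1 (g, h)

end ext

section fix

variable {X : Type} [NormedAddCommGroup X] [InnerProductSpace ℂ X] [CompleteSpace X]
  [FiniteDimensional ℂ X]

theorem inner_iso {A : X →L[ℂ] X} (hA : ∀ ξ, ‖A ξ‖ = ‖ξ‖) (ξ η : X) : ⟪A ξ, A η⟫_ℂ = ⟪ξ, η⟫_ℂ := by
  let L : X →ₗᵢ[ℂ] X := ⟨A, hA⟩
  exact L.inner_map_map ξ η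

/-- All vectors are fixed. -/
theorem fix_all (hm : HM G) (hnc : ¬ CompactSpace G) (σ : G →* (X →L[ℂ] X))
    (hiso : ∀ g ξ, ‖σ g ξ‖ = ‖ξ‖) (hc : Continuous σ) : ∀ g, σ g = 1 := by
  let F : Submodule ℂ X :=
    { carrier := {ξ | ∀ g, σ g ξ = ξ}
      zero_mem' := fun g => map_zero _
      add_mem' := fun {a b} ha hb g => by rw [map_add, ha, hb]
      smul_mem' := fun c a ha g => by rw [map_smul, ha] }
  have hinv : ∀ g, ∀ ξ ∈ Fᗮ, σ g ξ ∈ Fᗮ := by
    intro g ξ hξ
    rw [Submodule.mem_orthogonal] at hξ ⊢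
    intro η hη
    have h1 := hξ η hη
    rw [← inner_iso (hiso g), hη g] at h1
    exact h1
  let τ : G →* (Fᗮ →L[ℂ] Fᗮ) :=
    { toFun := fun g => ((σ g).comp Fᗮ.subtypeL).codRestrict Fᗮ fun ξ => hinv g ξ ξ.2
      map_one' := by
        ext ξ
        change σ 1 (ξ : X) = ξ
        rw [map_one]; rfl
      map_mul' := fun g h => by
        ext ξ
        change σ (g * h) (ξ : X) = σ g (σ h (ξ : X))
        rw [map_mul]; rfl }
  have hτ : ∀ g (ξ : Fᗮ), ((τ g ξ : Fᗮ) : X) = σ g (ξ : X) := fun g ξ => rfl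
  have hcoef := hm Fᗮ τ (fun g ξ => hiso g (ξ : X)) (fun ξ => by
      refine Continuous.subtype_mk ?_ _
      exact (ContinuousLinearMap.apply ℂ X (ξ : X)).continuous.comp hc) (fun ξ hξ => by
      have h1 : (ξ : X) ∈ F := fun g => by
        rw [← hτ, hξ g]
      have h2 := Submodule.inner_right_of_mem_orthogonal h1 ξ.2
      exact Subtype.ext (inner_self_eq_zero.mp h2))
  haveI : NoncompactSpace G := not_compactSpace_iff.mp hnc
  haveI : NeBot (cocompact G) := inferInstance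
  have hzero : ∀ ξ : Fᗮ, ξ = 0 := by
    intro ξ
    let b := stdOrthonormalBasis ℂ Fᗮ
    have h1 : ∀ g, ‖ξ‖ ^ 2 = ∑ i, ‖⟪b i, τ g ξ⟫_ℂ‖ ^ 2 := by
      intro g
      rw [b.sum_sq_norm_inner_right]
      congr 1
      exact (hiso g (ξ : X)).symm
    have h2 : Tendsto (fun g => ∑ i, ‖⟪b i, τ g ξ⟫_ℂ‖ ^ 2) (cocompact G)
        (𝓝 (∑ _i : Fin (Module.finrank ℂ Fᗮ), (0 : ℝ))) := by
      refine tendsto_finsetSum _ fun i _ => ?_
      have h3 := ((hcoef (b i) ξ).norm).pow 2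
      rw [norm_zero, zero_pow two_ne_zero] at h3
      exact h3
    have h3 : Tendsto (fun _ : G => ‖ξ‖ ^ 2) (cocompact G) (𝓝 0) := by
      refine (h2.congr fun g => (h1 g).symm).trans ?_
      rw [Finset.sum_const_zero]
    have h4 := tendsto_nhds_unique h3 tendsto_const_nhds
    have h5 : ‖ξ‖ = 0 := by
      have := h4.symm
      exact pow_eq_zero_iff two_ne_zero |>.mp this
    exact norm_eq_zero.mp h5
  have hF : F = ⊤ := by
    rw [← Submodule.orthogonal_eq_bot_iff, Submodule.eq_bot_iff]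
    intro ξ hξ
    exact congrArg Subtype.val (hzero ⟨ξ, hξ⟩)
  intro g
  ext1 ξ
  have h1 : ξ ∈ F := by rw [hF]; trivial
  exact h1 g

end fix

/-- **[FD]** from the Howe-Moore property. -/
theorem fd_of_hm [IsTopologicalGroup G] (hm : HM G) (hnc : ¬ CompactSpace G) {p : Γ →* G}
    (hp : DenseRange p) : FD p := by
  intro n π hπ hcont w
  obtain ⟨T, hT⟩ : ∃ T : Matrix (Fin n) (Fin n) ℂ ≃⋆ₐ[ℂ]
    (EuclideanSpace ℂ (Fin n) →L[ℂ] EuclideanSpace ℂ (Fin n)), T = Matrix.toEuclideanCLM (𝕜 := ℂ) :=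
    ⟨_, rfl⟩
  let ρ : Γ →* (EuclideanSpace ℂ (Fin n) →L[ℂ] EuclideanSpace ℂ (Fin n)) :=
    { toFun := fun w => T (π w)
      map_one' := by rw [map_one, map_one]
      map_mul' := fun a b => by rw [map_mul, map_mul] }
  have hρ : ∀ w, adjoint (ρ w) * ρ w = 1 := by
    intro w
    change star (T (π w)) * T (π w) = 1
    rw [← map_star, ← map_mul]
    have h1 : star (π w) * π w = 1 := hπ w
    rw [h1, map_one]
  have hiso : ∀ w ξ, ‖ρ w ξ‖ = ‖ξ‖ := by
    intro w ξ
    have h1 : ⟪ρ w ξ, ρ w ξ⟫_ℂ = ⟪ξ, ξ⟫_ℂ := by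
      rw [← adjoint_inner_right]
      change ⟪ξ, (adjoint (ρ w) * ρ w) ξ⟫_ℂ = _
      rw [hρ]; rfl
    rw [inner_self_eq_norm_sq_to_K, inner_self_eq_norm_sq_to_K] at h1
    have h2 : ‖ρ w ξ‖ ^ 2 = ‖ξ‖ ^ 2 := by exact_mod_cast h1
    exact (pow_left_inj₀ (norm_nonneg _) (norm_nonneg _) two_ne_zero).mp h2
  have hTc : Continuous T := by
    let L : Matrix (Fin n) (Fin n) ℂ →ₗ[ℂ]
      (EuclideanSpace ℂ (Fin n) →L[ℂ] EuclideanSpace ℂ (Fin n)) :=
      { toFun := T
        map_add' := map_add T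
        map_smul' := map_smul T }
    exact L.continuous_of_finiteDimensional
  have hc : Tendsto ρ (comap p (𝓝 1)) (𝓝 1) := by
    have h1 : Tendsto (fun w => π w) (comap p (𝓝 1)) (𝓝 (1 : Matrix (Fin n) (Fin n) ℂ)) := by
      refine tendsto_pi_nhds.mpr fun i => tendsto_pi_nhds.mpr fun j => hcont i j
    have h2 := (hTc.tendsto 1).comp h1
    rw [map_one] at h2
    exact h2
  obtain ⟨σ, hσc, hσ⟩ := exists_ext hp ρ hiso hc
  have hσiso : ∀ g ξ, ‖σ g ξ‖ = ‖ξ‖ := by
    intro g ξ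
    have h1 : (fun g => ‖σ g ξ‖) = fun _ => ‖ξ‖ := by
      refine hp.equalizer ?_ continuous_const ?_
      · exact ((ContinuousLinearMap.apply ℂ _ ξ).continuous.comp hσc).norm
      · funext w
        change ‖σ (p w) ξ‖ = ‖ξ‖
        rw [hσ, hiso]
    exact congrFun h1 g
  have h1 := fix_all hm hnc σ hσiso hσc (p w)
  rw [hσ] at h1
  have h2 : T (π w) = T 1 := by rw [map_one]; exact h1
  exact T.injective h2

theorem fd_of_facS (hG : FacS G) {p : Γ →* G} (hp : DenseRange p) : FD p :=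
  haveI := hG.top
  fd_of_hm hG.hm hG.nc hp

end Vale.Agent.P092.H866
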