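import Vale.Agent.P092.H866.Erg
import Vale.Agent.P092.H866.Ext
import Vale.Agent.P092.H971.GF0
import Vale.Agent.P092.H933.LocF

/-!
P092 (helper866).  [Q-ERG-CONN] for the factors `FacS`; `SL_n` and `PSL_n` of a connected field are
connected.
-/

set_option linter.all false

open scoped InnerProductSpace Topology ENNReal
open Filter ContinuousLinearMap

namespace Vale.Agent.P092.H866

open H160 SR H776
open PA (HM FacS)

/-- **[Q-ERG-CONN]** for a connected factor: arbitrary ICC group `Λ`. -/
theorem erg_facS {Γ Λ G : Type} [Group Γ] [Group Λ] [Group G] [TopologicalSpace G]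
    {α : Γ →* (Ell2 Λ →L[ℂ] Ell2 Λ)} {p : Γ →* G} [PreconnectedSpace G] (hG : FacS G)
    (hα : Frame α) (hicc : ∀ s : Λ, s ≠ 1 → {y : Λ | ∃ k, y = k * s * k⁻¹}.Infinite)
    (hp : DenseRange p) (hinj : ∀ g, p g = 1 → g = 1)
    (T : Ell2 (Λ × Λ) →L[ℂ] Ell2 (Λ × Λ)) (hT : Cmm (RRR α) T)
    (hcont : ∀ ε > 0, ∃ W ∈ 𝓝 (1 : G), ∀ v, p v ∈ W →
      ‖(VV α v * T * VV α v⁻¹ - T) (dl 1)‖ ≤ ε) :
    ∃ c : ℂ, T = c • (1 : Ell2 (Λ × Λ) →L[ℂ] Ell2 (Λ × Λ)) := by
  haveI := hG.top
  haveI := hG.t2
  exact erg_conn hα hicc hp (fd_of_facS hG hp) (fun g hg => hG.cent _ fun h => hg (hinj g h)) T hT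
    hcont

theorem preconn_of_surj {X Y : Type} [TopologicalSpace X] [TopologicalSpace Y] [PreconnectedSpace X]
    {f : X → Y} (hf : Function.Surjective f) (hc : Continuous f) : PreconnectedSpace Y := by
  refine ⟨?_⟩
  rw [← hf.range_eq]
  exact isPreconnected_range hc

section conn

open Matrix

variable {n : Type} [Fintype n] [DecidableEq n] {k : Type} [Field k] [TopologicalSpace k]
  [IsTopologicalRing k]

theorem continuous_e {i j : n} (hij : i ≠ j) :
    Continuous fun s : k => (H971.e hij s : SpecialLinearGroup n k) := by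
  refine Continuous.subtype_mk ?_ _
  have h1 : Continuous fun s : k => (1 : Matrix n n k) + Matrix.single i j s := by
    refine continuous_const.add ?_
    refine continuous_matrix fun a b => ?_
    simp only [Matrix.single_apply]
    by_cases h : i = a ∧ j = b
    · simp only [if_pos h]; exact continuous_id
    · simp only [if_neg h]; exact continuous_const
  exact h1

theorem preconnected_sl [Nontrivial n] [PreconnectedSpace k] :
    PreconnectedSpace (SpecialLinearGroup n k) := by
  have h1 : Subgroup.connectedComponentOfOne (SpecialLinearGroup n k) = ⊤ := by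
    refine H971.eq_top_of_e fun i j hij s => ?_
    change H971.e hij s ∈ connectedComponent (1 : SpecialLinearGroup n k)
    have h2 : IsPreconnected (Set.range fun s : k => (H971.e hij s : SpecialLinearGroup n k)) :=
      isPreconnected_range (continuous_e hij)
    refine h2.subset_connectedComponent ⟨0, ?_⟩ ⟨s, rfl⟩
    exact H971.e_zero hij
  have h2 : connectedComponent (1 : SpecialLinearGroup n k) = Set.univ := by
    have h3 : ((Subgroup.connectedComponentOfOne (SpecialLinearGroup n k) :
      Subgroup (SpecialLinearGroup n k)) : Set (SpecialLinearGroup n k)) = Set.univ := by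
      rw [h1]; rfl
    exact h3
  refine ⟨?_⟩
  rw [← h2]
  exact isPreconnected_connectedComponent

theorem preconnected_psl [Nontrivial n] [PreconnectedSpace k] :
    PreconnectedSpace (SpecialLinearGroup n k ⧸ Subgroup.center (SpecialLinearGroup n k)) := by
  haveI := preconnected_sl (n := n) (k := k)
  exact preconn_of_surj QuotientGroup.mk_surjective continuous_quotient_mk'

end conn

/-- The archimedean local fields are connected. -/
theorem preconnected_of_isom {k E : Type} [NontriviallyNormedField k] [NormedField E]
    [PreconnectedSpace E] (φ : k ≃+* E) (h : ∀ x, ‖φ x‖ = ‖x‖) : PreconnectedSpace k := by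
  have hc : Continuous φ.symm := by
    refine (AddMonoidHomClass.isometry_of_norm φ.symm fun x => ?_).continuous
    rw [← h, RingEquiv.apply_symm_apply]
  exact preconn_of_surj φ.symm.surjective hc

end Vale.Agent.P092.H866
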