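import Mathlib

/-!
P092 (helper866).  An operator with bounded Hilbert-Schmidt sums is compact.
-/

set_option linter.all false

open scoped InnerProductSpace Topology
open Filter ContinuousLinearMap

namespace Vale.Agent.P092.H866

variable {H K : Type} [NormedAddCommGroup H] [InnerProductSpace ℂ H] [CompleteSpace H]
  [NormedAddCommGroup K] [InnerProductSpace ℂ K] [CompleteSpace K]

theorem orthonormal_cons {n : ℕ} {ξ : Fin n → H} (hξ : Orthonormal ℂ ξ) {η : H} (hη : ‖η‖ = 1)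
    (ho : ∀ i, ⟪ξ i, η⟫_ℂ = 0) : Orthonormal ℂ (Fin.cons η ξ : Fin (n + 1) → H) := by
  rw [orthonormal_iff_ite]
  intro i j
  refine Fin.cases ?_ (fun i' => ?_) i
  · refine Fin.cases ?_ (fun j' => ?_) j
    · simp [inner_self_eq_norm_sq_to_K, hη]
    · have h1 : ⟪η, ξ j'⟫_ℂ = 0 := by rw [← inner_conj_symm, ho, map_zero]
      rw [Fin.cons_zero, Fin.cons_succ, h1, if_neg (Fin.succ_ne_zero j').symm]
  · refine Fin.cases ?_ (fun j' => ?_) j
    · rw [Fin.cons_zero, Fin.cons_succ, ho, if_neg (Fin.succ_ne_zero i')]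
    · rw [Fin.cons_succ, Fin.cons_succ, orthonormal_iff_ite.mp hξ]
      simp [Fin.succ_inj]

/-- An operator with bounded Hilbert-Schmidt sums is compact. -/
theorem compact_of_sums (A : H →L[ℂ] K) (C : ℝ)
    (hA : ∀ (n : ℕ) (ξ : Fin n → H), Orthonormal ℂ ξ → ∑ i, ‖A (ξ i)‖ ^ 2 ≤ C) :
    IsCompactOperator A := by
  classical
  -- the supremum of the sums
  set S : Set ℝ := {x | ∃ (n : ℕ) (ξ : Fin n → H), Orthonormal ℂ ξ ∧ x = ∑ i, ‖A (ξ i)‖ ^ 2} with hS
  have hne : S.Nonempty := ⟨0, 0, Fin.elim0, ⟨fun i => i.elim0, fun i => i.elim0⟩, by simp⟩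
  have hbdd : BddAbove S := ⟨C, by rintro x ⟨n, ξ, hξ, rfl⟩; exact hA n ξ hξ⟩
  -- small outside a finite dimensional space
  have key : ∀ ε : ℝ, 0 < ε → ∃ V : Submodule ℂ H, FiniteDimensional ℂ V ∧
      ∀ η ∈ Vᗮ, ‖A η‖ ≤ ε * ‖η‖ := by
    intro ε hε
    obtain ⟨x, ⟨n, ξ, hξ, rfl⟩, hx⟩ := exists_lt_of_lt_csSup hne
      (show sSup S - ε ^ 2 < sSup S by have := pow_pos hε 2; linarith)
    refine ⟨Submodule.span ℂ (Set.range ξ), FiniteDimensional.span_of_finite ℂ (Set.finite_range ξ), ?_⟩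
    intro η hη
    by_cases h0 : η = 0
    · rw [h0, map_zero, norm_zero, norm_zero, mul_zero]
    have hpos : 0 < ‖η‖ := norm_pos_iff.mpr h0
    have h1 : ‖((‖η‖⁻¹ : ℝ) : ℂ) • η‖ = 1 := by
      rw [norm_smul, Complex.norm_real, norm_inv, norm_norm, inv_mul_cancel₀ hpos.ne']
    have h2 : ∀ i, ⟪ξ i, ((‖η‖⁻¹ : ℝ) : ℂ) • η⟫_ℂ = 0 := by
      intro i
      rw [inner_smul_right, (Submodule.mem_orthogonal _ _).mp hη _ (Submodule.subset_span ⟨i, rfl⟩),
        mul_zero]
    have h3 := le_csSup hbdd ⟨n + 1, _, orthonormal_cons hξ h1 h2, rfl⟩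
    rw [Fin.sum_univ_succ] at h3
    simp only [Fin.cons_zero, Fin.cons_succ] at h3
    have h4 : ‖A (((‖η‖⁻¹ : ℝ) : ℂ) • η)‖ ^ 2 ≤ ε ^ 2 := by linarith
    have h5 : ‖A (((‖η‖⁻¹ : ℝ) : ℂ) • η)‖ ≤ ε := by
      exact (pow_le_pow_iff_left₀ (norm_nonneg _) hε.le two_ne_zero).mp h4
    rw [map_smul, norm_smul, Complex.norm_real, norm_inv, norm_norm,
      inv_mul_le_iff₀ hpos] at h5
    linarith [mul_comm ε ‖η‖]
  have hcl := isClosed_setOf_isCompactOperator (𝕜₁ := ℂ) (𝕜₂ := ℂ) (σ₁₂ := RingHom.id ℂ)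
    (M₁ := H) (M₂ := K)
  have hmem : A ∈ closure {f : H →L[ℂ] K | IsCompactOperator f} := by
    rw [Metric.mem_closure_iff]
    intro ε hε
    obtain ⟨V, hV, hη⟩ := key (ε / 2) (by positivity)
    haveI := hV
    refine ⟨A.comp V.starProjection, ?_, ?_⟩
    · -- compactness of a finite rank operator
      have h1 : A.comp V.starProjection = (A.comp V.subtypeL).comp V.orthogonalProjectionOnto := rfl
      change IsCompactOperator (A.comp V.starProjection)
      rw [h1]
      haveI : LocallyCompactSpace V := LocallyCompactSpace.of_finiteDimensional_of_complete ℂ V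
      have h2 : IsCompactOperator (A.comp V.subtypeL) :=
        isCompactOperator_of_locallyCompactSpace_rng (A.comp V.subtypeL)
      exact h2.comp_clm V.orthogonalProjectionOnto
    · rw [dist_eq_norm]
      refine lt_of_le_of_lt (ContinuousLinearMap.opNorm_le_bound _ (by positivity) (fun ξ => ?_))
        (half_lt_self hε)
      have h1 : (A - A.comp V.starProjection) ξ = A (ξ - V.starProjection ξ) := by
        rw [map_sub]; rfl
      rw [h1]
      refine (hη _ (Submodule.sub_starProjection_mem_orthogonal _)).trans ?_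
      refine mul_le_mul_of_nonneg_left ?_ (by positivity)
      have h2 : ‖ξ‖ ^ 2 = ‖V.starProjection ξ‖ ^ 2 + ‖ξ - V.starProjection ξ‖ ^ 2 := by
        have h3 : ⟪V.starProjection ξ, ξ - V.starProjection ξ⟫_ℂ = 0 :=
          (Submodule.mem_orthogonal _ _).mp (Submodule.sub_starProjection_mem_orthogonal _) _
            (Submodule.starProjection_apply_mem _ _)
        have h4 := norm_add_sq (𝕜 := ℂ) (V.starProjection ξ) (ξ - V.starProjection ξ)
        rw [h3, add_sub_cancel] at h4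
        simpa using h4
      have h5 := sq_nonneg ‖V.starProjection ξ‖
      have h6 : ‖ξ - V.starProjection ξ‖ ^ 2 ≤ ‖ξ‖ ^ 2 := by linarith
      exact (pow_le_pow_iff_left₀ (norm_nonneg _) (norm_nonneg _) two_ne_zero).mp h6
  rw [hcl.closure_eq] at hmem
  exact hmem

end Vale.Agent.P092.H866
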