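import Mathlib

/-!
P092 (helper866).  Ergodicity at connected places: the finite dimensional part.

`FD p` : every finite dimensional unitary representation of `Γ` which is continuous for the
topology induced by `p : Γ → G` is trivial.

* `eq_top_of_nhds` : a subgroup of `Γ` containing all `w` with `p w` near `1` is everything,
  if `G` is connected and `p` has dense range;
* `FD.form_trivial` : an action on a vector space preserving a semi-definite form of finite rank;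
* `trace_eq` : traces on `E` and on `W E` agree for `W` near `1`;
* `kills` : the main statement.
-/

set_option linter.all false

open scoped InnerProductSpace Topology
open Filter ContinuousLinearMap

namespace Vale.Agent.P092.H866

variable {Γ G : Type} [Group Γ] [Group G] [TopologicalSpace G]

/-- Every finite dimensional unitary representation of `Γ` which is continuous for the topology
induced by `p` is trivial. -/
def FD (p : Γ →* G) : Prop :=
  ∀ (n : ℕ) (π : Γ →* Matrix (Fin n) (Fin n) ℂ),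
    (∀ w, (π w).conjTranspose * π w = 1) →
    (∀ i j, Tendsto (fun w => π w i j) (comap p (𝓝 1)) (𝓝 ((1 : Matrix (Fin n) (Fin n) ℂ) i j))) →
    ∀ w, π w = 1

theorem eq_top_of_nhds [IsTopologicalGroup G] [PreconnectedSpace G] {p : Γ →* G}
    (hp : DenseRange p) (S : Subgroup Γ) {N : Set G} (hN : N ∈ 𝓝 (1 : G))
    (hS : ∀ w, p w ∈ N → w ∈ S) : S = ⊤ := by
  -- the closure of the image is an open subgroup
  set T : Subgroup G := (S.map p).topologicalClosure with hT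
  have hTopen : IsOpen (T : Set G) := by
    refine Subgroup.isOpen_of_mem_nhds T (g := 1) ?_
    obtain ⟨V, hVN, hVo, h1V⟩ := mem_nhds_iff.mp hN
    refine Filter.mem_of_superset (hVo.mem_nhds h1V) ?_
    intro g hg
    change g ∈ closure ((S.map p : Subgroup G) : Set G)
    rw [mem_closure_iff]
    intro O hO hgO
    obtain ⟨w, hw⟩ := hp.exists_mem_open (hO.inter hVo) ⟨g, hgO, hg⟩
    exact ⟨p w, hw.1, ⟨w, hS w (hVN hw.2), rfl⟩⟩
  have hTclosed : IsClosed (T : Set G) := by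
    rw [hT]; exact Subgroup.isClosed_topologicalClosure _
  have hTuniv : (T : Set G) = Set.univ :=
    IsClopen.eq_univ ⟨hTclosed, hTopen⟩ ⟨1, T.one_mem⟩
  rw [Subgroup.eq_top_iff']
  intro w
  have hw : p w ∈ closure ((S.map p : Subgroup G) : Set G) := by
    have : p w ∈ (T : Set G) := by rw [hTuniv]; trivial
    exact this
  -- find `s` in `S` with `p s⁻¹ w` near `1`
  have hcont : Tendsto (fun g : G => g⁻¹ * p w) (𝓝 (p w)) (𝓝 1) := by
    have h1 : Continuous fun g : G => g⁻¹ * p w := by fun_prop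
    have h2 := h1.tendsto (p w)
    simpa using h2
  have hV := hcont hN
  rw [mem_closure_iff_nhds] at hw
  obtain ⟨g, hgV, s, hs, rfl⟩ := hw _ hV
  have h3 : s⁻¹ * w ∈ S := hS _ (by
    rw [map_mul, map_inv]
    exact hgV)
  have h4 := S.mul_mem hs h3
  rwa [mul_inv_cancel_left] at h4

/-- A linear action preserving a semi-definite form of finite rank, continuous for `p`, is
trivial modulo the kernel of the form. -/
theorem FD.form_trivial {p : Γ →* G} (hfd : FD p) {X : Type} [AddCommGroup X] [Module ℂ X]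
    {F : Type} [NormedAddCommGroup F] [InnerProductSpace ℂ F] (Φ : X →ₗ[ℂ] F)
    [FiniteDimensional ℂ (LinearMap.range Φ)] (a : Γ → X →ₗ[ℂ] X) (h1 : ∀ x, a 1 x = x)
    (hm : ∀ w v x, a (w * v) x = a w (a v x))
    (hin : ∀ w x y, ⟪Φ (a w x), Φ (a w y)⟫_ℂ = ⟪Φ x, Φ y⟫_ℂ)
    (hc : ∀ x y, Tendsto (fun w => ⟪Φ y, Φ (a w x)⟫_ℂ) (comap p (𝓝 1)) (𝓝 ⟪Φ y, Φ x⟫_ℂ)) :
    ∀ w x, Φ (a w x) = Φ x := by
  classical
  -- basis
  set V : Submodule ℂ F := LinearMap.range Φ with hV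
  let n := Module.finrank ℂ V
  let b : OrthonormalBasis (Fin n) ℂ V := stdOrthonormalBasis ℂ V
  have hpre : ∀ j : Fin n, ∃ x : X, Φ x = (b j : F) := fun j => (b j).2
  choose x hx using hpre
  have hinner : ∀ i j : Fin n, ⟪(b i : F), (b j : F)⟫_ℂ = if i = j then 1 else 0 := by
    intro i j
    have := orthonormal_iff_ite.mp b.orthonormal i j
    simpa using this
  -- expansion of elements of V
  have hexp : ∀ y : X, Φ y = ∑ j, ⟪(b j : F), Φ y⟫_ℂ • (b j : F) := by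
    intro y
    have h2 := b.sum_repr ⟨Φ y, y, rfl⟩
    have h3 : ((∑ i, (b.repr ⟨Φ y, y, rfl⟩).ofLp i • b i : V) : F) = Φ y :=
      congrArg (Subtype.val) h2
    conv_lhs => rw [← h3]
    simp [OrthonormalBasis.repr_apply_apply]
  -- well-definedness
  have hwd : ∀ w (y z : X), Φ y = Φ z → Φ (a w y) = Φ (a w z) := by
    intro w y z hyz
    have h2 := hin w (y - z) (y - z)
    rw [map_sub (a w), map_sub Φ, map_sub Φ, hyz, sub_self, inner_zero_left,
      inner_self_eq_zero] at h2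
    exact sub_eq_zero.mp h2
  have hexp2 : ∀ w (y : X), Φ (a w y) = ∑ j, ⟪(b j : F), Φ y⟫_ℂ • Φ (a w (x j)) := by
    intro w y
    have h2 : Φ y = Φ (∑ j, ⟪(b j : F), Φ y⟫_ℂ • x j) := by
      rw [map_sum]
      simp only [map_smul, hx]
      exact hexp y
    rw [hwd w _ _ h2, map_sum, map_sum]
    simp only [map_smul]
  let π₀ : Γ → Matrix (Fin n) (Fin n) ℂ := fun w => Matrix.of fun i j => ⟪(b i : F), Φ (a w (x j))⟫_ℂ
  have hπ1 : π₀ 1 = 1 := by
    ext i j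
    change ⟪(b i : F), Φ (a 1 (x j))⟫_ℂ = _
    rw [h1, hx, hinner, Matrix.one_apply]
  have hπm : ∀ w v, π₀ (w * v) = π₀ w * π₀ v := by
    intro w v
    ext i j
    rw [Matrix.mul_apply]
    change ⟪(b i : F), Φ (a (w * v) (x j))⟫_ℂ =
      ∑ k, ⟪(b i : F), Φ (a w (x k))⟫_ℂ * ⟪(b k : F), Φ (a v (x j))⟫_ℂ
    rw [hm, hexp2 w (a v (x j)), inner_sum]
    refine Finset.sum_congr rfl fun k _ => ?_
    rw [inner_smul_right, mul_comm]
  let π : Γ →* Matrix (Fin n) (Fin n) ℂ := { toFun := π₀, map_one' := hπ1, map_mul' := hπm }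
  have hunit : ∀ w, (π w).conjTranspose * π w = 1 := by
    intro w
    ext i j
    rw [Matrix.mul_apply, Matrix.one_apply]
    have h2 : ⟪Φ (a w (x i)), Φ (a w (x j))⟫_ℂ = if i = j then 1 else 0 := by
      rw [hin, hx, hx, hinner]
    rw [← h2, hexp (a w (x i)), sum_inner]
    refine Finset.sum_congr rfl fun k _ => ?_
    rw [inner_smul_left, Matrix.conjTranspose_apply]
    rfl
  have hcont : ∀ i j, Tendsto (fun w => π w i j) (comap p (𝓝 1))
      (𝓝 ((1 : Matrix (Fin n) (Fin n) ℂ) i j)) := by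
    intro i j
    have h2 := hc (x j) (x i)
    rw [hx, hx, hinner] at h2
    rw [Matrix.one_apply]
    exact h2
  have htriv := hfd n π hunit hcont
  intro w y
  have h3 : ∀ j, Φ (a w (x j)) = (b j : F) := by
    intro j
    rw [hexp (a w (x j))]
    have h4 : ∀ i, ⟪(b i : F), Φ (a w (x j))⟫_ℂ = if i = j then 1 else 0 := by
      intro i
      have h5 := congrFun (congrFun (htriv w) i) j
      rw [Matrix.one_apply] at h5
      exact h5
    simp [h4]
  rw [hexp2 w y]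
  conv_rhs => rw [hexp y]
  refine Finset.sum_congr rfl fun j _ => ?_
  rw [h3]

section traces

variable {H : Type} [NormedAddCommGroup H] [InnerProductSpace ℂ H] [CompleteSpace H]

/-- Traces on `E` and on `E' = W E` agree if every vector of `E` is close to its image. -/
theorem trace_eq {n : ℕ} (E : Submodule ℂ H) [FiniteDimensional ℂ E]
    (b : OrthonormalBasis (Fin n) ℂ E) (W : H →L[ℂ] H) (hW : ∀ ξ, ‖W ξ‖ = ‖ξ‖)
    (hnear : ∀ ξ ∈ E, ξ ≠ 0 → ‖W ξ - ξ‖ < ‖ξ‖) (A : H →L[ℂ] H) (hA : ∀ ξ ∈ E, A ξ ∈ E)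
    (hA' : ∀ ξ ∈ E, ∃ η ∈ E, A (W ξ) = W η)
    (hA'' : ∀ ξ ∈ E, ∃ η ∈ E, adjoint A (W ξ) = W η) :
    ∑ i, ⟪W (b i : H), A (W (b i : H))⟫_ℂ = ∑ i, ⟪(b i : H), A (b i : H)⟫_ℂ := by
  classical
  have hinj : Function.Injective (W : H →ₗ[ℂ] H) := by
    intro x y hxy
    have h1 : ‖W (x - y)‖ = 0 := by
      rw [map_sub]
      have : W x = W y := hxy
      rw [this, sub_self, norm_zero]
    rw [hW, norm_eq_zero, sub_eq_zero] at h1
    exact h1
  set E' : Submodule ℂ H := E.map (W : H →ₗ[ℂ] H) with hE'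
  let L₀ : E ≃ₗ[ℂ] E' := Submodule.equivMapOfInjective (W : H →ₗ[ℂ] H) hinj E
  have hL₀ : ∀ ξ : E, ((L₀ ξ : E') : H) = W ξ := fun ξ => rfl
  let L : E ≃ₗᵢ[ℂ] E' := { L₀ with norm_map' := fun ξ => by
                                        change ‖((L₀ ξ : E') : H)‖ = ‖(ξ : H)‖
                                        rw [hL₀, hW] }
  have hL : ∀ ξ : E, ((L ξ : E') : H) = W ξ := fun ξ => rfl
  haveI : FiniteDimensional ℂ E' := L₀.finiteDimensional
  -- `A` preserves `E'`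
  have hAE' : ∀ ξ ∈ E', A ξ ∈ E' := by
    rintro _ ⟨ξ, hξ, rfl⟩
    obtain ⟨η, hη, h1⟩ := hA' ξ hξ
    exact ⟨η, hη, h1.symm⟩
  have hAE'' : ∀ ξ ∈ E', adjoint A ξ ∈ E' := by
    rintro _ ⟨ξ, hξ, rfl⟩
    obtain ⟨η, hη, h1⟩ := hA'' ξ hξ
    exact ⟨η, hη, h1.symm⟩
  -- the projection
  let T : E →ₗ[ℂ] E' := (E'.orthogonalProjectionOnto : H →ₗ[ℂ] E') ∘ₗ E.subtype
  have hT : ∀ ξ : E, ((T ξ : E') : H) = E'.starProjection (ξ : H) := fun ξ => rfl
  have hTinj : Function.Injective T := by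
    rw [injective_iff_map_eq_zero]
    intro ξ hξ
    by_contra hne
    have h1 : (ξ : H) ∈ E'ᗮ := by
      have h2 : E'.orthogonalProjectionOnto (ξ : H) = 0 := hξ
      exact Submodule.orthogonalProjectionOnto_eq_zero_iff.mp h2
    have h3 : ⟪W (ξ : H), (ξ : H)⟫_ℂ = 0 :=
      (Submodule.mem_orthogonal _ _).mp h1 _ ⟨ξ, ξ.2, rfl⟩
    have h4 := hnear ξ ξ.2 (fun h => hne (Subtype.ext h))
    have h5 : ‖W (ξ : H) - ξ‖ ^ 2 = ‖W (ξ : H)‖ ^ 2 + ‖(ξ : H)‖ ^ 2 := by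
      rw [@norm_sub_sq ℂ, h3]; simp
    rw [hW] at h5
    have h6 := norm_nonneg (W (ξ : H) - ξ)
    have h7 := norm_nonneg (ξ : H)
    nlinarith
  have hfr : Module.finrank ℂ E = Module.finrank ℂ E' := L₀.finrank_eq
  let S : E ≃ₗ[ℂ] E' := LinearMap.linearEquivOfInjective T hTinj hfr
  have hS : ∀ ξ, S ξ = T ξ := fun ξ => rfl
  let A₁ : E →ₗ[ℂ] E := (A : H →ₗ[ℂ] H).restrict hA
  let A₂ : E' →ₗ[ℂ] E' := (A : H →ₗ[ℂ] H).restrict hAE'
  have hcomm : ∀ ξ : E, S (A₁ ξ) = A₂ (S ξ) := by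
    intro ξ
    apply Subtype.ext
    rw [hS, hS, hT]
    change E'.starProjection (A (ξ : H)) = A (E'.starProjection (ξ : H))
    refine Submodule.eq_starProjection_of_mem_orthogonal (hAE' _ (Submodule.starProjection_apply_mem _ _)) ?_
    rw [← map_sub, Submodule.mem_orthogonal]
    intro η hη
    rw [← adjoint_inner_left]
    exact (Submodule.mem_orthogonal _ _).mp (Submodule.sub_starProjection_mem_orthogonal _) _
      (hAE'' η hη)
  have hconj : A₂ = S.conj A₁ := by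
    ext1 ξ
    rw [LinearEquiv.conj_apply_apply, hcomm, LinearEquiv.apply_symm_apply]
  have htr : LinearMap.trace ℂ E' A₂ = LinearMap.trace ℂ E A₁ := by
    rw [hconj, LinearMap.trace_conj']
  rw [LinearMap.trace_eq_sum_inner A₁ b, LinearMap.trace_eq_sum_inner A₂ (b.map L)] at htr
  have e1 : ∀ i, ⟪b i, A₁ (b i)⟫_ℂ = ⟪(b i : H), A (b i : H)⟫_ℂ := fun i => rfl
  have e2 : ∀ i, ⟪(b.map L) i, A₂ ((b.map L) i)⟫_ℂ = ⟪W (b i : H), A (W (b i : H))⟫_ℂ := by
    intro i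
    rw [OrthonormalBasis.map_apply]
    rfl
  simp only [e1, e2] at htr
  exact htr

end traces

section main

variable {H : Type} [NormedAddCommGroup H] [InnerProductSpace ℂ H] [CompleteSpace H]

theorem conj_tendsto {l : Filter Γ} (W : Γ →* (H →L[ℂ] H))
    (hn : ∀ w ξ, ‖W w ξ‖ = ‖ξ‖) (hWc : ∀ ξ, Tendsto (fun w => W w ξ) l (𝓝 ξ)) (A : H →L[ℂ] H)
    (ξ : H) : Tendsto (fun w => W w (A (W w⁻¹ ξ))) l (𝓝 (A ξ)) := by
  have h0 : ∀ w (η : H), W w (W w⁻¹ η) = η := by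
    intro w η
    have : (W w * W w⁻¹) η = η := by rw [← map_mul, mul_inv_cancel, map_one]; rfl
    exact this
  have h1 : Tendsto (fun w => ‖W w ξ - ξ‖) l (𝓝 0) := by
    have := (hWc ξ).sub_const ξ
    rw [sub_self] at this
    simpa using this.norm
  have h2 : Tendsto (fun w => ‖W w (A ξ) - A ξ‖) l (𝓝 0) := by
    have := (hWc (A ξ)).sub_const (A ξ)
    rw [sub_self] at this
    simpa using this.norm
  have h3 : Tendsto (fun w => ‖A‖ * ‖W w ξ - ξ‖ + ‖W w (A ξ) - A ξ‖) l (𝓝 0) := by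
    have := (h1.const_mul ‖A‖).add h2
    simpa using this
  rw [tendsto_iff_norm_sub_tendsto_zero]
  refine squeeze_zero (fun _ => norm_nonneg _) (fun w => ?_) h3
  have e : W w (A (W w⁻¹ ξ)) - A ξ = W w (A (W w⁻¹ ξ - ξ)) + (W w (A ξ) - A ξ) := by
    rw [map_sub A, map_sub (W w)]; abel
  rw [e]
  refine (norm_add_le _ _).trans (add_le_add ?_ le_rfl)
  rw [hn]
  refine (A.le_opNorm _).trans (mul_le_mul_of_nonneg_left ?_ (norm_nonneg _))
  rw [← hn w, map_sub, h0, norm_sub_rev]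

theorem kills_eigen [IsTopologicalGroup G] [PreconnectedSpace G] {p : Γ →* G} (hp : DenseRange p)
    (hfd : FD p) (W : Γ →* (H →L[ℂ] H)) (hW : ∀ w, adjoint (W w) = W w⁻¹)
    (hn : ∀ w ξ, ‖W w ξ‖ = ‖ξ‖) (hWc : ∀ ξ, Tendsto (fun w => W w ξ) (comap p (𝓝 1)) (𝓝 ξ))
    (AA : Submodule ℂ (H →L[ℂ] H)) (hmul : ∀ A ∈ AA, ∀ B ∈ AA, A * B ∈ AA)
    (hadj : ∀ A ∈ AA, adjoint A ∈ AA) (hconj : ∀ w, ∀ A ∈ AA, W w * A * W w⁻¹ ∈ AA)
    (E : Submodule ℂ H) [FiniteDimensional ℂ E] (hE : ∀ A ∈ AA, ∀ ξ ∈ E, A ξ ∈ E) :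
    ∀ A ∈ AA, ∀ w, ∀ ξ ∈ E, W w (A (W w⁻¹ ξ)) = A ξ := by
  classical
  have h0 : ∀ w (η : H), W w (W w⁻¹ η) = η := by
    intro w η
    have : (W w * W w⁻¹) η = η := by rw [← map_mul, mul_inv_cancel, map_one]; rfl
    exact this
  have h0' : ∀ w (η : H), W w⁻¹ (W w η) = η := by
    intro w η
    have : (W w⁻¹ * W w) η = η := by rw [← map_mul, inv_mul_cancel, map_one]; rfl
    exact this
  let b : OrthonormalBasis (Fin (Module.finrank ℂ E)) ℂ E := stdOrthonormalBasis ℂ E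
  let tr : (H →L[ℂ] H) → ℂ := fun A => ∑ i, ⟪(b i : H), A (b i : H)⟫_ℂ
  -- expansion
  have hexp : ∀ ξ ∈ E, ξ = ∑ i, ⟪(b i : H), ξ⟫_ℂ • (b i : H) := by
    intro ξ hξ
    have h2 := b.sum_repr ⟨ξ, hξ⟩
    have h3 : ((∑ i, (b.repr ⟨ξ, hξ⟩).ofLp i • b i : E) : H) = ξ :=
      congrArg (Subtype.val) h2
    conv_lhs => rw [← h3]
    simp [OrthonormalBasis.repr_apply_apply]
  have hnorm : ∀ i, ‖(b i : H)‖ = 1 := fun i => b.orthonormal.1 i
  -- nearness
  have hnear : ∀ᶠ w in comap p (𝓝 1), ∑ i, ‖W w (b i : H) - b i‖ < 1 := by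
    have h1 : Tendsto (fun w => ∑ i, ‖W w (b i : H) - b i‖) (comap p (𝓝 1)) (𝓝 0) := by
      have : Tendsto (fun w => ∑ i, ‖W w (b i : H) - b i‖) (comap p (𝓝 1))
          (𝓝 (∑ i : Fin (Module.finrank ℂ E), (0 : ℝ))) := by
        refine tendsto_finset_sum _ fun i _ => ?_
        have := (hWc (b i : H)).sub_const (b i : H)
        rw [sub_self] at this
        simpa using this.norm
      simpa using this
    exact h1.eventually (gt_mem_nhds one_pos)
  have hnear2 : ∀ w, ∑ i, ‖W w (b i : H) - b i‖ < 1 → ∀ ξ ∈ E, ξ ≠ 0 → ‖W w ξ - ξ‖ < ‖ξ‖ := by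
    intro w hw ξ hξ hne
    have e1 : W w ξ - ξ = ∑ i, ⟪(b i : H), ξ⟫_ℂ • (W w (b i : H) - b i) := by
      simp only [smul_sub, Finset.sum_sub_distrib]
      rw [← hexp ξ hξ]
      congr 1
      conv_lhs => rw [hexp ξ hξ]
      rw [map_sum]
      simp only [map_smul]
    have hpos : 0 < ‖ξ‖ := norm_pos_iff.mpr hne
    calc ‖W w ξ - ξ‖ ≤ ∑ i, ‖⟪(b i : H), ξ⟫_ℂ • (W w (b i : H) - b i)‖ := by
            rw [e1]; exact norm_sum_le _ _
      _ ≤ ∑ i, ‖ξ‖ * ‖W w (b i : H) - b i‖ := by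
            refine Finset.sum_le_sum fun i _ => ?_
            rw [norm_smul]
            refine mul_le_mul_of_nonneg_right ?_ (norm_nonneg _)
            have := norm_inner_le_norm (𝕜 := ℂ) (b i : H) ξ
            rwa [hnorm, one_mul] at this
      _ = ‖ξ‖ * ∑ i, ‖W w (b i : H) - b i‖ := by rw [Finset.mul_sum]
      _ < ‖ξ‖ * 1 := mul_lt_mul_of_pos_left hw hpos
      _ = ‖ξ‖ := mul_one _
  have hconj' : ∀ w, ∀ A ∈ AA, W w⁻¹ * A * W w ∈ AA := by
    intro w A hA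
    have := hconj w⁻¹ A hA
    rwa [inv_inv] at this
  -- trace invariance
  have htr_near : ∀ w, ∑ i, ‖W w (b i : H) - b i‖ < 1 → ∀ A ∈ AA, tr (W w⁻¹ * A * W w) = tr A := by
    intro w hw A hA
    have h1 := trace_eq E b (W w) (hn w) (hnear2 w hw) A (hE A hA)
      (fun ξ hξ => ⟨(W w⁻¹ * A * W w) ξ, hE _ (hconj' w A hA) ξ hξ, by
        change A (W w ξ) = W w (W w⁻¹ (A (W w ξ)))
        rw [h0]⟩)
      (fun ξ hξ => ⟨(W w⁻¹ * adjoint A * W w) ξ, hE _ (hconj' w _ (hadj A hA)) ξ hξ, by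
        change adjoint A (W w ξ) = W w (W w⁻¹ (adjoint A (W w ξ)))
        rw [h0]⟩)
    refine Eq.trans ?_ h1
    refine Finset.sum_congr rfl fun i _ => ?_
    change ⟪(b i : H), W w⁻¹ (A (W w (b i : H)))⟫_ℂ = _
    rw [← hW, adjoint_inner_right]
  let S : Subgroup Γ :=
    { carrier := {w | ∀ A ∈ AA, tr (W w⁻¹ * A * W w) = tr A}
      one_mem' := by
        intro A hA
        simp
      mul_mem' := by
        intro w v hw hv A hA
        have e : W (w * v)⁻¹ * A * W (w * v) = W v⁻¹ * (W w⁻¹ * A * W w) * W v := by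
          rw [mul_inv_rev, map_mul, map_mul]; simp only [mul_assoc]
        rw [e, hv _ (hconj' w A hA), hw A hA]
      inv_mem' := by
        intro w hw A hA
        have h1 := hw (W w * A * W w⁻¹) (hconj w A hA)
        have e : W w⁻¹ * (W w * A * W w⁻¹) * W w = A := by
          ext ξ
          change W w⁻¹ (W w (A (W w⁻¹ (W w ξ)))) = A ξ
          rw [h0', h0']
        rw [e] at h1
        rw [inv_inv]
        exact h1.symm }
  obtain ⟨N, hN, hNS⟩ := Filter.mem_comap.mp hnear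
  have hS : S = ⊤ := eq_top_of_nhds hp S hN (fun w hw => htr_near w (hNS hw))
  have htr : ∀ w, ∀ A ∈ AA, tr (W w * A * W w⁻¹) = tr A := by
    intro w A hA
    have h1 : w⁻¹ ∈ S := by rw [hS]; trivial
    have h2 := h1 A hA
    rwa [inv_inv] at h2
  -- the form
  let Φ : AA →ₗ[ℂ] PiLp 2 (fun _ : Fin (Module.finrank ℂ E) => E) :=
    { toFun := fun A => WithLp.toLp 2 fun i => ⟨(A : H →L[ℂ] H) (b i : H), hE _ A.2 _ (b i).2⟩
      map_add' := by intro A B; rfl
      map_smul' := by intro c A; rfl }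
  let a : Γ → AA →ₗ[ℂ] AA := fun w =>
    { toFun := fun A => ⟨W w * A * W w⁻¹, hconj w A A.2⟩
      map_add' := by
        intro A B
        apply Subtype.ext
        change W w * ((A : H →L[ℂ] H) + B) * W w⁻¹ = _
        rw [mul_add, add_mul]; rfl
      map_smul' := by
        intro c A
        apply Subtype.ext
        change W w * (c • (A : H →L[ℂ] H)) * W w⁻¹ = _
        rw [mul_smul_comm, smul_mul_assoc]; rfl }
  have hΦ : ∀ A B : AA, ⟪Φ A, Φ B⟫_ℂ = tr (adjoint (A : H →L[ℂ] H) * B) := by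
    intro A B
    rw [PiLp.inner_apply]
    refine Finset.sum_congr rfl fun i _ => ?_
    change ⟪(A : H →L[ℂ] H) (b i : H), (B : H →L[ℂ] H) (b i : H)⟫_ℂ =
      ⟪(b i : H), adjoint (A : H →L[ℂ] H) ((B : H →L[ℂ] H) (b i : H))⟫_ℂ
    rw [adjoint_inner_right]
  have hadjconj : ∀ w (A : H →L[ℂ] H), adjoint (W w * A * W w⁻¹) = W w * adjoint A * W w⁻¹ := by
    intro w A
    rw [← star_eq_adjoint, ← star_eq_adjoint, star_mul, star_mul, star_eq_adjoint (W w⁻¹),
      star_eq_adjoint (W w), hW, hW, inv_inv, mul_assoc]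
  have key := hfd.form_trivial Φ a (fun x => by
      apply Subtype.ext
      change W 1 * (x : H →L[ℂ] H) * W 1⁻¹ = x
      simp) (fun w v x => by
      apply Subtype.ext
      change W (w * v) * (x : H →L[ℂ] H) * W (w * v)⁻¹ = W w * (W v * (x : H →L[ℂ] H) * W v⁻¹) * W w⁻¹
      rw [mul_inv_rev, map_mul, map_mul]; simp only [mul_assoc]) (fun w x y => by
      rw [hΦ, hΦ]
      change tr (adjoint (W w * (x : H →L[ℂ] H) * W w⁻¹) * (W w * (y : H →L[ℂ] H) * W w⁻¹)) = _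
      have e : adjoint (W w * (x : H →L[ℂ] H) * W w⁻¹) * (W w * (y : H →L[ℂ] H) * W w⁻¹) =
          W w * (adjoint (x : H →L[ℂ] H) * y) * W w⁻¹ := by
        rw [hadjconj]
        ext ξ
        change W w (adjoint (x : H →L[ℂ] H) (W w⁻¹ (W w ((y : H →L[ℂ] H) (W w⁻¹ ξ))))) = _
        rw [h0']
        rfl
      rw [e]
      exact htr w _ (hmul _ (hadj _ x.2) _ y.2)) (fun x y => by
      have e1 : ∀ w, ⟪Φ y, Φ (a w x)⟫_ℂ = ∑ i, ⟪(y : H →L[ℂ] H) (b i : H),
          W w ((x : H →L[ℂ] H) (W w⁻¹ (b i : H)))⟫_ℂ := by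
        intro w
        rw [PiLp.inner_apply]
        rfl
      have e2 : ⟪Φ y, Φ x⟫_ℂ = ∑ i, ⟪(y : H →L[ℂ] H) (b i : H), (x : H →L[ℂ] H) (b i : H)⟫_ℂ := by
        rw [PiLp.inner_apply]
        rfl
      simp only [e1, e2]
      refine tendsto_finset_sum _ fun i _ => ?_
      exact (tendsto_const_nhds).inner (conj_tendsto W hn hWc _ _))
  intro A hA w ξ hξ
  have h1 := key w ⟨A, hA⟩
  have h2 : ∀ i, W w (A (W w⁻¹ (b i : H))) = A (b i : H) := by
    intro i
    have h3 := congrArg (fun f : PiLp 2 (fun _ : Fin (Module.finrank ℂ E) => E) => ((f i : E) : H)) h1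
    exact h3
  conv_lhs => rw [hexp ξ hξ]
  conv_rhs => rw [hexp ξ hξ]
  simp only [map_sum, map_smul, h2]

/-- **Main statement of this file.** -/
theorem kills [IsTopologicalGroup G] [PreconnectedSpace G] {p : Γ →* G} (hp : DenseRange p)
    (hfd : FD p) (W : Γ →* (H →L[ℂ] H)) (hW : ∀ w, adjoint (W w) = W w⁻¹)
    (hWc : ∀ ξ, Tendsto (fun w => W w ξ) (comap p (𝓝 1)) (𝓝 ξ))
    (AA : Submodule ℂ (H →L[ℂ] H)) (hmul : ∀ A ∈ AA, ∀ B ∈ AA, A * B ∈ AA)
    (hadj : ∀ A ∈ AA, adjoint A ∈ AA) (hconj : ∀ w, ∀ A ∈ AA, W w * A * W w⁻¹ ∈ AA)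
    (k : H →L[ℂ] H) (hk : IsCompactOperator k) (hks : k.IsSymmetric)
    (hkc : ∀ A ∈ AA, A * k = k * A) :
    ∀ A ∈ AA, ∀ w, (W w * A * W w⁻¹ - A) * k = 0 := by
  have hn : ∀ w ξ, ‖W w ξ‖ = ‖ξ‖ := by
    intro w ξ
    have h1 : ⟪W w ξ, W w ξ⟫_ℂ = ⟪ξ, ξ⟫_ℂ := by
      rw [← adjoint_inner_right, hW]
      have : (W w⁻¹ * W w) ξ = ξ := by rw [← map_mul, inv_mul_cancel, map_one]; rfl
      exact congrArg (fun z => ⟪ξ, z⟫_ℂ) this
    rw [inner_self_eq_norm_sq_to_K, inner_self_eq_norm_sq_to_K] at h1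
    have h2 : ‖W w ξ‖ ^ 2 = ‖ξ‖ ^ 2 := by exact_mod_cast h1
    exact (pow_left_inj₀ (norm_nonneg _) (norm_nonneg _) two_ne_zero).mp h2
  intro A hA w
  set D : H →L[ℂ] H := (W w * A * W w⁻¹ - A) * k with hD
  have hker : ∀ μ : ℂ, Module.End.eigenspace (k : H →ₗ[ℂ] H) μ ≤ LinearMap.ker (D : H →ₗ[ℂ] H) := by
    intro μ ξ hξ
    rw [Module.End.mem_eigenspace_iff] at hξ
    have hξ' : k ξ = μ • ξ := hξ
    rw [LinearMap.mem_ker]
    change (W w * A * W w⁻¹ - A) (k ξ) = 0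
    rw [hξ', map_smul]
    by_cases hμ : μ = 0
    · rw [hμ, zero_smul]
    · haveI := ContinuousLinearMap.finite_dimensional_eigenspace hk μ hμ
      have h1 := kills_eigen hp hfd W hW hn hWc AA hmul hadj hconj
        (Module.End.eigenspace (k : H →ₗ[ℂ] H) μ) (fun B hB η hη => by
          rw [Module.End.mem_eigenspace_iff] at hη ⊢
          have h2 : B (k η) = k (B η) := congrArg (fun T : H →L[ℂ] H => T η) (hkc B hB)
          have hη' : k η = μ • η := hη
          rw [hη', map_smul] at h2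
          exact h2.symm) A hA w ξ (Module.End.mem_eigenspace_iff.mpr hξ)
      have h3 : (W w * A * W w⁻¹ - A) ξ = 0 := by
        change W w (A (W w⁻¹ ξ)) - A ξ = 0
        rw [h1, sub_self]
      rw [h3, smul_zero]
  have hsup : (⨆ μ, Module.End.eigenspace (k : H →ₗ[ℂ] H) μ) ≤ LinearMap.ker (D : H →ₗ[ℂ] H) :=
    iSup_le hker
  have horth := ContinuousLinearMap.orthogonalComplement_iSup_eigenspaces_eq_bot hk hks
  have hcl : IsClosed ((LinearMap.ker (D : H →ₗ[ℂ] H) : Submodule ℂ H) : Set H) :=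
    ContinuousLinearMap.isClosed_ker D
  haveI : CompleteSpace (LinearMap.ker (D : H →ₗ[ℂ] H)) := hcl.completeSpace_coe
  have h4 : (LinearMap.ker (D : H →ₗ[ℂ] H))ᗮ = ⊥ := by
    rw [eq_bot_iff, ← horth]
    exact Submodule.orthogonal_le hsup
  have h5 : LinearMap.ker (D : H →ₗ[ℂ] H) = ⊤ := by
    rwa [Submodule.orthogonal_eq_bot_iff] at h4
  ext ξ
  have h6 : ξ ∈ LinearMap.ker (D : H →ₗ[ℂ] H) := by rw [h5]; trivial
  exact h6

end main

end Vale.Agent.P092.H866
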