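import Vale.Agent.P092.H866.Mix
import Vale.Agent.P092.H866.Fd
import Vale.Agent.P092.H866.Cpt

/-!
P092 (helper866).  Ergodicity at connected places.
-/

set_option linter.all false

open scoped InnerProductSpace Topology ENNReal
open Filter ContinuousLinearMap

namespace Vale.Agent.P092.H866

open H160

variable {Γ Λ G : Type} [Group Γ] [Group Λ] [Group G] [TopologicalSpace G]
  {K : Type} [NormedAddCommGroup K]
  [InnerProductSpace ℂ K] [CompleteSpace K] {R : Λ →* (K →L[ℂ] K)} {U : Γ →* (K →L[ℂ] K)} {ω : K}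
  {ι : Type} {C : Subgroup Λ} {x : ι → Λ} {p : Γ →* G}

/-- The standing hypotheses. -/
structure Hyp (U : Γ →* (K →L[ℂ] K)) (R : Λ →* (K →L[ℂ] K)) (ω : K) (C : Subgroup Λ)
    (x : ι → Λ) : Prop where
  hU : RegRep U ω
  hR : RegRep R ω
  hc : ∀ g s, U g * R s = R s * U g
  hx : Function.Bijective fun z : ι × C => (z.2 : Λ) * x z.1

section

variable (h : Hyp U R ω C x)

include h

theorem Hyp.bd_sg {X : K →L[ℂ] K} (hX : Bd R ω C x X) (w : Γ) : Bd R ω C x (sg U w X) :=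
  hX.sg h.hU h.hR h.hc h.hx w

theorem Hyp.ct_add {X Y : K →L[ℂ] K} (hX : Ct R U ω C x p X) (hY : Ct R U ω C x p Y) :
    Ct R U ω C x p (X + Y) := by
  refine ⟨hX.toBd.add hY.toBd, ?_⟩
  have h1 := hX.cont.add hY.cont
  rw [add_zero] at h1
  refine squeeze_zero (fun _ => norm_nonneg _) (fun w => ?_) h1
  have e : sg U w (X + Y) - (X + Y) = (sg U w X - X) + (sg U w Y - Y) := by
    rw [sg_add]; abel
  rw [e, ((h.bd_sg hX.toBd w).sub hX.toBd).vec_add ((h.bd_sg hY.toBd w).sub hY.toBd)]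
  exact norm_add_le _ _

theorem Hyp.ct_smul {X : K →L[ℂ] K} (c : ℂ) (hX : Ct R U ω C x p X) :
    Ct R U ω C x p (c • X) := by
  refine ⟨hX.toBd.smul c, ?_⟩
  have h1 := hX.cont.const_mul ‖c‖
  rw [mul_zero] at h1
  refine h1.congr fun w => ?_
  rw [sg_smul, ← smul_sub, ((h.bd_sg hX.toBd w).sub hX.toBd).vec_smul, norm_smul]

theorem Hyp.ct_adj {X : K →L[ℂ] K} (hX : Ct R U ω C x p X) : Ct R U ω C x p (adjoint X) := by
  refine ⟨hX.toBd.adj h.hR h.hx, ?_⟩
  refine hX.cont.congr fun w => ?_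
  rw [← sg_adjoint h.hU, ← map_sub]
  exact (((h.bd_sg hX.toBd w).sub hX.toBd).norm_adj h.hR h.hx).symm

theorem Hyp.ct_mul {X Y : K →L[ℂ] K} (hX : Ct R U ω C x p X) (hY : Ct R U ω C x p Y) :
    Ct R U ω C x p (X * Y) := by
  refine ⟨hY.toBd.mul_left hX.comm, ?_⟩
  have h1 := (hX.cont.const_mul ‖Y‖).add (hY.cont.const_mul ‖X‖)
  rw [mul_zero, mul_zero, add_zero] at h1
  refine squeeze_zero (fun _ => norm_nonneg _) (fun w => ?_) h1
  have e : sg U w (X * Y) - X * Y = (sg U w X - X) * sg U w Y + X * (sg U w Y - Y) := by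
    rw [sg_mul']; noncomm_ring
  have b1 : Bd R ω C x (sg U w X - X) := (h.bd_sg hX.toBd w).sub hX.toBd
  have b2 : Bd R ω C x (sg U w Y - Y) := (h.bd_sg hY.toBd w).sub hY.toBd
  have b3 : CmC R C (sg U w Y) := (h.bd_sg hY.toBd w).comm
  rw [e, (b1.mul_right h.hR h.hx b3).vec_add (b2.mul_left hX.comm)]
  refine (norm_add_le _ _).trans (add_le_add ?_ (b2.norm_mul_left hX.comm))
  refine (b1.norm_mul_right h.hR h.hx b3).trans ?_
  exact mul_le_mul_of_nonneg_right (norm_sg h.hU w Y) (norm_nonneg _)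

theorem Hyp.ct_sg [IsTopologicalGroup G] {X : K →L[ℂ] K} (hX : Ct R U ω C x p X) (v : Γ) :
    Ct R U ω C x p (sg U v X) := by
  refine ⟨h.bd_sg hX.toBd v, ?_⟩
  have hconj : Tendsto (fun w => v⁻¹ * w * v) (comap p (𝓝 1)) (comap p (𝓝 1)) := by
    rw [tendsto_comap_iff]
    have h1 : Tendsto (fun g : G => (p v)⁻¹ * g * p v) (𝓝 1) (𝓝 1) := by
      have h2 : Continuous fun g : G => (p v)⁻¹ * g * p v := by fun_prop
      have h3 := h2.tendsto 1
      simpa using h3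
    refine (h1.comp tendsto_comap).congr fun w => ?_
    simp only [Function.comp_apply, map_mul, map_inv]
  refine (hX.cont.comp hconj).congr fun w => ?_
  have b1 : Bd R ω C x (sg U (v⁻¹ * w * v) X - X) := (h.bd_sg hX.toBd _).sub hX.toBd
  have h1 := b1.norm_sg h.hU h.hR h.hc h.hx v
  change ‖vec R ω x (sg U (v⁻¹ * w * v) X - X)‖ = _
  rw [← h1, sg_sub, ← sg_mul, ← sg_mul]
  congr 3
  group

theorem Hyp.ct_zero : Ct R U ω C x p (0 : K →L[ℂ] K) := by
  have hm : Memℓp (fun i => (0 : K →L[ℂ] K) (R (x i) ω)) 2 := by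
    simpa using (zero_mem_ℓp' : Memℓp (fun i : ι => (0 : K)) 2)
  have hb : Bd R ω C x (0 : K →L[ℂ] K) := ⟨fun c _ => by simp, hm⟩
  refine ⟨hb, ?_⟩
  have e : ∀ w, sg U w (0 : K →L[ℂ] K) - 0 = 0 := fun w => by simp [sg]
  have e2 : ‖vec R ω x (0 : K →L[ℂ] K)‖ = 0 := by
    have := norm_vec_sq hm
    simp at this
    simpa using this
  simp only [e, e2]
  exact tendsto_const_nhds

end

/-- The algebra of continuous operators of finite `2`-norm. -/
noncomputable def QQ (h : Hyp U R ω C x) (p : Γ →* G) : Submodule ℂ (K →L[ℂ] K) where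
  carrier := {X | Ct R U ω C x p X}
  add_mem' := fun hX hY => h.ct_add hX hY
  zero_mem' := h.ct_zero
  smul_mem' := fun c _ hX => h.ct_smul c hX

/-- The vectors of these operators. -/
noncomputable def e₀ (h : Hyp U R ω C x) (p : Γ →* G) : QQ h p →ₗ[ℂ] LK ι K where
  toFun X := vec R ω x X
  map_add' X Y := X.2.toBd.vec_add Y.2.toBd
  map_smul' c X := X.2.toBd.vec_smul c

/-- The Hilbert space of continuous vectors. -/
noncomputable abbrev Hc (h : Hyp U R ω C x) (p : Γ →* G) : Submodule ℂ (LK ι K) :=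
  (LinearMap.range (e₀ h p)).topologicalClosure

noncomputable def ee (h : Hyp U R ω C x) (p : Γ →* G) : QQ h p →ₗ[ℂ] Hc h p :=
  (e₀ h p).codRestrict _ fun X => (LinearMap.range (e₀ h p)).le_topologicalClosure ⟨X, rfl⟩

theorem ee_coe (h : Hyp U R ω C x) (X : QQ h p) : ((ee h p X : Hc h p) : LK ι K) = vec R ω x X :=
  rfl

theorem dense_ee (h : Hyp U R ω C x) : DenseRange (ee h p) := by
  rw [Metric.denseRange_iff]
  intro y r hr
  have hy : (y : LK ι K) ∈ closure ((LinearMap.range (e₀ h p) : Submodule ℂ (LK ι K)) : Set _) :=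
    y.2
  obtain ⟨z, ⟨X, rfl⟩, hz⟩ := Metric.mem_closure_iff.mp hy r hr
  exact ⟨X, hz⟩

theorem ext_ee (h : Hyp U R ω C x) {F : Type} [NormedAddCommGroup F] [NormedSpace ℂ F]
    {A B : Hc h p →L[ℂ] F} (hAB : ∀ X, A (ee h p X) = B (ee h p X)) : A = B := by
  have h1 := (dense_ee (p := p) h).equalizer A.continuous B.continuous (funext hAB)
  ext1 v
  exact congrFun h1 v

section

variable [IsTopologicalGroup G]

/-- conjugation as a linear map -/
noncomputable def sgl (h : Hyp U R ω C x) (p : Γ →* G) (w : Γ) : QQ h p →ₗ[ℂ] QQ h p where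
  toFun X := ⟨sg U w X, h.ct_sg X.2 w⟩
  map_add' X Y := Subtype.ext (sg_add w _ _)
  map_smul' c X := Subtype.ext (sg_smul w c _)

theorem norm_ee_sgl (h : Hyp U R ω C x) (w : Γ) (X : QQ h p) :
    ‖ee h p (sgl h p w X)‖ = ‖ee h p X‖ :=
  X.2.toBd.norm_sg h.hU h.hR h.hc h.hx w

/-- the unitary of `w` on continuous vectors -/
noncomputable def W₀ (h : Hyp U R ω C x) (p : Γ →* G) (w : Γ) : Hc h p →L[ℂ] Hc h p :=
  ((ee h p) ∘ₗ sgl h p w).extendOfNorm (ee h p)

theorem W₀_ee (h : Hyp U R ω C x) (w : Γ) (X : QQ h p) :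
    W₀ h p w (ee h p X) = ee h p (sgl h p w X) :=
  LinearMap.extendOfNorm_eq (dense_ee h) ⟨1, fun Y => by
    rw [one_mul]; exact (norm_ee_sgl h w Y).le⟩ X

noncomputable def WW (h : Hyp U R ω C x) (p : Γ →* G) : Γ →* (Hc h p →L[ℂ] Hc h p) where
  toFun w := W₀ h p w
  map_one' := by
    refine ext_ee h fun X => ?_
    rw [W₀_ee]
    change ee h p (sgl h p 1 X) = ee h p X
    rw [show sgl h p 1 X = X from Subtype.ext (sg_one _)]
  map_mul' w v := by
    refine ext_ee h fun X => ?_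
    change W₀ h p (w * v) (ee h p X) = W₀ h p w (W₀ h p v (ee h p X))
    rw [W₀_ee, W₀_ee, W₀_ee]
    rw [show sgl h p (w * v) X = sgl h p w (sgl h p v X) from Subtype.ext (sg_mul w v _)]

theorem WW_ee (h : Hyp U R ω C x) (w : Γ) (X : QQ h p) :
    WW h p w (ee h p X) = ee h p (sgl h p w X) := W₀_ee h w X

theorem inner_ee_sgl (h : Hyp U R ω C x) (w : Γ) (X Y : QQ h p) :
    ⟪ee h p (sgl h p w X), ee h p (sgl h p w Y)⟫_ℂ = ⟪ee h p X, ee h p Y⟫_ℂ :=
  X.2.toBd.inner_sg h.hU h.hR h.hc h.hx Y.2.toBd w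

theorem WW_adj (h : Hyp U R ω C x) (w : Γ) : adjoint (WW h p w) = WW h p w⁻¹ := by
  refine ext_ee h fun X => ?_
  -- test against `ee Y`
  have key : ∀ η : Hc h p, ⟪adjoint (WW h p w) (ee h p X), η⟫_ℂ = ⟪WW h p w⁻¹ (ee h p X), η⟫_ℂ := by
    intro η
    have h1 : (fun η : Hc h p => ⟪adjoint (WW h p w) (ee h p X), η⟫_ℂ) =
        fun η : Hc h p => ⟪WW h p w⁻¹ (ee h p X), η⟫_ℂ := by
      refine (dense_ee (p := p) h).equalizer
        (innerSL ℂ (adjoint (WW h p w) (ee h p X))).continuous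
        (innerSL ℂ (WW h p w⁻¹ (ee h p X))).continuous (funext fun Y => ?_)
      change ⟪adjoint (WW h p w) (ee h p X), ee h p Y⟫_ℂ = ⟪WW h p w⁻¹ (ee h p X), ee h p Y⟫_ℂ
      rw [adjoint_inner_left, WW_ee, WW_ee, ← inner_ee_sgl h w (sgl h p w⁻¹ X) Y]
      congr 2
      apply Subtype.ext
      change (X : K →L[ℂ] K) = sg U w (sg U w⁻¹ X)
      rw [← sg_mul, mul_inv_cancel, sg_one]
    exact congrFun h1 η
  exact ext_inner_right ℂ key

theorem WW_norm (h : Hyp U R ω C x) (w : Γ) (ξ : Hc h p) : ‖WW h p w ξ‖ = ‖ξ‖ := by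
  have h1 : (fun ξ : Hc h p => ‖WW h p w ξ‖) = fun ξ => ‖ξ‖ := by
    refine (dense_ee (p := p) h).equalizer (by fun_prop) (by fun_prop) (funext fun Y => ?_)
    change ‖WW h p w (ee h p Y)‖ = ‖ee h p Y‖
    rw [WW_ee, norm_ee_sgl]
  exact congrFun h1 ξ

theorem WW_cont (h : Hyp U R ω C x) (ξ : Hc h p) :
    Tendsto (fun w => WW h p w ξ) (comap p (𝓝 1)) (𝓝 ξ) := by
  rw [Metric.tendsto_nhds]
  intro ε hε
  obtain ⟨X, hX⟩ := Metric.denseRange_iff.mp (dense_ee (p := p) h) ξ (ε / 3) (by positivity)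
  have h1 : Tendsto (fun w => ‖WW h p w (ee h p X) - ee h p X‖) (comap p (𝓝 1)) (𝓝 0) := by
    refine X.2.cont.congr fun w => ?_
    rw [WW_ee]
    rw [((h.bd_sg X.2.toBd w)).vec_sub X.2.toBd]
    rfl
  filter_upwards [h1.eventually (gt_mem_nhds (show (0 : ℝ) < ε / 3 by positivity))] with w hw
  rw [dist_eq_norm] at hX ⊢
  have e : WW h p w ξ - ξ = WW h p w (ξ - ee h p X) + (WW h p w (ee h p X) - ee h p X) -
      (ξ - ee h p X) := by rw [map_sub]; abel
  rw [e]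
  have n1 := norm_sub_le (WW h p w (ξ - ee h p X) + (WW h p w (ee h p X) - ee h p X))
    (ξ - ee h p X)
  have n2 := norm_add_le (WW h p w (ξ - ee h p X)) (WW h p w (ee h p X) - ee h p X)
  rw [WW_norm] at n2
  linarith

end

end Vale.Agent.P092.H866
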