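import Mathlib

/-!
P092 (helper866), [C-DEC]: a bounded operator on `L²(X; E)` (`E` separable, `X` of finite measure)
which commutes with the multiplications by indicator functions is a measurable field of operators.
-/

set_option linter.all false

open scoped InnerProductSpace Topology ENNReal
open Filter MeasureTheory

namespace Vale.Agent.P092.H866.Dec

variable {X E I : Type} [MeasurableSpace X] {ν : Measure X} [NormedAddCommGroup E]
  [InnerProductSpace ℂ E] [CompleteSpace E]

/-- `T` commutes with the multiplications by indicator functions. -/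
def CmI (ν : Measure X) (T : Lp E 2 ν →L[ℂ] Lp E 2 ν) : Prop :=
  ∀ A : Set X, MeasurableSet A → ∀ f g : Lp E 2 ν, g =ᵐ[ν] A.indicator f →
    T g =ᵐ[ν] A.indicator (T f)

/-- a strongly measurable bounded field -/
structure Fld (C : ℝ) (q : X → (E →L[ℂ] E)) : Prop where
  bd : ∀ x, ‖q x‖ ≤ C
  meas : ∀ v, StronglyMeasurable fun x => q x v

theorem sq_eLp {f : X → E} : eLpNorm f 2 ν ^ 2 = ∫⁻ x, ‖f x‖ₑ ^ 2 ∂ν := by
  rw [eLpNorm_eq_lintegral_rpow_enorm_toReal two_ne_zero ENNReal.ofNat_ne_top]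
  have h2 : (2 : ℝ≥0∞).toReal = 2 := rfl
  rw [h2, ← ENNReal.rpow_natCast, ← ENNReal.rpow_mul]
  norm_num

theorem meas_simple {C : ℝ} {q : X → (E →L[ℂ] E)} (hq : Fld C q) (f : SimpleFunc X E) :
    StronglyMeasurable fun x => q x (f x) := by
  induction f using SimpleFunc.induction with
  | const c hs =>
    rename_i s
    have h1 : (fun x => q x ((SimpleFunc.piecewise s hs (SimpleFunc.const X c)
        (SimpleFunc.const X 0)) x)) = s.indicator fun x => q x c := by
      funext x
      by_cases hx : x ∈ s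
      · simp [hx]
      · simp [hx]
    rw [h1]
    exact (hq.meas c).indicator hs
  | add _ hf hg =>
    simp only [SimpleFunc.coe_add, Pi.add_apply, map_add]
    exact hf.add hg

/-- The image of a strongly measurable function. -/
theorem meas_ap {C : ℝ} {q : X → (E →L[ℂ] E)} (hq : Fld C q) {f : X → E}
    (hf : StronglyMeasurable f) : StronglyMeasurable fun x => q x (f x) := by
  refine stronglyMeasurable_of_tendsto atTop (fun n => meas_simple hq (hf.approx n)) ?_
  rw [tendsto_pi_nhds]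
  intro x
  exact ((q x).continuous.tendsto _).comp (hf.tendsto_approx x)

theorem aemeas_ap {C : ℝ} {q : X → (E →L[ℂ] E)} (hq : Fld C q) {f : X → E}
    (hf : AEStronglyMeasurable f ν) : AEStronglyMeasurable (fun x => q x (f x)) ν := by
  refine ⟨fun x => q x (hf.mk f x), meas_ap hq hf.stronglyMeasurable_mk, ?_⟩
  filter_upwards [hf.ae_eq_mk] with x hx
  rw [hx]

theorem memLp_ap {C : ℝ} {q : X → (E →L[ℂ] E)} (hq : Fld C q) {f : X → E}
    (hf : MemLp f 2 ν) : MemLp (fun x => q x (f x)) 2 ν :=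
  hf.of_le_mul (c := C) (aemeas_ap hq hf.1) (Eventually.of_forall fun x =>
    ((q x).le_opNorm _).trans (mul_le_mul_of_nonneg_right (hq.bd x) (norm_nonneg _)))

/-- the operator of a field -/
noncomputable def mo (ν : Measure X) {C : ℝ} {q : X → (E →L[ℂ] E)} (hq : Fld C q) :
    Lp E 2 ν →L[ℂ] Lp E 2 ν :=
  LinearMap.mkContinuous
    { toFun := fun f => (memLp_ap hq (Lp.memLp f)).toLp _
      map_add' := fun f g => by
        apply Lp.ext
        filter_upwards [(memLp_ap hq (Lp.memLp (f + g))).coeFn_toLp,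
          (memLp_ap hq (Lp.memLp f)).coeFn_toLp, (memLp_ap hq (Lp.memLp g)).coeFn_toLp,
          Lp.coeFn_add f g, Lp.coeFn_add ((memLp_ap hq (Lp.memLp f)).toLp _)
            ((memLp_ap hq (Lp.memLp g)).toLp _)] with x h1 h2 h3 h4 h5
        rw [h1, h5, Pi.add_apply, h2, h3, h4, Pi.add_apply, map_add]
      map_smul' := fun c f => by
        apply Lp.ext
        filter_upwards [(memLp_ap hq (Lp.memLp (c • f))).coeFn_toLp,
          (memLp_ap hq (Lp.memLp f)).coeFn_toLp, Lp.coeFn_smul c f,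
          Lp.coeFn_smul c ((memLp_ap hq (Lp.memLp f)).toLp _)] with x h1 h2 h3 h4
        rw [h1, RingHom.id_apply, h4, Pi.smul_apply, h2, h3, Pi.smul_apply, map_smul] }
    C (fun f => by
      change ‖(memLp_ap hq (Lp.memLp f)).toLp _‖ ≤ _
      refine Lp.norm_le_mul_norm_of_ae_le_mul ?_
      filter_upwards [(memLp_ap hq (Lp.memLp f)).coeFn_toLp] with x h1
      rw [h1]
      exact ((q x).le_opNorm _).trans (mul_le_mul_of_nonneg_right (hq.bd x) (norm_nonneg _)))

theorem mo_ae {C : ℝ} {q : X → (E →L[ℂ] E)} (hq : Fld C q) (f : Lp E 2 ν) :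
    mo ν hq f =ᵐ[ν] fun x => q x (f x) := (memLp_ap hq (Lp.memLp f)).coeFn_toLp

section fin

variable [IsFiniteMeasure ν]

/-- constants -/
noncomputable abbrev cst (ν : Measure X) [IsFiniteMeasure ν] : E →L[ℂ] Lp E 2 ν :=
  Lp.constL 2 ν ℂ

theorem cst_ae (v : E) : (cst ν v : Lp E 2 ν) =ᵐ[ν] fun _ => v := Lp.coeFn_const 2 ν v

theorem exists_ind (A : Set X) (hA : MeasurableSet A) (f : Lp E 2 ν) :
    ∃ g : Lp E 2 ν, g =ᵐ[ν] A.indicator f :=
  ⟨((Lp.memLp f).indicator hA).toLp _, ((Lp.memLp f).indicator hA).coeFn_toLp⟩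

/-- the pointwise bound -/
theorem bound_cst {T : Lp E 2 ν →L[ℂ] Lp E 2 ν} (hT : CmI ν T) (v : E) :
    ∀ᵐ x ∂ν, ‖(T (cst ν v) : Lp E 2 ν) x‖ ≤ ‖T‖ * ‖v‖ := by
  have h1 : (fun x => ‖(T (cst ν v) : Lp E 2 ν) x‖ₑ ^ 2) ≤ᵐ[ν]
      fun _ => (‖T‖ₑ * ‖v‖ₑ) ^ 2 := by
    refine ae_le_of_forall_setLIntegral_le_of_sigmaFinite ?_ fun A hA _ => ?_
    · exact (Lp.stronglyMeasurable (T (cst ν v))).enorm.pow_const 2
    · obtain ⟨g, hg⟩ := exists_ind A hA (cst ν v : Lp E 2 ν)
      have h2 := hT A hA _ _ hg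
      have h3 : ‖T g‖ₑ ≤ ‖T‖ₑ * ‖g‖ₑ := T.le_opNorm_enorm g
      have h4 : ‖T g‖ₑ ^ 2 = ∫⁻ x in A, ‖(T (cst ν v) : Lp E 2 ν) x‖ₑ ^ 2 ∂ν := by
        rw [Lp.enorm_def, eLpNorm_congr_ae h2, sq_eLp, ← lintegral_indicator hA]
        refine lintegral_congr fun x => ?_
        by_cases hx : x ∈ A
        · simp [hx]
        · simp [hx]
      have h5 : ‖g‖ₑ ^ 2 = ∫⁻ x in A, ‖v‖ₑ ^ 2 ∂ν := by
        rw [Lp.enorm_def, eLpNorm_congr_ae hg, sq_eLp, ← lintegral_indicator hA]
        refine lintegral_congr_ae ?_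
        filter_upwards [cst_ae (ν := ν) v] with x hx'
        by_cases hx : x ∈ A
        · rw [Set.indicator_of_mem hx, Set.indicator_of_mem hx, hx']
        · simp [hx]
      rw [← h4]
      calc ‖T g‖ₑ ^ 2 ≤ (‖T‖ₑ * ‖g‖ₑ) ^ 2 := pow_le_pow_left' h3 2
        _ = ∫⁻ x in A, (‖T‖ₑ * ‖v‖ₑ) ^ 2 ∂ν := by
            rw [mul_pow, h5, lintegral_const, lintegral_const, mul_pow, mul_assoc]
  filter_upwards [h1] with x hx
  have h2 : ‖(T (cst ν v) : Lp E 2 ν) x‖ₑ ≤ ‖T‖ₑ * ‖v‖ₑ :=
    (ENNReal.pow_le_pow_left_iff two_ne_zero).mp hx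
  have h3 := ENNReal.toReal_mono (by finiteness) h2
  simpa using h3

/-- the fibre maps on finite combinations of the basis -/
noncomputable def fx (b : I → E) (T : Lp E 2 ν →L[ℂ] Lp E 2 ν) (x : X) : (I →₀ ℂ) →ₗ[ℂ] E :=
  Finsupp.linearCombination ℂ fun i => (T (cst ν (b i)) : Lp E 2 ν) x

/-- finite combinations of the basis -/
noncomputable def eb (b : I → E) : (I →₀ ℂ) →ₗ[ℂ] E := Finsupp.linearCombination ℂ b

theorem fx_ae (b : I → E) (T : Lp E 2 ν →L[ℂ] Lp E 2 ν) (c : I →₀ ℂ) :
    (T (cst ν (eb b c)) : Lp E 2 ν) =ᵐ[ν] fun x => fx b T x c := by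
  induction c using Finsupp.induction_linear with
  | zero =>
    rw [map_zero, map_zero, map_zero]
    filter_upwards [Lp.coeFn_zero E 2 ν] with x hx
    rw [hx, map_zero]; rfl
  | add c d hc hd =>
    rw [map_add, map_add, map_add]
    filter_upwards [hc, hd, Lp.coeFn_add (T (cst ν (eb b c))) (T (cst ν (eb b d)))] with x h1 h2 h3
    rw [h3, Pi.add_apply, h1, h2, map_add]
  | single i z =>
    have e1 : eb b (Finsupp.single i z) = z • b i := by
      rw [eb, Finsupp.linearCombination_single]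
    rw [e1, map_smul, map_smul]
    filter_upwards [Lp.coeFn_smul z (T (cst ν (b i)))] with x h1
    rw [h1, Pi.smul_apply, fx, Finsupp.linearCombination_single]

theorem good_ae [Countable I] (b : I → E) {T : Lp E 2 ν →L[ℂ] Lp E 2 ν} (hT : CmI ν T) :
    ∀ᵐ x ∂ν, ∀ c : I →₀ ℂ, ‖fx b T x c‖ ≤ ‖T‖ * ‖eb b c‖ := by
  classical
  -- finite supports in `s`, coefficients in a countable dense set
  have h1 : ∀ᵐ x ∂ν, ∀ (s : Finset I) (n : ℕ),
      ‖∑ i : s, (TopologicalSpace.denseSeq (s → ℂ) n i) • (T (cst ν (b i)) : Lp E 2 ν) x‖ ≤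
        ‖T‖ * ‖∑ i : s, (TopologicalSpace.denseSeq (s → ℂ) n i) • b i‖ := by
    rw [ae_all_iff]
    intro s
    rw [ae_all_iff]
    intro n
    set c : I →₀ ℂ := ∑ i : s, Finsupp.single (i : I) (TopologicalSpace.denseSeq (s → ℂ) n i)
      with hc
    have e1 : eb b c = ∑ i : s, (TopologicalSpace.denseSeq (s → ℂ) n i) • b i := by
      rw [hc, map_sum]
      refine Finset.sum_congr rfl fun i _ => ?_
      rw [eb, Finsupp.linearCombination_single]
    have e2 : ∀ x, fx b T x c = ∑ i : s, (TopologicalSpace.denseSeq (s → ℂ) n i) •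
        (T (cst ν (b i)) : Lp E 2 ν) x := by
      intro x
      rw [hc, map_sum]
      refine Finset.sum_congr rfl fun i _ => ?_
      rw [fx, Finsupp.linearCombination_single]
    filter_upwards [bound_cst hT (eb b c), fx_ae b T c] with x h1 h2
    rw [← e1, ← e2, ← h2]
    exact h1
  filter_upwards [h1] with x hx c
  -- pass to the limit
  have h2 : ∀ z : (c.support → ℂ), ‖∑ i : c.support, z i • (T (cst ν (b i)) : Lp E 2 ν) x‖ ≤
      ‖T‖ * ‖∑ i : c.support, z i • b i‖ := by
    have hcl : IsClosed {z : (c.support → ℂ) |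
        ‖∑ i : c.support, z i • (T (cst ν (b i)) : Lp E 2 ν) x‖ ≤
        ‖T‖ * ‖∑ i : c.support, z i • b i‖} := by
      refine isClosed_le ?_ ?_
      · exact (continuous_finset_sum _ fun i _ => (continuous_apply i).smul continuous_const).norm
      · exact ((continuous_finset_sum _ fun i _ =>
          (continuous_apply i).smul continuous_const).norm).const_mul _
    intro z
    have h3 : z ∈ closure (Set.range (TopologicalSpace.denseSeq (c.support → ℂ))) :=
      TopologicalSpace.denseRange_denseSeq _ z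
    refine closure_minimal ?_ hcl h3
    rintro _ ⟨n, rfl⟩
    exact hx c.support n
  have h4 := h2 fun i => c i
  have e1 : ∀ v : I → E, ∑ i : c.support, c i • v i = Finsupp.linearCombination ℂ v c := by
    intro v
    rw [Finsupp.linearCombination_apply, Finsupp.sum]
    exact Finset.sum_coe_sort c.support fun i => c i • v i
  rw [e1 (fun i => (T (cst ν (b i)) : Lp E 2 ν) x), e1 b] at h4
  exact h4

/-- **Measurable field of a decomposable operator.** -/
theorem exists_field [Countable I] (b : HilbertBasis I ℂ E) (T : Lp E 2 ν →L[ℂ] Lp E 2 ν)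
    (hT : CmI ν T) : ∃ q : X → (E →L[ℂ] E), ∃ _ : Fld ‖T‖ q,
      ∀ f : Lp E 2 ν, T f =ᵐ[ν] fun x => q x (f x) := by
  classical
  obtain ⟨N, hN, hNm, hN0⟩ := exists_measurable_superset_of_null (ae_iff.mp (good_ae b hT))
  have hgood : ∀ x, x ∉ N → ∀ c : I →₀ ℂ, ‖fx b T x c‖ ≤ ‖T‖ * ‖eb b c‖ := by
    intro x hx
    by_contra h
    exact hx (hN h)
  have hden : DenseRange (eb b) := by
    have h1 := b.dense_span
    intro v
    have h2 : (Set.range (eb b) : Set E) = (Submodule.span ℂ (Set.range b) : Submodule ℂ E) := by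
      rw [eb, ← LinearMap.coe_range, Finsupp.range_linearCombination]
    rw [h2]
    have h3 : v ∈ (Submodule.span ℂ (Set.range b)).topologicalClosure := by rw [h1]; trivial
    exact h3
  set q : X → (E →L[ℂ] E) := fun x => if x ∈ N then 0 else (fx b T x).extendOfNorm (eb b) with hq
  have hqe : ∀ x, x ∉ N → ∀ c, q x (eb b c) = fx b T x c := by
    intro x hx c
    simp only [hq, if_neg hx]
    exact LinearMap.extendOfNorm_eq hden ⟨‖T‖, hgood x hx⟩ c
  have hF : Fld ‖T‖ q := by
    refine ⟨fun x => ?_, fun v => ?_⟩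
    · by_cases hx : x ∈ N
      · simp [hq, hx]
      · simp only [hq, if_neg hx]
        exact LinearMap.opNorm_extendOfNorm_le hden (norm_nonneg _) (hgood x hx)
    · have h1 : ∀ c, StronglyMeasurable fun x => q x (eb b c) := by
        intro c
        have e1 : (fun x => q x (eb b c)) = Nᶜ.indicator fun x => fx b T x c := by
          funext x
          by_cases hx : x ∈ N
          · simp [hq, hx]
          · rw [hqe x hx, Set.indicator_of_mem (show x ∈ Nᶜ from hx)]
        rw [e1]
        refine StronglyMeasurable.indicator ?_ hNm.compl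
        have e2 : (fun x => fx b T x c) = fun x => ∑ i ∈ c.support, c i •
            (T (cst ν (b i)) : Lp E 2 ν) x := by
          funext x
          rw [fx, Finsupp.linearCombination_apply, Finsupp.sum]
        rw [e2]
        exact Finset.stronglyMeasurable_fun_sum _ fun i _ =>
          (Lp.stronglyMeasurable (T (cst ν (b i)))).const_smul (c i)
      obtain ⟨u, hu, hlim⟩ := mem_closure_iff_seq_limit.mp (hden v)
      choose c hc using hu
      refine stronglyMeasurable_of_tendsto atTop (fun n => h1 (c n)) ?_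
      rw [tendsto_pi_nhds]
      intro x
      have h2 := ((q x).continuous.tendsto v).comp hlim
      refine h2.congr fun n => ?_
      rw [Function.comp_apply, hc]
  refine ⟨q, hF, ?_⟩
  -- constants
  have hcst : ∀ v : E, T (cst ν v) = mo ν hF (cst ν v) := by
    have h1 : (T.comp (cst ν) : E →L[ℂ] Lp E 2 ν) = (mo ν hF).comp (cst ν) := by
      refine ContinuousLinearMap.ext fun v => ?_
      have h2 := hden.equalizer (T.comp (cst ν) : E →L[ℂ] Lp E 2 ν).continuous
        ((mo ν hF).comp (cst ν)).continuous (funext fun c => ?_)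
      · exact congrFun h2 v
      · change T (cst ν (eb b c)) = mo ν hF (cst ν (eb b c))
        apply Lp.ext
        have h3 : ∀ᵐ x ∂ν, x ∉ N := by
          rw [ae_iff]
          simpa using hN0
        filter_upwards [fx_ae b T c, mo_ae hF (cst ν (eb b c)), cst_ae (ν := ν) (eb b c), h3]
          with x h4 h5 h6 h7
        rw [h4, h5, h6, hqe x h7]
    intro v
    exact congrArg (fun L : E →L[ℂ] Lp E 2 ν => L v) h1
  have hmo : CmI ν (mo ν hF) := by
    intro A hA f g hfg
    filter_upwards [mo_ae hF g, mo_ae hF f, hfg] with x h1 h2 h3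
    rw [h1, h3]
    by_cases hx : x ∈ A
    · rw [Set.indicator_of_mem hx, Set.indicator_of_mem hx, h2]
    · rw [Set.indicator_of_notMem hx, Set.indicator_of_notMem hx, map_zero]
  have hall : ∀ f : Lp E 2 ν, T f = mo ν hF f := by
    intro f
    refine Lp.induction (by norm_num : (2 : ℝ≥0∞) ≠ ∞) (motive := fun f => T f = mo ν hF f)
      ?_ ?_ ?_ f
    · intro c A hA hμ
      have h1 : (Lp.simpleFunc.indicatorConst 2 hA hμ.ne c : Lp E 2 ν) =ᵐ[ν]
          A.indicator (cst ν c : Lp E 2 ν) := by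
        rw [Lp.simpleFunc.coe_indicatorConst]
        filter_upwards [indicatorConstLp_coeFn (p := 2) (hs := hA) (hμs := hμ.ne) (c := c),
          cst_ae (ν := ν) c] with x h1 h2
        rw [h1]
        by_cases hx : x ∈ A
        · rw [Set.indicator_of_mem hx, Set.indicator_of_mem hx, h2]
        · rw [Set.indicator_of_notMem hx, Set.indicator_of_notMem hx]
      apply Lp.ext
      refine (hT A hA _ _ h1).trans ?_
      rw [hcst c]
      exact (hmo A hA _ _ h1).symm
    · intro f g hf hg _ h1 h2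
      rw [map_add, map_add, h1, h2]
    · exact isClosed_eq T.continuous (mo ν hF).continuous
  intro f
  rw [hall f]
  exact mo_ae hF f

/-- Two fields of the same operator agree. -/
theorem field_unique [Countable I] (b : HilbertBasis I ℂ E) {q q' : X → (E →L[ℂ] E)}
    (h : ∀ f : Lp E 2 ν, (fun x => q x (f x)) =ᵐ[ν] fun x => q' x (f x)) :
    ∀ᵐ x ∂ν, q x = q' x := by
  have h1 : ∀ᵐ x ∂ν, ∀ i, q x (b i) = q' x (b i) := by
    rw [ae_all_iff]
    intro i
    filter_upwards [h (cst ν (b i)), cst_ae (ν := ν) (b i)] with x h1 h2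
    rwa [h2] at h1
  filter_upwards [h1] with x hx
  refine ContinuousLinearMap.ext_on (s := Set.range b) ?_ ?_
  · have h2 := b.dense_span
    rw [← Submodule.dense_iff_topologicalClosure_eq_top] at h2
    exact h2
  · rintro _ ⟨i, rfl⟩
    exact hx i

/-- The field of a product. -/
theorem field_mul {S T : Lp E 2 ν →L[ℂ] Lp E 2 ν} {s t : X → (E →L[ℂ] E)}
    (hs : ∀ f : Lp E 2 ν, S f =ᵐ[ν] fun x => s x (f x))
    (ht : ∀ f : Lp E 2 ν, T f =ᵐ[ν] fun x => t x (f x)) (f : Lp E 2 ν) :
    (S * T) f =ᵐ[ν] fun x => (s x * t x) (f x) := by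
  filter_upwards [hs (T f), ht f] with x h1 h2
  change (S (T f) : Lp E 2 ν) x = s x (t x (f x))
  rw [h1, h2]

/-- The field of the adjoint. -/
theorem field_adj [Countable I] (b : HilbertBasis I ℂ E) {C C' : ℝ}
    {T : Lp E 2 ν →L[ℂ] Lp E 2 ν} {q q' : X → (E →L[ℂ] E)} (hq : Fld C q) (hq' : Fld C' q')
    (h : ∀ f : Lp E 2 ν, T f =ᵐ[ν] fun x => q x (f x))
    (h' : ∀ f : Lp E 2 ν, (ContinuousLinearMap.adjoint T) f =ᵐ[ν] fun x => q' x (f x)) :
    ∀ᵐ x ∂ν, q' x = ContinuousLinearMap.adjoint (q x) := by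
  have h1 : ∀ᵐ x ∂ν, ∀ i j, ⟪q x (b i), b j⟫_ℂ = ⟪b i, q' x (b j)⟫_ℂ := by
    rw [ae_all_iff]
    intro i
    rw [ae_all_iff]
    intro j
    have i1 : Integrable (fun x => ⟪q x (b i), b j⟫_ℂ) ν := by
      refine Integrable.of_bound ?_ (C * ‖b i‖ * ‖b j‖) (Eventually.of_forall fun x => ?_)
      · exact ((hq.meas (b i)).inner stronglyMeasurable_const).aestronglyMeasurable
      · refine (norm_inner_le_norm _ _).trans (mul_le_mul_of_nonneg_right ?_ (norm_nonneg _))
        exact ((q x).le_opNorm _).trans (mul_le_mul_of_nonneg_right (hq.bd x) (norm_nonneg _))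
    have i2 : Integrable (fun x => ⟪b i, q' x (b j)⟫_ℂ) ν := by
      refine Integrable.of_bound ?_ (‖b i‖ * (C' * ‖b j‖)) (Eventually.of_forall fun x => ?_)
      · exact (stronglyMeasurable_const.inner (hq'.meas (b j))).aestronglyMeasurable
      · refine (norm_inner_le_norm _ _).trans (mul_le_mul_of_nonneg_left ?_ (norm_nonneg _))
        exact ((q' x).le_opNorm _).trans (mul_le_mul_of_nonneg_right (hq'.bd x) (norm_nonneg _))
    refine Integrable.ae_eq_of_forall_setIntegral_eq _ _ i1 i2 fun A hA _ => ?_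
    obtain ⟨g, hg⟩ := exists_ind A hA (cst ν (b j) : Lp E 2 ν)
    have e1 : ⟪T (cst ν (b i)), g⟫_ℂ = ∫ x in A, ⟪q x (b i), b j⟫_ℂ ∂ν := by
      rw [L2.inner_def, ← integral_indicator hA]
      refine integral_congr_ae ?_
      filter_upwards [h (cst ν (b i)), hg, cst_ae (ν := ν) (b i), cst_ae (ν := ν) (b j)]
        with x h1 h2 h3 h4
      rw [h1, h2, h3]
      by_cases hx : x ∈ A
      · rw [Set.indicator_of_mem hx, Set.indicator_of_mem hx, h4]
      · rw [Set.indicator_of_notMem hx, Set.indicator_of_notMem hx, inner_zero_right]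
    have e2 : ⟪(cst ν (b i) : Lp E 2 ν), (ContinuousLinearMap.adjoint T) g⟫_ℂ =
        ∫ x in A, ⟪b i, q' x (b j)⟫_ℂ ∂ν := by
      rw [L2.inner_def, ← integral_indicator hA]
      refine integral_congr_ae ?_
      filter_upwards [h' g, hg, cst_ae (ν := ν) (b i), cst_ae (ν := ν) (b j)]
        with x h1 h2 h3 h4
      rw [h1, h2, h3]
      by_cases hx : x ∈ A
      · rw [Set.indicator_of_mem hx, Set.indicator_of_mem hx, h4]
      · rw [Set.indicator_of_notMem hx, Set.indicator_of_notMem hx, map_zero, inner_zero_right]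
    rw [← e1, ← e2, ContinuousLinearMap.adjoint_inner_right]
  filter_upwards [h1] with x hx
  have hd : Dense ((Submodule.span ℂ (Set.range b) : Submodule ℂ E) : Set E) := by
    have h2 := b.dense_span
    rwa [← Submodule.dense_iff_topologicalClosure_eq_top] at h2
  refine ContinuousLinearMap.ext_on (s := Set.range b) hd ?_
  rintro _ ⟨j, rfl⟩
  -- test against the basis
  have h3 : ∀ i, ⟪b i, q' x (b j) - ContinuousLinearMap.adjoint (q x) (b j)⟫_ℂ = 0 := by
    intro i
    rw [inner_sub_right, ContinuousLinearMap.adjoint_inner_right, hx i j, sub_self]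
  have h4 : q' x (b j) - ContinuousLinearMap.adjoint (q x) (b j) = 0 := by
    apply b.repr.injective
    apply lp.ext
    funext i
    rw [b.repr_apply_apply, h3, map_zero]
    rfl
  exact sub_eq_zero.mp h4

end fin

end Vale.Agent.P092.H866.Dec
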