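import Vale.Agent.P092.H866.Main
import Vale.Agent.P092.H776.ErgM
import Vale.Agent.P092.H839.Tri

/-!
P092 (helper866).  Ergodicity of the comultiplication at connected places, for arbitrary ICC
groups `Λ`, in the model of `SR.Defs`.
-/

set_option linter.all false

open scoped InnerProductSpace Topology ENNReal
open Filter ContinuousLinearMap

namespace Vale.Agent.P092.H866

open H160 SR H776

variable {Γ Λ G : Type} [Group Γ] [Group Λ] [Group G] [TopologicalSpace G]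
  {α : Γ →* (Ell2 Λ →L[ℂ] Ell2 Λ)} {p : Γ →* G}

/-! ### conjugates in a dense subgroup -/

/-- If the centralizer of `p h` is not open, then `h` has infinitely many conjugates by elements
near `1`. -/
theorem inf_conj [IsTopologicalGroup G] [T2Space G] (hd : DenseRange p) {h : Γ}
    (hc : ¬ IsOpen ((Subgroup.centralizer {p h} : Subgroup G) : Set G)) {N : Set G}
    (hN : N ∈ 𝓝 (1 : G)) : {y : Γ | ∃ w, p w ∈ N ∧ y = w * h * w⁻¹}.Infinite := by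
  intro hfin
  apply hc
  obtain ⟨V, hVN, hVo, h1V⟩ := mem_nhds_iff.mp hN
  set F : Set G := p '' {y : Γ | ∃ w, p w ∈ N ∧ y = w * h * w⁻¹} with hF
  have hFf : F.Finite := hfin.image p
  have hFc : IsClosed F := hFf.isClosed
  have hmap : Continuous fun g : G => g * p h * g⁻¹ := by fun_prop
  have hVF : ∀ g ∈ V, g * p h * g⁻¹ ∈ F := by
    intro g hg
    by_contra hne
    have hO : IsOpen (V ∩ (fun g : G => g * p h * g⁻¹) ⁻¹' Fᶜ) :=
      hVo.inter (hFc.isOpen_compl.preimage hmap)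
    obtain ⟨w, hw⟩ := hd.exists_mem_open hO ⟨g, hg, hne⟩
    exact hw.2 ⟨w * h * w⁻¹, ⟨w, hVN hw.1, rfl⟩, by simp⟩
  -- near `1` the conjugate is `p h`
  have hO2 : IsOpen (V ∩ (fun g : G => g * p h * g⁻¹) ⁻¹' (F \ {p h})ᶜ) :=
    hVo.inter ((hFf.subset Set.diff_subset).isClosed.isOpen_compl.preimage hmap)
  refine Subgroup.isOpen_of_mem_nhds _ (g := 1) ?_
  refine Filter.mem_of_superset (hO2.mem_nhds ⟨h1V, by simp⟩) ?_
  rintro g ⟨hgV, hg⟩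
  have h1 : g * p h * g⁻¹ = p h := by
    by_contra hne
    exact hg ⟨hVF g hgV, hne⟩
  rw [SetLike.mem_coe, Subgroup.mem_centralizer_iff]
  rintro x rfl
  rw [mul_inv_eq_iff_eq_mul] at h1
  exact h1.symm

/-! ### the slices -/

theorem Js_rho (s c : Λ) (v : Ell2 Λ) : Js s (rho c v) = rho (c, c) (Js (c⁻¹ * s * c) v) := by
  have h : Js s ∘L rho c = rho (c, c) ∘L Js (c⁻¹ * s * c) := by
    apply op_ext
    intro q
    change Js s (rho c (dl q)) = rho (c, c) (Js (c⁻¹ * s * c) (dl q))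
    rw [rho_dl, Js_dl, Js_dl, rho_dl]
    congr 1
    rw [Prod.inv_mk, Prod.mk_mul_mk]
    refine Prod.ext rfl ?_
    change q * c⁻¹ * s = q * (c⁻¹ * s * c) * c⁻¹
    group
  exact congrArg (fun L : Ell2 Λ →L[ℂ] Ell2 (Λ × Λ) => L v) h

theorem adjJs_rho (s c : Λ) (v : Ell2 (Λ × Λ)) :
    adjoint (Js s) (rho (c, c) v) = rho c (adjoint (Js (c⁻¹ * s * c)) v) := by
  apply ext_inner_right ℂ
  intro u
  rw [adjoint_inner_left]
  have h1 : rho (c, c) v = adjoint (rho ((c, c)⁻¹ : Λ × Λ)) v := by rw [adjoint_rho, inv_inv]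
  have h2 : rho c (adjoint (Js (c⁻¹ * s * c)) v) =
      adjoint (rho c⁻¹) (adjoint (Js (c⁻¹ * s * c)) v) := by rw [adjoint_rho, inv_inv]
  rw [h1, h2, adjoint_inner_left, adjoint_inner_left, adjoint_inner_left, Js_rho, Prod.inv_mk]
  congr 4
  group

/-- Bessel's inequality. -/
theorem bessel_Js (η : Ell2 (Λ × Λ)) : HasSum (fun s : Λ => ‖adjoint (Js s) η‖ ^ 2) (‖η‖ ^ 2) := by
  have h1 := hasSum_parseval (regRep_lam (G := Λ × Λ)) η
  have h2 : HasSum (fun z : Λ × Λ => ‖⟪dl z, η⟫_ℂ‖ ^ 2) (‖η‖ ^ 2) := by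
    refine h1.congr_fun fun z => ?_
    rw [lamH_apply, lam_dl, mul_one]
  -- reindex by `(s, p) ↦ (p, p s)`
  let e : Λ × Λ ≃ Λ × Λ :=
    { toFun := fun z => (z.2, z.2 * z.1)
      invFun := fun z => (z.1⁻¹ * z.2, z.1)
      left_inv := fun z => by simp
      right_inv := fun z => by simp }
  have h3 : HasSum (fun z : Λ × Λ => ‖⟪dl (z.2, z.2 * z.1), η⟫_ℂ‖ ^ 2) (‖η‖ ^ 2) :=
    e.hasSum_iff.mpr h2
  refine h3.prod_fiberwise fun s => ?_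
  have h4 := hasSum_parseval (regRep_lam (G := Λ)) (adjoint (Js s) η)
  refine h4.congr_fun fun q => ?_
  rw [lamH_apply, lam_dl, mul_one, adjoint_inner_right, Js_dl]

/-- the slice of `X` at `s` -/
noncomputable def Sl (s : Λ) (X : Ell2 (Λ × Λ) →L[ℂ] Ell2 (Λ × Λ)) : Ell2 Λ →L[ℂ] Ell2 Λ :=
  adjoint (Js s) ∘L X ∘L Js 1

theorem Sl_rho {X : Ell2 (Λ × Λ) →L[ℂ] Ell2 (Λ × Λ)} (hX : ∀ q, X * rho q = rho q * X) (s c : Λ)
    (v : Ell2 Λ) : Sl s X (rho c v) = rho c (Sl (c⁻¹ * s * c) X v) := by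
  change adjoint (Js s) (X (Js 1 (rho c v))) = rho c (adjoint (Js (c⁻¹ * s * c)) (X (Js 1 v)))
  have e1 : c⁻¹ * 1 * c = 1 := by group
  have e2 : X (rho (c, c) (Js 1 v)) = rho (c, c) (X (Js 1 v)) :=
    congrArg (fun L : Ell2 (Λ × Λ) →L[ℂ] Ell2 (Λ × Λ) => L (Js 1 v)) (hX (c, c))
  rw [Js_rho, e1, e2, adjJs_rho]

theorem Sl_sub (s : Λ) (X Y : Ell2 (Λ × Λ) →L[ℂ] Ell2 (Λ × Λ)) : Sl s (X - Y) = Sl s X - Sl s Y := by
  ext1 v
  change adjoint (Js s) ((X - Y) (Js 1 v)) = adjoint (Js s) (X (Js 1 v)) - adjoint (Js s) (Y (Js 1 v))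
  rw [sub_apply, map_sub]

/-- representatives of `C \ Λ` -/
theorem reps_bij (C : Subgroup Λ) :
    Function.Bijective fun z : (Λ ⧸ C) × C => (z.2 : Λ) * (z.1.out)⁻¹ := by
  constructor
  · rintro ⟨i, c⟩ ⟨j, d⟩ hij
    have h1 : (c : Λ) * (i.out)⁻¹ = (d : Λ) * (j.out)⁻¹ := hij
    have h2 : i = j := by
      rw [← QuotientGroup.out_eq' i, ← QuotientGroup.out_eq' j, QuotientGroup.eq]
      have h3 : i.out⁻¹ * j.out = (c : Λ)⁻¹ * d := by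
        rw [eq_inv_mul_iff_mul_eq, ← mul_assoc, h1, inv_mul_cancel_right]
      rw [h3]
      exact C.mul_mem (C.inv_mem c.2) d.2
    subst h2
    have h4 : (c : Λ) = d := mul_right_cancel h1
    rw [Subtype.ext h4]
  · intro y
    refine ⟨⟨(y⁻¹ : Λ), ⟨y * ((y⁻¹ : Λ) : Λ ⧸ C).out, ?_⟩⟩, ?_⟩
    · have h1 : (y⁻¹)⁻¹ * ((y⁻¹ : Λ) : Λ ⧸ C).out ∈ C := by
        rw [← QuotientGroup.eq]
        exact (QuotientGroup.out_eq' _).symm
      rwa [inv_inv] at h1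
    · exact mul_inv_cancel_right _ _

theorem Sl_coset {X : Ell2 (Λ × Λ) →L[ℂ] Ell2 (Λ × Λ)} (hX : ∀ q, X * rho q = rho q * X) (s : Λ) :
    (Summable fun i : Λ ⧸ Subgroup.centralizer ({s} : Set Λ) =>
      ‖Sl s X (rho (i.out)⁻¹ (dl 1))‖ ^ 2) ∧
    ∑' i : Λ ⧸ Subgroup.centralizer ({s} : Set Λ), ‖Sl s X (rho (i.out)⁻¹ (dl 1))‖ ^ 2 ≤
      ‖X (dl 1)‖ ^ 2 := by
  have h1 : ∀ i : Λ ⧸ Subgroup.centralizer ({s} : Set Λ), ‖Sl s X (rho (i.out)⁻¹ (dl 1))‖ ^ 2 =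
      ‖adjoint (Js (i.out * s * (i.out)⁻¹)) (X (dl 1))‖ ^ 2 := by
    intro i
    rw [Sl_rho hX, norm_rho]
    change ‖adjoint (Js _) (X (Js 1 (dl 1)))‖ ^ 2 = _
    rw [Js_dl, inv_inv]
    congr 4
    rw [mul_one]; rfl
  have hinj : Function.Injective (fun i : Λ ⧸ Subgroup.centralizer ({s} : Set Λ) =>
      (i.out * s * i.out⁻¹ : Λ)) := by
    intro i j hij
    have h4 : i.out * s * i.out⁻¹ = j.out * s * j.out⁻¹ := hij
    rw [← QuotientGroup.out_eq' i, ← QuotientGroup.out_eq' j, QuotientGroup.eq,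
      Subgroup.mem_centralizer_iff]
    rintro x rfl
    calc x * (i.out⁻¹ * j.out) = i.out⁻¹ * (i.out * x * i.out⁻¹) * j.out := by group
      _ = i.out⁻¹ * (j.out * x * j.out⁻¹) * j.out := by rw [h4]
      _ = _ := by group
  have hb := bessel_Js (X (dl (1 : Λ × Λ)))
  have hs := hb.summable.comp_injective hinj
  refine ⟨hs.congr fun i => (h1 i).symm, ?_⟩
  rw [tsum_congr h1, ← hb.tsum_eq]
  exact hs.tsum_le_tsum_of_inj _ hinj (fun s _ => by positivity) (fun i => le_rfl) hb.summable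


/-! ### the result -/

theorem adjJs_Del (x : Ell2 Λ →L[ℂ] Ell2 Λ) (s : Λ) (u : Ell2 (Λ × Λ)) :
    adjoint (Js s) (Del x u) = x (adjoint (Js s) u) := by
  have h1 : adjoint (Js s) ∘L Del x = x ∘L adjoint (Js s) := by
    have h2 := congrArg (fun L => adjoint L) (Del_Js (adjoint x) s)
    simp only [adjoint_comp, adjoint_adjoint, H776.Del_adjoint] at h2
    exact h2
  exact congrArg (fun L : Ell2 (Λ × Λ) →L[ℂ] Ell2 Λ => L u) h1

theorem sg_Sl (w : Γ) (s : Λ) (T : Ell2 (Λ × Λ) →L[ℂ] Ell2 (Λ × Λ)) :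
    sg α w (Sl s T) = Sl s (VV α w * T * VV α w⁻¹) := by
  ext1 v
  change α w (adjoint (Js s) (T (Js 1 (α w⁻¹ v)))) =
    adjoint (Js s) (Del (α w) (T (Del (α w⁻¹) (Js 1 v))))
  have e1 : Del (α w⁻¹) (Js 1 v) = Js 1 (α w⁻¹ v) :=
    congrArg (fun L : Ell2 Λ →L[ℂ] Ell2 (Λ × Λ) => L v) (Del_Js (α w⁻¹) 1)
  rw [e1, adjJs_Del]

theorem VV_rho (hα : Frame α) (w : Γ) (q : Λ × Λ) : VV α w * rho q = rho q * VV α w :=
  H839.Del_rho (fun t => hα.comm w t) q.1 q.2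

theorem err_rho (hα : Frame α) {T : Ell2 (Λ × Λ) →L[ℂ] Ell2 (Λ × Λ)}
    (hT : ∀ q, T * rho q = rho q * T) (w : Γ) (q : Λ × Λ) :
    (VV α w * T * VV α w⁻¹ - T) * rho q = rho q * (VV α w * T * VV α w⁻¹ - T) := by
  rw [sub_mul, mul_sub, mul_assoc, VV_rho hα, mul_assoc, ← mul_assoc T, hT q, mul_assoc,
    ← mul_assoc (VV α w), VV_rho hα, mul_assoc, mul_assoc]

theorem cm_Sl {T : Ell2 (Λ × Λ) →L[ℂ] Ell2 (Λ × Λ)} (hT : ∀ q, T * rho q = rho q * T) (s : Λ) :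
    CmC rhoH (Subgroup.centralizer {s}) (Sl s T) := by
  intro c hc
  ext1 v
  change Sl s T (rho c v) = rho c (Sl s T v)
  rw [Sl_rho hT]
  have h1 : c⁻¹ * s * c = s := by
    have := Subgroup.mem_centralizer_iff.mp hc s rfl
    rw [mul_assoc, this, inv_mul_cancel_left]
  rw [h1]

theorem mem_Sl {T : Ell2 (Λ × Λ) →L[ℂ] Ell2 (Λ × Λ)} (hT : ∀ q, T * rho q = rho q * T) (s : Λ) :
    Memℓp (fun i : Λ ⧸ Subgroup.centralizer ({s} : Set Λ) =>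
      Sl s T (rhoH ((fun i : Λ ⧸ Subgroup.centralizer ({s} : Set Λ) => (i.out)⁻¹) i) (dl 1))) 2 :=
  mem2_iff.mpr (Sl_coset hT s).1

theorem norm_Sl {T : Ell2 (Λ × Λ) →L[ℂ] Ell2 (Λ × Λ)} (hT : ∀ q, T * rho q = rho q * T) (s : Λ) :
    ‖vec rhoH (dl 1) (fun i : Λ ⧸ Subgroup.centralizer ({s} : Set Λ) => (i.out)⁻¹) (Sl s T)‖ ≤
      ‖T (dl 1)‖ := by
  have h1 := norm_vec_sq (mem_Sl hT s)
  have h2 : ‖vec rhoH (dl 1) (fun i : Λ ⧸ Subgroup.centralizer ({s} : Set Λ) => (i.out)⁻¹)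
      (Sl s T)‖ ^ 2 ≤ ‖T (dl 1)‖ ^ 2 := by
    rw [h1]
    exact (Sl_coset hT s).2
  exact (pow_le_pow_iff_left₀ (norm_nonneg _) (norm_nonneg _) two_ne_zero).mp h2

theorem ct_Sl (hα : Frame α) {T : Ell2 (Λ × Λ) →L[ℂ] Ell2 (Λ × Λ)}
    (hT : ∀ q, T * rho q = rho q * T)
    (hcont : ∀ ε > 0, ∃ W ∈ 𝓝 (1 : G), ∀ v, p v ∈ W →
      ‖(VV α v * T * VV α v⁻¹ - T) (dl 1)‖ ≤ ε) (s : Λ) :
    Ct rhoH α (dl 1) (Subgroup.centralizer {s})
      (fun i : Λ ⧸ Subgroup.centralizer ({s} : Set Λ) => (i.out)⁻¹) p (Sl s T) where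
  comm := cm_Sl hT s
  mem := mem_Sl hT s
  cont := by
    rw [Metric.tendsto_nhds]
    intro ε hε
    obtain ⟨W, hW, hWε⟩ := hcont (ε / 2) (half_pos hε)
    refine Filter.mem_comap.mpr ⟨W, hW, fun w hw => ?_⟩
    rw [Set.mem_setOf_eq, dist_zero_right, norm_norm, sg_Sl, ← Sl_sub]
    exact lt_of_le_of_lt ((norm_Sl (err_rho hα hT w) s).trans (hWε w hw)) (half_lt_self hε)

theorem infinite_quot (hicc : ∀ s : Λ, s ≠ 1 → {y : Λ | ∃ k, y = k * s * k⁻¹}.Infinite) {s : Λ}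
    (hs : s ≠ 1) : Infinite (Λ ⧸ Subgroup.centralizer ({s} : Set Λ)) := by
  by_contra hfin
  rw [not_infinite_iff_finite] at hfin
  refine hicc s hs ((Set.finite_range fun i : Λ ⧸ Subgroup.centralizer ({s} : Set Λ) =>
    (i.out * s * i.out⁻¹ : Λ)).subset ?_)
  rintro _ ⟨k, rfl⟩
  refine ⟨(k : Λ ⧸ Subgroup.centralizer ({s} : Set Λ)), ?_⟩
  have h1 : ((k : Λ ⧸ Subgroup.centralizer ({s} : Set Λ)).out)⁻¹ * k ∈
      Subgroup.centralizer ({s} : Set Λ) := by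
    rw [← QuotientGroup.eq]
    exact QuotientGroup.out_eq' _
  have h2 := Subgroup.mem_centralizer_iff.mp h1 s rfl
  change (k : Λ ⧸ Subgroup.centralizer ({s} : Set Λ)).out * s *
    ((k : Λ ⧸ Subgroup.centralizer ({s} : Set Λ)).out)⁻¹ = k * s * k⁻¹
  rw [eq_mul_inv_iff_mul_eq, mul_assoc, mul_assoc, h2]
  group

/-- the slice at `1` is a scalar -/
theorem Sl_one [IsTopologicalGroup G] (hα : Frame α) {T : Ell2 (Λ × Λ) →L[ℂ] Ell2 (Λ × Λ)}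
    (hT : ∀ q, T * rho q = rho q * T)
    (hF1 : ∀ g : Γ, g ≠ 1 → ∀ N ∈ 𝓝 (1 : G), {y | ∃ w, p w ∈ N ∧ y = w * g * w⁻¹}.Infinite)
    (hcont : ∀ ε > 0, ∃ W ∈ 𝓝 (1 : G), ∀ v, p v ∈ W →
      ‖(VV α v * T * VV α v⁻¹ - T) (dl 1)‖ ≤ ε) :
    ∃ c : ℂ, Sl 1 T = c • (1 : Ell2 Λ →L[ℂ] Ell2 Λ) := by
  have hx : Function.Bijective fun z : Unit × (⊤ : Subgroup Λ) =>
      (z.2 : Λ) * (fun _ : Unit => (1 : Λ)) z.1 := by
    constructor
    · rintro ⟨_, c⟩ ⟨_, d⟩ h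
      have h1 : (c : Λ) * 1 = d * 1 := h
      rw [mul_one, mul_one] at h1
      rw [Subtype.ext h1]
    · intro y
      exact ⟨⟨(), ⟨y, trivial⟩⟩, mul_one y⟩
  have hmem : ∀ X : Ell2 Λ →L[ℂ] Ell2 Λ,
      Memℓp (fun i : Unit => X (rhoH ((fun _ : Unit => (1 : Λ)) i) (dl 1))) 2 := by
    intro X
    rw [mem2_iff]
    exact (hasSum_fintype _).summable
  have hcm : ∀ c : Λ, Sl 1 T * rho c = rho c * Sl 1 T := by
    intro c
    ext1 v
    change Sl 1 T (rho c v) = rho c (Sl 1 T v)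
    rw [Sl_rho hT]
    congr 3
    group
  have hle : ∀ X : Ell2 (Λ × Λ) →L[ℂ] Ell2 (Λ × Λ), (∀ q, X * rho q = rho q * X) →
      ‖vec rhoH (dl 1) (fun _ : Unit => (1 : Λ)) (Sl 1 X)‖ ≤ ‖X (dl 1)‖ := by
    intro X hX
    have h1 := norm_vec_sq (hmem (Sl 1 X))
    have h2 : ‖Sl 1 X (dl 1)‖ ^ 2 ≤ ‖X (dl 1)‖ ^ 2 := by
      have h3 := bessel_Js (X (dl (1 : Λ × Λ)))
      have h4 := h3.summable.le_tsum (1 : Λ) (fun _ _ => by positivity)
      rw [h3.tsum_eq] at h4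
      refine le_trans (le_of_eq ?_) h4
      change ‖adjoint (Js 1) (X (Js 1 (dl 1)))‖ ^ 2 = _
      rw [Js_dl, mul_one]
      rfl
    have h5 : ‖vec rhoH (dl 1) (fun _ : Unit => (1 : Λ)) (Sl 1 X)‖ ^ 2 ≤ ‖X (dl 1)‖ ^ 2 := by
      rw [h1, tsum_fintype, Fintype.sum_unique]
      rw [map_one]
      exact h2
    exact (pow_le_pow_iff_left₀ (norm_nonneg _) (norm_nonneg _) two_ne_zero).mp h5
  have hct : Ct rhoH α (dl 1) (⊤ : Subgroup Λ) (fun _ : Unit => (1 : Λ)) p (Sl 1 T) :=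
    { comm := fun c _ => hcm c
      mem := hmem _
      cont := by
        rw [Metric.tendsto_nhds]
        intro ε hε
        obtain ⟨W, hW, hWε⟩ := hcont (ε / 2) (half_pos hε)
        refine Filter.mem_comap.mpr ⟨W, hW, fun w hw => ?_⟩
        rw [Set.mem_setOf_eq, dist_zero_right, norm_norm, sg_Sl, ← Sl_sub]
        exact lt_of_le_of_lt ((hle _ (err_rho hα hT w)).trans (hWε w hw)) (half_lt_self hε) }
  have hct1 : Ct rhoH α (dl 1) (⊤ : Subgroup Λ) (fun _ : Unit => (1 : Λ)) p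
      (1 : Ell2 Λ →L[ℂ] Ell2 Λ) :=
    { comm := fun c _ => by rw [one_mul, mul_one]
      mem := hmem _
      cont := by
        have h1 : ∀ w, sg α w (1 : Ell2 Λ →L[ℂ] Ell2 Λ) - 1 = 0 := by
          intro w
          rw [sg, mul_one, ← map_mul, mul_inv_cancel, map_one, sub_self]
        have h2 : ‖vec rhoH (dl 1) (fun _ : Unit => (1 : Λ)) (0 : Ell2 Λ →L[ℂ] Ell2 Λ)‖ = 0 := by
          have h3 := norm_vec_sq (hmem 0)
          rw [tsum_fintype, Fintype.sum_unique, zero_apply, norm_zero] at h3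
          nlinarith [norm_nonneg (vec rhoH (dl 1) (fun _ : Unit => (1 : Λ))
            (0 : Ell2 Λ →L[ℂ] Ell2 Λ))]
        simp only [h1, h2]
        exact tendsto_const_nhds }
  have hf : ∀ g : Γ, g ≠ 1 → ⟪α g (dl 1), Sl 1 T (dl 1)⟫_ℂ = 0 := by
    intro g hg
    have h1 := f1 hα.reg regRep_rho (fun g s => hα.comm g s) hx hF1 hct hct1
      (inv_ne_one.mpr hg)
    rw [lp.inner_eq_tsum, tsum_fintype, Fintype.sum_unique, vec_apply hct1.mem, Lm_apply,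
      vec_apply hct.mem] at h1
    rw [hα.reg.inner_left]
    rw [map_one] at h1
    exact h1
  refine ⟨⟪(dl 1 : Ell2 Λ), Sl 1 T (dl 1)⟫_ℂ, ?_⟩
  refine regRep_rho.ext_cmm (fun c => hcm c) (fun c => by
    rw [smul_mul_assoc, mul_smul_comm, one_mul, mul_one]) ?_
  refine hα.reg.ext_vec fun g => ?_
  change _ = ⟪α g (dl 1), ⟪(dl 1 : Ell2 Λ), Sl 1 T (dl 1)⟫_ℂ • dl 1⟫_ℂ
  rw [inner_smul_right]
  by_cases hg : g = 1
  · subst hg
    rw [map_one]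
    change ⟪dl 1, Sl 1 T (dl 1)⟫_ℂ = _ * ⟪dl 1, dl 1⟫_ℂ
    have h1 : ⟪(dl 1 : Ell2 Λ), dl 1⟫_ℂ = 1 := by
      rw [inner_self_eq_norm_sq_to_K, norm_dl]; simp
    rw [h1, mul_one]
  · rw [hf g hg, ← inner_conj_symm (α g (dl 1)) (dl 1), hα.reg.inner_zero g hg, map_zero, mul_zero]

/-- **Ergodicity at a connected place.** -/
theorem erg_conn' [IsTopologicalGroup G] [PreconnectedSpace G] (hα : Frame α)
    (hicc : ∀ s : Λ, s ≠ 1 → {y : Λ | ∃ k, y = k * s * k⁻¹}.Infinite) (hp : DenseRange p)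
    (hfd : FD p)
    (hF1 : ∀ g : Γ, g ≠ 1 → ∀ N ∈ 𝓝 (1 : G), {y | ∃ w, p w ∈ N ∧ y = w * g * w⁻¹}.Infinite)
    {T : Ell2 (Λ × Λ) →L[ℂ] Ell2 (Λ × Λ)} (hT : ∀ q, T * rho q = rho q * T)
    (hcont : ∀ ε > 0, ∃ W ∈ 𝓝 (1 : G), ∀ v, p v ∈ W →
      ‖(VV α v * T * VV α v⁻¹ - T) (dl 1)‖ ≤ ε) :
    ∃ c : ℂ, T = c • (1 : Ell2 (Λ × Λ) →L[ℂ] Ell2 (Λ × Λ)) := by
  obtain ⟨c, hc⟩ := Sl_one hα hT hF1 hcont
  have hz : ∀ s : Λ, s ≠ 1 → Sl s T = 0 := by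
    intro s hs
    haveI := infinite_quot hicc hs
    exact conn_zero (h := ⟨hα.reg, regRep_rho, fun g s => hα.comm g s, reps_bij _⟩) hp hfd hF1
      (ct_Sl hα hT hcont s)
  refine ⟨c, regRep_rho.ext_cmm (fun q => hT q) (fun q => by
    rw [smul_mul_assoc, mul_smul_comm, one_mul, mul_one]) ?_⟩
  apply ext_inner_dl
  rintro ⟨a, b⟩
  rw [← inner_dl, ← inner_dl]
  change _ = ⟪dl (a, b), c • dl 1⟫_ℂ
  have h1 : (dl (a, b) : Ell2 (Λ × Λ)) = Js (a⁻¹ * b) (dl a) := by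
    rw [Js_dl, mul_inv_cancel_left]
  have h2 : (dl (1 : Λ × Λ) : Ell2 (Λ × Λ)) = Js 1 (dl 1) := by
    rw [Js_dl, mul_one]; rfl
  have h3 : ⟪dl (a, b), T (dl 1)⟫_ℂ = ⟪dl a, Sl (a⁻¹ * b) T (dl 1)⟫_ℂ := by
    change _ = ⟪dl a, adjoint (Js (a⁻¹ * b)) (T (Js 1 (dl 1)))⟫_ℂ
    rw [adjoint_inner_right, ← h1, ← h2]
  rw [h3, inner_smul_right]
  have h0 : ∀ {X : Type} (x y : X), x ≠ y → ⟪(dl x : Ell2 X), dl y⟫_ℂ = 0 := by
    intro X x y hxy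
    classical
    rw [inner_dl, dl_apply, if_neg hxy]
  by_cases hab : a⁻¹ * b = 1
  · have hb : b = a := by
      rw [inv_mul_eq_one] at hab; exact hab.symm
    subst hb
    rw [inv_mul_cancel, hc]
    change ⟪dl b, c • dl 1⟫_ℂ = _
    rw [inner_smul_right]
    congr 1
    by_cases hb : b = 1
    · subst hb
      have e1 : ∀ {X : Type} (x : X), ⟪(dl x : Ell2 X), dl x⟫_ℂ = 1 := by
        intro X x
        rw [inner_self_eq_norm_sq_to_K, norm_dl]; simp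
      rw [e1 (1 : Λ)]
      exact (e1 (1 : Λ × Λ)).symm
    · rw [h0 b 1 hb, h0 (b, b) 1 (fun h => hb (congrArg Prod.fst h))]
  · rw [hz _ hab, zero_apply, inner_zero_right, h0 (a, b) 1 (fun h => hab ?_), mul_zero]
    have e1 : a = 1 := congrArg Prod.fst h
    have e2 : b = 1 := congrArg Prod.snd h
    rw [e1, e2, inv_one, one_mul]

/-- **[Q-ERG-CONN]** (T3) -/
theorem erg_conn [IsTopologicalGroup G] [T2Space G] [PreconnectedSpace G] (hα : Frame α)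
    (hicc : ∀ s : Λ, s ≠ 1 → {y : Λ | ∃ k, y = k * s * k⁻¹}.Infinite) (hp : DenseRange p)
    (hfd : FD p)
    (hcen : ∀ g : Γ, g ≠ 1 → ¬ IsOpen ((Subgroup.centralizer {p g} : Subgroup G) : Set G))
    (T : Ell2 (Λ × Λ) →L[ℂ] Ell2 (Λ × Λ)) (hT : Cmm (RRR α) T)
    (hcont : ∀ ε > 0, ∃ W ∈ 𝓝 (1 : G), ∀ v, p v ∈ W →
      ‖(VV α v * T * VV α v⁻¹ - T) (dl 1)‖ ≤ ε) :
    ∃ c : ℂ, T = c • (1 : Ell2 (Λ × Λ) →L[ℂ] Ell2 (Λ × Λ)) := by
  refine erg_conn' hα hicc hp hfd (fun g hg N hN => inf_conj hp (hcen g hg) hN) (fun q => ?_) hcont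
  refine comm_rho_of hα (fun g => ?_) (fun g => ?_) q
  · have := hT (g, 1)
    rw [RRR_apply, map_one, mul_one] at this
    exact this
  · have := hT (1, g)
    rw [RRR_apply, map_one, one_mul] at this
    exact this

end Vale.Agent.P092.H866
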