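import Vale.Agent.P092.H217.F2
import Vale.Agent.P092.H188.G2c

/-!
P092, stage 3, block [P3-COUNT], row (g1) (helper866): the zoom. Letters of helper217 (FD, F2).
-/

set_option linter.all false

namespace Vale.Agent.P092.H866.G1

open Finset Matrix
open Vale.Agent.P092.H820 (wd)
open Vale.Agent.P092.H714.Cl (hf hf_add_left hf_smul_left hf_add_right hf_smul_right hf_zero_left
  hf_zero_right)
open Vale.Agent.P092.H835.PlF (w3 Alt sq sq_wd alt_wd alt_sq bl bl_self bl_anti sq_apply bl_le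
  bl_add_right bl_smul_right)
open Vale.Agent.P092.H589.K2 (Nrm mn mn_wd wd_norm_le chain_mn nrm_one nrm_ne)
open Vale.Agent.P092.H87.N (cn cn_nonneg)
open Vale.Agent.P092.H217.F

section wdl

variable {k : Type} [NormedField k] {n : Type} [Fintype n]

lemma wd_add_left (x x' y : n → k) : wd (x + x') y = wd x y + wd x' y := by
  funext p; simp only [wd, Pi.add_apply]; ring

lemma wd_add_right (x y y' : n → k) : wd x (y + y') = wd x y + wd x y' := by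
  funext p; simp only [wd, Pi.add_apply]; ring

lemma wd_smul_left (a : k) (x y : n → k) : wd (a • x) y = a • wd x y := by
  funext p; simp only [wd, Pi.smul_apply, smul_eq_mul]; ring

lemma wd_smul_right (a : k) (x y : n → k) : wd x (a • y) = a • wd x y := by
  funext p; simp only [wd, Pi.smul_apply, smul_eq_mul]; ring

lemma wd_swap (x y : n → k) : wd x y = - wd y x := by
  funext p; simp only [wd, Pi.neg_apply]; ring

lemma wd_comm_norm (x y : n → k) : ‖wd x y‖ = ‖wd y x‖ := by rw [wd_swap, norm_neg]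

/-- expansion of a wedge product -/
lemma wd_exp (p q g z : n → k) (a b c d : k) :
    wd (p + a • g + b • z) (q + c • g + d • z) = wd p q + c • wd p g + d • wd p z - a • wd q g
      - b • wd q z + (a * d - b * c) • wd g z := by
  funext i
  simp only [wd, Pi.add_apply, Pi.sub_apply, Pi.smul_apply, smul_eq_mul]; ring

lemma wd_exp_le (p q g z : n → k) (a b c d : k) :
    ‖wd (p + a • g + b • z) (q + c • g + d • z)‖ ≤ ‖wd p q‖ + ‖c‖ * ‖wd p g‖ + ‖d‖ * ‖wd p z‖ +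
      ‖a‖ * ‖wd q g‖ + ‖b‖ * ‖wd q z‖ + (‖a‖ * ‖d‖ + ‖b‖ * ‖c‖) * ‖wd g z‖ := by
  rw [wd_exp]
  have h1 : ‖a * d - b * c‖ ≤ ‖a‖ * ‖d‖ + ‖b‖ * ‖c‖ := by
    refine (norm_sub_le _ _).trans ?_
    rw [norm_mul, norm_mul]
  calc _ ≤ ‖wd p q‖ + ‖c • wd p g‖ + ‖d • wd p z‖ + ‖a • wd q g‖ + ‖b • wd q z‖ +
        ‖(a * d - b * c) • wd g z‖ := by
        refine (norm_add_le _ _).trans (add_le_add ?_ le_rfl)
        refine (norm_sub_le _ _).trans (add_le_add ?_ le_rfl)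
        refine (norm_sub_le _ _).trans (add_le_add ?_ le_rfl)
        refine (norm_add_le _ _).trans (add_le_add ?_ le_rfl)
        exact norm_add_le _ _
    _ ≤ _ := by
        simp only [norm_smul]
        have : ‖a * d - b * c‖ * ‖wd g z‖ ≤ (‖a‖ * ‖d‖ + ‖b‖ * ‖c‖) * ‖wd g z‖ := by gcongr
        linarith

end wdl

section minors

variable {k : Type} [NontriviallyNormedField k] {n : Type} [Fintype n] [DecidableEq n]

/-- a matrix with small 2x2 minors acts with small norm on the 2-vectors -/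
lemma sq_of_minors {A : Matrix n n k} {K : ℝ} (hK : 0 ≤ K)
    (h : ∀ y w : n → k, ‖wd (A *ᵥ y) (A *ᵥ w)‖ ≤ K * (‖y‖ * ‖w‖)) {P : n × n → k} (hP : Alt P) :
    ‖sq A *ᵥ P‖ ≤ cn n ^ 2 * K * ‖P‖ := by
  have hcn : 0 ≤ cn n := cn_nonneg
  refine (pi_norm_le_iff_of_nonneg (by positivity)).2 ?_
  rintro ⟨a, b⟩
  rw [sq_apply]
  by_cases h0 : A a = 0
  · rw [h0]
    have e : bl P (0 : n → k) (A b) = 0 := by simp [bl]
    rw [e, norm_zero]; positivity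
  obtain ⟨α, r, hw, -, h2⟩ := dec_max (w := A b) h0
  have e : bl P (A a) (A b) = bl P (A a) r := by
    rw [hw, bl_add_right, bl_smul_right, bl_self hP, mul_zero, zero_add]
  rw [e]
  have h3 : ‖wd (A b) (A a)‖ ≤ K := by
    refine (pi_norm_le_iff_of_nonneg hK).2 ?_
    rintro ⟨c, d⟩
    have h4 := h (Pi.single c 1) (Pi.single d 1)
    have h5 : ‖(Pi.single c (1 : k) : n → k)‖ * ‖(Pi.single d (1 : k) : n → k)‖ ≤ 1 * 1 :=
      mul_le_mul (norm_single_one c) (norm_single_one d) (norm_nonneg _) zero_le_one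
    have h6 : wd (A b) (A a) (c, d) = wd (A *ᵥ Pi.single c 1) (A *ᵥ Pi.single d 1) (b, a) := by
      simp only [wd, Matrix.mulVec_single_one, Matrix.col_apply]
      ring
    rw [h6]
    refine (norm_le_pi_norm _ _).trans (h4.trans ?_)
    calc K * _ ≤ K * (1 * 1) := by gcongr
      _ = K := by ring
  have h7 := bl_le (Ω := P) (s := A a) (t := r) (a := ‖A a‖) (b := ‖r‖) (M := ‖P‖)
    (fun i => norm_le_pi_norm (A a) i) (fun i => norm_le_pi_norm r i)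
    (fun i j => norm_le_pi_norm P (i, j)) (norm_nonneg _) (norm_nonneg _)
  refine h7.trans ?_
  have h8 : ‖A a‖ * ‖r‖ ≤ K := by rw [mul_comm]; exact h2.trans h3
  calc cn n ^ 2 * (‖A a‖ * ‖r‖ * ‖P‖) ≤ cn n ^ 2 * (K * ‖P‖) := by gcongr
    _ = _ := by ring

end minors

section hz

variable {k : Type} [NontriviallyNormedField k] {n : Type} [Fintype n] [DecidableEq n]
  {σ : k →+* k} {ε : k} {J : Matrix n n k} {β : ℝ}

/-- **(a)** a bounded isotropic partner of every isotropic vector -/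
theorem exists_hz (hF : H188.G2.Fh σ ε J) (hJ : Fm σ J β) : ∃ Cz : ℝ, 1 ≤ Cz ∧
    ∀ g : n → k, Nrm g → hf σ J g g = 0 →
      ∃ ζ, hf σ J ζ ζ = 0 ∧ hf σ J g ζ = 1 ∧ ‖ζ‖ ≤ Cz := by
  obtain ⟨C₀, hC₀, h0⟩ := H188.G2.tv_bdd hF
  have hb := hJ.b0
  have hb1 := hJ.b1
  refine ⟨β + C₀ * (β * (β * β)), ?_, fun g hg hgg => ?_⟩
  · have : 0 ≤ C₀ * (β * (β * β)) := by positivity
    linarith
  obtain ⟨j, hj⟩ := hJ.nd g
  rw [nrm_one hg] at hj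
  set c := hf σ J g (Pi.single j 1) with hc
  have hc0 : c ≠ 0 := by
    intro h
    rw [h, norm_zero, mul_zero] at hj
    linarith
  have hcn : 0 < ‖c‖ := norm_pos_iff.2 hc0
  set w : n → k := σ c⁻¹ • Pi.single j 1 with hw
  have hgw : hf σ J g w = 1 := by
    rw [hw, hf_smul_right, hF.inv, ← hc, inv_mul_cancel₀ hc0]
  have hwn : ‖w‖ ≤ β := by
    rw [hw, norm_smul, hJ.iso, norm_inv]
    have h1 := norm_single_one (k := k) j
    have h2 : ‖c‖⁻¹ ≤ β := by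
      rw [inv_le_iff_one_le_mul₀ hcn]; exact hj
    calc ‖c‖⁻¹ * ‖(Pi.single j (1 : k) : n → k)‖ ≤ β * 1 := by gcongr
      _ = β := mul_one _
  obtain ⟨b, hb', hbn⟩ := h0 (hf σ J w w) (hF.tv w)
  have hww : ‖hf σ J w w‖ ≤ β * (β * β) := hJ.le hwn hwn
  have hwg : hf σ J w g = ε := by
    rw [hF.herm g w, hgw, map_one, mul_one]
  clear_value w
  refine ⟨w - b • g, ?_, ?_, ?_⟩
  · rw [hf_sub_left, hf_sub_right, hf_smul_left, hf_sub_right, hf_smul_right, hf_smul_right, hwg,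
      hgw, hgg, hb']
    ring
  · rw [hf_sub_right, hf_smul_right, hgw, hgg, mul_zero, sub_zero]
  · refine (norm_sub_le _ _).trans ?_
    rw [norm_smul, nrm_one hg, mul_one]
    have : ‖b‖ ≤ C₀ * (β * (β * β)) := hbn.trans (by gcongr)
    linarith

end hz

section zoom

variable {k : Type} [NontriviallyNormedField k] {n : Type} [Fintype n] [DecidableEq n]
  {σ : k →+* k} {J : Matrix n n k} {β Cz : ℝ} {g ζ : n → k}

/-- **(b)** the zoom: `g ↦ ρ g`, `ζ ↦ (σ ρ)⁻¹ ζ`, the identity on `⟨g, ζ⟩ᗮ` -/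
def az (σ : k →+* k) (J : Matrix n n k) (g ζ : n → k) (ρ : k) : Matrix n n k :=
  1 + (ρ - 1) • vecMulVec g (jv σ J ζ) +
    (((σ ρ)⁻¹ - 1) / hf σ J ζ g) • vecMulVec ζ (jv σ J g)

theorem az_mulVec (g ζ : n → k) (ρ : k) (v : n → k) :
    az σ J g ζ ρ *ᵥ v = v + ((ρ - 1) * hf σ J v ζ) • g +
      (((σ ρ)⁻¹ - 1) * (hf σ J v g / hf σ J ζ g)) • ζ := by
  have e : ∀ x y : n → k, vecMulVec x (jv σ J y) *ᵥ v = hf σ J v y • x := by
    intro x y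
    rw [vecMulVec_mulVec, hf_jv, dotProduct_comm]
    funext i
    simp only [MulOpposite.smul_eq_mul_unop, Pi.smul_apply, smul_eq_mul, dotProduct]
    exact mul_comm _ _
  unfold az
  rw [add_mulVec, add_mulVec, one_mulVec, smul_mulVec, smul_mulVec, e, e, smul_smul, smul_smul,
    div_mul_eq_mul_div, mul_div_assoc]

/-- a hyperbolic pair -/
structure Hp (σ : k →+* k) (J : Matrix n n k) (Cz : ℝ) (g ζ : n → k) : Prop where
  g1 : ‖g‖ = 1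
  gg : hf σ J g g = 0
  zz : hf σ J ζ ζ = 0
  gz : hf σ J g ζ = 1
  zn : ‖ζ‖ ≤ Cz

/-- the projection on `⟨g, ζ⟩ᗮ` -/
def pr (σ : k →+* k) (J : Matrix n n k) (g ζ v : n → k) : n → k :=
  v - hf σ J v ζ • g - (hf σ J v g / hf σ J ζ g) • ζ

section basic

variable (hJ : Fm σ J β) (hp : Hp σ J Cz g ζ)
include hJ hp

lemma en : ‖hf σ J ζ g‖ = 1 := by rw [hJ.sym, hp.gz, norm_one]

lemma e0 : hf σ J ζ g ≠ 0 := norm_pos_iff.1 (by rw [en hJ hp]; exact one_pos)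

lemma pr_z (v : n → k) : hf σ J (pr σ J g ζ v) ζ = 0 := by
  unfold pr
  rw [hf_sub_left, hf_sub_left, hf_smul_left, hf_smul_left, hp.gz, hp.zz]; ring

lemma pr_g (v : n → k) : hf σ J (pr σ J g ζ v) g = 0 := by
  unfold pr
  rw [hf_sub_left, hf_sub_left, hf_smul_left, hf_smul_left, hp.gg, div_mul_cancel₀ _ (e0 hJ hp)]
  ring

lemma z_pr (v : n → k) : hf σ J ζ (pr σ J g ζ v) = 0 := hJ.z (pr_z hJ hp v)

lemma g_pr (v : n → k) : hf σ J g (pr σ J g ζ v) = 0 := hJ.z (pr_g hJ hp v)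

lemma Cz1 : 1 ≤ β * Cz := by
  have hb := hJ.b0
  have h := hJ.le (le_of_eq hp.g1) hp.zn
  rw [hp.gz, norm_one, one_mul] at h
  exact h

lemma Cz0 : 0 ≤ Cz := (norm_nonneg _).trans hp.zn

lemma al_le (v : n → k) : ‖hf σ J v ζ‖ ≤ β * Cz * ‖v‖ := by
  have h := hJ.le (le_refl ‖v‖) hp.zn
  calc _ ≤ β * (‖v‖ * Cz) := h
    _ = _ := by ring

lemma be_le (v : n → k) : ‖hf σ J v g / hf σ J ζ g‖ ≤ β * ‖v‖ := by
  rw [norm_div, en hJ hp, div_one]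
  have h := hJ.le (le_refl ‖v‖) (le_of_eq hp.g1)
  rwa [mul_one] at h

lemma pr_le (v : n → k) : ‖pr σ J g ζ v‖ ≤ 3 * (β * Cz) * ‖v‖ := by
  have hb := hJ.b0
  have hz := Cz0 hJ hp
  have h1 := Cz1 hJ hp
  unfold pr
  refine (norm_sub_le _ _).trans ?_
  refine (add_le_add (norm_sub_le _ _) le_rfl).trans ?_
  rw [norm_smul, norm_smul, hp.g1, mul_one]
  have h2 := al_le hJ hp v
  have h3 : ‖hf σ J v g / hf σ J ζ g‖ * ‖ζ‖ ≤ β * ‖v‖ * Cz :=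
    mul_le_mul (be_le hJ hp v) hp.zn (norm_nonneg _) (by positivity)
  have h4 : ‖v‖ ≤ β * Cz * ‖v‖ := le_mul_of_one_le_left (norm_nonneg _) h1
  linarith

lemma dec (v : n → k) : v = pr σ J g ζ v + hf σ J v ζ • g + (hf σ J v g / hf σ J ζ g) • ζ := by
  unfold pr; abel

lemma az_dec (ρ : k) (v : n → k) : az σ J g ζ ρ *ᵥ v =
    pr σ J g ζ v + (ρ * hf σ J v ζ) • g + ((σ ρ)⁻¹ * (hf σ J v g / hf σ J ζ g)) • ζ := by
  rw [az_mulVec]
  unfold pr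
  funext i
  simp only [Pi.add_apply, Pi.sub_apply, Pi.smul_apply, smul_eq_mul]
  ring

theorem az_mul (ρ ρ' : k) : az σ J g ζ ρ * az σ J g ζ ρ' = az σ J g ζ (ρ * ρ') := by
  refine (Matrix.toLin' (R := k)).injective (LinearMap.ext fun v => ?_)
  simp only [Matrix.toLin'_apply, ← Matrix.mulVec_mulVec]
  have e0' := e0 hJ hp
  have h1 : hf σ J (az σ J g ζ ρ' *ᵥ v) ζ = ρ' * hf σ J v ζ := by
    rw [az_mulVec, hf_add_left, hf_add_left, hf_smul_left, hf_smul_left, hp.gz, hp.zz]; ring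
  have h2 : hf σ J (az σ J g ζ ρ' *ᵥ v) g = (σ ρ')⁻¹ * hf σ J v g := by
    rw [az_mulVec, hf_add_left, hf_add_left, hf_smul_left, hf_smul_left, hp.gg]
    field_simp
    ring
  rw [az_mulVec g ζ ρ, h1, h2, az_mulVec g ζ ρ', az_mulVec g ζ (ρ * ρ'), map_mul, mul_inv]
  funext i
  simp only [Pi.add_apply, Pi.smul_apply, smul_eq_mul]
  ring

theorem az_one : az σ J g ζ 1 = 1 := by
  unfold az
  rw [map_one, inv_one, sub_self, zero_div, zero_smul, zero_smul, add_zero, add_zero]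

theorem az_inv {ρ : k} (hρ : ρ ≠ 0) : az σ J g ζ ρ * az σ J g ζ ρ⁻¹ = 1 := by
  rw [az_mul hJ hp, mul_inv_cancel₀ hρ, az_one hJ hp]

theorem az_inv' {ρ : k} (hρ : ρ ≠ 0) : az σ J g ζ ρ⁻¹ * az σ J g ζ ρ = 1 := by
  rw [az_mul hJ hp, inv_mul_cancel₀ hρ, az_one hJ hp]

theorem az_iso (hinv : ∀ a, σ (σ a) = a) {ρ : k} (hρ : ρ ≠ 0) (v w : n → k) :
    hf σ J (az σ J g ζ ρ *ᵥ v) (az σ J g ζ ρ *ᵥ w) = hf σ J v w := by
  have hσρ : σ ρ ≠ 0 := by rwa [Ne, map_eq_zero]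
  have e1 : ∀ (p q : n → k) (a b c d : k), hf σ J p g = 0 → hf σ J p ζ = 0 → hf σ J g q = 0 →
      hf σ J ζ q = 0 → hf σ J (p + a • g + b • ζ) (q + c • g + d • ζ) =
        hf σ J p q + a * σ d + b * σ c * hf σ J ζ g := by
    intro p q a b c d h1 h2 h3 h4
    simp only [hf_add_left, hf_add_right, hf_smul_left, hf_smul_right, h1, h2, h3, h4, hp.gg,
      hp.zz, hp.gz]
    ring
  have h1 := pr_g hJ hp v
  have h2 := pr_z hJ hp v
  have h3 := g_pr hJ hp w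
  have h4 := z_pr hJ hp w
  rw [az_dec hJ hp, az_dec hJ hp, e1 _ _ _ _ _ _ h1 h2 h3 h4]
  conv_rhs => rw [dec hJ hp v, dec hJ hp w, e1 _ _ _ _ _ _ h1 h2 h3 h4]
  simp only [map_mul, map_inv₀, hinv]
  field_simp

/-- bound of the inverse zoom on a vector -/
lemma az_le {ρ : k} (hρ : ρ ≠ 0) (hρ1 : ‖ρ‖ ≤ 1) (v : n → k) :
    ‖az σ J g ζ ρ⁻¹ *ᵥ v‖ ≤ 5 * (β * Cz) * ‖ρ‖⁻¹ * ‖v‖ := by
  have hb := hJ.b0
  have hz := Cz0 hJ hp
  have h1 := Cz1 hJ hp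
  have hr : 0 < ‖ρ‖ := norm_pos_iff.2 hρ
  have hr1 : 1 ≤ ‖ρ‖⁻¹ := (one_le_inv₀ hr).2 hρ1
  have hrr : ‖ρ‖ ≤ ‖ρ‖⁻¹ := hρ1.trans hr1
  rw [az_dec hJ hp, map_inv₀, inv_inv]
  refine (norm_add_le _ _).trans ((add_le_add (norm_add_le _ _) le_rfl).trans ?_)
  rw [norm_smul, norm_smul, hp.g1, mul_one, norm_mul, norm_mul, norm_inv, hJ.iso]
  have h2 := pr_le hJ hp v
  have h3 := al_le hJ hp v
  have h4 := be_le hJ hp v
  have h5 : ‖ρ‖ * ‖hf σ J v g / hf σ J ζ g‖ * ‖ζ‖ ≤ ‖ρ‖⁻¹ * (β * ‖v‖) * Cz := by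
    gcongr
    exact hp.zn
  have h6 : 3 * (β * Cz) * ‖v‖ ≤ 3 * (β * Cz) * ‖v‖ * ‖ρ‖⁻¹ :=
    le_mul_of_one_le_right (by positivity) hr1
  have h7 : ‖ρ‖⁻¹ * ‖hf σ J v ζ‖ ≤ ‖ρ‖⁻¹ * (β * Cz * ‖v‖) := by gcongr
  calc _ ≤ 3 * (β * Cz) * ‖v‖ * ‖ρ‖⁻¹ + ‖ρ‖⁻¹ * (β * Cz * ‖v‖) + ‖ρ‖⁻¹ * (β * ‖v‖) * Cz := by
        linarith
    _ = _ := by ring

/-- bound of the inverse zoom on a wedge product -/
lemma az_wd {ρ : k} (hρ : ρ ≠ 0) (hρ1 : ‖ρ‖ ≤ 1) (y w : n → k) :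
    ‖wd (az σ J g ζ ρ⁻¹ *ᵥ y) (az σ J g ζ ρ⁻¹ *ᵥ w)‖ ≤
      46 * (β * Cz) ^ 2 * ‖ρ‖⁻¹ * (‖y‖ * ‖w‖) := by
  have hb := hJ.b0
  have hz := Cz0 hJ hp
  have h1 := Cz1 hJ hp
  have hr : 0 < ‖ρ‖ := norm_pos_iff.2 hρ
  have hr1 : 1 ≤ ‖ρ‖⁻¹ := (one_le_inv₀ hr).2 hρ1
  have hrr : ‖ρ‖ ≤ ‖ρ‖⁻¹ := hρ1.trans hr1
  rw [az_dec hJ hp, az_dec hJ hp, map_inv₀, inv_inv]
  refine (wd_exp_le _ _ _ _ _ _ _ _).trans ?_
  have py := pr_le hJ hp y
  have pw := pr_le hJ hp w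
  have ay := al_le hJ hp y
  have aw := al_le hJ hp w
  have by' := be_le hJ hp y
  have bw := be_le hJ hp w
  set B := β * Cz with hB
  have hB0 : 0 ≤ B := by positivity
  set Y := ‖y‖ with hY
  set W := ‖w‖ with hW
  have hY0 : 0 ≤ Y := norm_nonneg _
  have hW0 : 0 ≤ W := norm_nonneg _
  set R := ‖ρ‖⁻¹ with hR
  have hR0 : 0 ≤ R := by positivity
  rw [norm_mul, norm_mul, norm_mul, norm_mul, norm_inv, hJ.iso, ← hR]
  set bY := ‖hf σ J y g / hf σ J ζ g‖ with hbY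
  set bW := ‖hf σ J w g / hf σ J ζ g‖ with hbW
  have hbY0 : 0 ≤ bY := norm_nonneg _
  have hbW0 : 0 ≤ bW := norm_nonneg _
  have t1 : ‖wd (pr σ J g ζ y) (pr σ J g ζ w)‖ ≤ 18 * B ^ 2 * R * (Y * W) := by
    refine (wd_norm_le _ _).trans ?_
    calc 2 * (‖pr σ J g ζ y‖ * ‖pr σ J g ζ w‖) ≤ 2 * ((3 * B * Y) * (3 * B * W)) := by gcongr
      _ = 18 * B ^ 2 * 1 * (Y * W) := by ring
      _ ≤ _ := by gcongr
  have tg : ∀ {v : n → k} {V : ℝ}, 0 ≤ V → ‖pr σ J g ζ v‖ ≤ 3 * B * V →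
      ‖wd (pr σ J g ζ v) g‖ ≤ 6 * B * V := by
    intro v V hV h
    refine (wd_norm_le _ _).trans ?_
    rw [hp.g1, mul_one]; linarith
  have tz : ∀ {v : n → k} {V : ℝ}, 0 ≤ V → ‖pr σ J g ζ v‖ ≤ 3 * B * V →
      ‖wd (pr σ J g ζ v) ζ‖ ≤ 6 * B * V * Cz := by
    intro v V hV h
    refine (wd_norm_le _ _).trans ?_
    have : ‖pr σ J g ζ v‖ * ‖ζ‖ ≤ 3 * B * V * Cz := by
      gcongr
      exact hp.zn
    linarith
  have t2 : R * ‖hf σ J w ζ‖ * ‖wd (pr σ J g ζ y) g‖ ≤ 6 * B ^ 2 * R * (Y * W) := by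
    calc _ ≤ R * (B * W) * (6 * B * Y) := by
          gcongr
          exact tg hY0 py
      _ = _ := by ring
  have t3 : ‖ρ‖ * bW * ‖wd (pr σ J g ζ y) ζ‖ ≤ 6 * B ^ 2 * R * (Y * W) := by
    calc _ ≤ R * (β * W) * (6 * B * Y * Cz) := by
          gcongr
          exact tz hY0 py
      _ = 6 * B * (β * Cz) * R * (Y * W) := by ring
      _ = _ := by rw [← hB]; ring
  have t4 : R * ‖hf σ J y ζ‖ * ‖wd (pr σ J g ζ w) g‖ ≤ 6 * B ^ 2 * R * (Y * W) := by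
    calc _ ≤ R * (B * Y) * (6 * B * W) := by
          gcongr
          exact tg hW0 pw
      _ = _ := by ring
  have t5 : ‖ρ‖ * bY * ‖wd (pr σ J g ζ w) ζ‖ ≤ 6 * B ^ 2 * R * (Y * W) := by
    calc _ ≤ R * (β * Y) * (6 * B * W * Cz) := by
          gcongr
          exact tz hW0 pw
      _ = 6 * B * (β * Cz) * R * (Y * W) := by ring
      _ = _ := by rw [← hB]; ring
  have t6 : (R * ‖hf σ J y ζ‖ * (‖ρ‖ * bW) + ‖ρ‖ * bY * (R * ‖hf σ J w ζ‖)) * ‖wd g ζ‖ ≤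
      4 * B ^ 2 * R * (Y * W) := by
    have hRρ : R * ‖ρ‖ = 1 := inv_mul_cancel₀ hr.ne'
    have hgz : ‖wd g ζ‖ ≤ 2 * Cz := by
      refine (wd_norm_le _ _).trans ?_
      rw [hp.g1, one_mul]
      linarith [hp.zn]
    calc _ = ((R * ‖ρ‖) * (‖hf σ J y ζ‖ * bW + bY * ‖hf σ J w ζ‖)) * ‖wd g ζ‖ := by ring
      _ = (‖hf σ J y ζ‖ * bW + bY * ‖hf σ J w ζ‖) * ‖wd g ζ‖ := by rw [hRρ, one_mul]
      _ ≤ ((B * Y) * (β * W) + (β * Y) * (B * W)) * (2 * Cz) := by gcongr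
      _ = 4 * B * (β * Cz) * 1 * (Y * W) := by ring
      _ ≤ 4 * B * (β * Cz) * R * (Y * W) := by gcongr
      _ = _ := by rw [← hB]; ring
  linarith

end basic

end zoom

end Vale.Agent.P092.H866.G1
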