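import Vale.Agent.P092.H866.G1b
import Vale.Agent.P092.H217.F5

/-!
P092, stage 3, block [P3-COUNT], row (g1) (helper866), part 3: `H217.F.ZmS`.
-/

set_option linter.all false

namespace Vale.Agent.P092.H866.G1

open Matrix
open Vale.Agent.P092.H714.Cl (hf)
open Vale.Agent.P092.H589.K2 (Nrm)

variable {k : Type} [NontriviallyNormedField k] {n : Type} [Fintype n] [DecidableEq n]
  {σ : k →+* k} {ε : k} {J : Matrix n n k} {β : ℝ}

/-- **the zooms exist**: the hypothesis `hZ` of `H217.F.unit3` -/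
theorem zmF (hJ : H217.F.Fm σ J β) (hinv : ∀ a, σ (σ a) = a) {Cz : ℝ}
    (hz : ∀ g : n → k, Nrm g → hf σ J g g = 0 →
      ∃ ζ, hf σ J ζ ζ = 0 ∧ hf σ J g ζ = 1 ∧ ‖ζ‖ ≤ Cz) : H217.F.ZmS σ J := by
  intro C c hC hc
  obtain ⟨C', c', h1, h2, h3⟩ := zmS hJ hinv hz C c hC hc
  refine ⟨C', c', h1, h2, fun g ρ hg hgg hρ hρ1 => ?_⟩
  obtain ⟨a, a', h⟩ := h3 g ρ hg hgg hρ hρ1
  exact ⟨a, a', h.inv, h.iso, h.z1, h.z2, h.z3⟩

/-- the same from the algebra of the form -/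
theorem zmF' (hF : H188.G2.Fh σ ε J) (hJ : H217.F.Fm σ J β) : H217.F.ZmS σ J := by
  obtain ⟨Cz, -, hz⟩ := exists_hz hF hJ
  exact zmF hJ hF.inv hz

end Vale.Agent.P092.H866.G1
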