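import Vale.Agent.P092.H702.TG2
import Vale.Agent.P092.H714.Cl6

/-!
P092, TEAM P, tracks 2 and 3, row (K1) (helper866): FRAMES. A compact subset of the isometry group
(and of every subgroup which contains the transvection group and is open or transitive) is
transitive on the singular `j`-spaces; bounded frames for the standard form.
-/

set_option linter.all false

open TopologicalSpace Topology Module Set Filter
open scoped Matrix

namespace Vale.Agent.P092.H866.K1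

open Vale.Agent.P092.H303 (FormGroup hyp Idx isClosed_formGroup locallyCompact_formGroup
  secondCountable_formGroup)
open Vale.Agent.P092.H100.Gr
open Vale.Agent.P092.H370.Po
open Vale.Agent.P092.H714.Cl

section gen

/-- an open orbit map onto a compact space: a compact set is transitive -/
theorem exists_cpt' {G X : Type*} [TopologicalSpace G] [LocallyCompactSpace G] [TopologicalSpace X]
    [CompactSpace X] {φ : G → X} (ho : IsOpenMap φ) (hs : Function.Surjective φ) :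
    ∃ K : Set G, IsCompact K ∧ ∀ x, ∃ g ∈ K, φ g = x := by
  choose g hg using hs
  have h1 : ∀ x : X, ∃ N : Set G, IsCompact N ∧ N ∈ 𝓝 (g x) := fun x =>
    exists_compact_mem_nhds (g x)
  choose N hN hN' using h1
  have h2 : ∀ x : X, φ '' N x ∈ 𝓝 x := fun x => by
    have := ho.image_mem_nhds (hN' x)
    rwa [hg x] at this
  obtain ⟨t, -, ht⟩ := isCompact_univ.elim_nhds_subcover (fun x => φ '' N x) fun x _ => h2 x
  refine ⟨⋃ x ∈ t, N x, t.isCompact_biUnion fun x _ => hN x, fun x => ?_⟩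
  obtain ⟨y, hy, z, hz, rfl⟩ := mem_iUnion₂.1 (ht (mem_univ x))
  exact ⟨z, mem_iUnion₂.2 ⟨y, hy, hz⟩, rfl⟩

variable {n : Type} [Fintype n] [DecidableEq n] {k : Type} [NontriviallyNormedField k]
  [ProperSpace k] {σ : k →+* k} {ε : k} {J : Matrix n n k} {j : ℕ}

/-- **a compact set of isometries is transitive on the singular `j`-spaces** -/
theorem exists_cpt (hσ : Continuous σ) (hF : Frm σ ε J) (X₀ : SGr σ J j) :
    ∃ K : Set (FormGroup σ J), IsCompact K ∧ ∀ X : SGr σ J j, ∃ g ∈ K, g • X₀ = X := by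
  haveI := Fact.mk hσ
  haveI : LocallyCompactSpace (FormGroup σ J) := locallyCompact_formGroup hσ J
  refine exists_cpt' (Vale.Agent.P092.H702.TG.orbit_open hσ hF X₀) fun X => ?_
  obtain ⟨g, -, hg, -⟩ := trans_SGr hF X₀ X
  exact ⟨g, hg⟩

/-- the same for a closed subgroup which contains the transvection group -/
theorem exists_cpt_sub (hσ : Continuous σ) (hF : Frm σ ε J) (X₀ : SGr σ J j)
    (H : Subgroup (FormGroup σ J)) (hH : IsClosed (H : Set (FormGroup σ J)))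
    (hG : ∀ g : FormGroup σ J, g.1 ∈ GT σ ε J → g ∈ H) :
    ∃ K : Set (FormGroup σ J), IsCompact K ∧ K ⊆ H ∧ ∀ X : SGr σ J j, ∃ g ∈ K, g • X₀ = X := by
  haveI := Fact.mk hσ
  haveI : LocallyCompactSpace (FormGroup σ J) := locallyCompact_formGroup hσ J
  haveI : SecondCountableTopology (FormGroup σ J) := secondCountable_formGroup J
  haveI : LocallyCompactSpace H := hH.isClosedEmbedding_subtypeVal.locallyCompactSpace
  haveI : SecondCountableTopology H :=
    TopologicalSpace.Subtype.secondCountableTopology (H : Set (FormGroup σ J))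
  haveI : MulAction.IsPretransitive H (SGr σ J j) := ⟨fun X Y => by
    obtain ⟨g, h1, hg, -⟩ := trans_SGr hF X Y
    exact ⟨⟨g, hG g h1⟩, hg⟩⟩
  haveI : ContinuousSMul H (SGr σ J j) := Subgroup.continuousSMul
  obtain ⟨K, hK, hK'⟩ := exists_cpt' (φ := fun g : H => g • X₀)
    (isOpenMap_smul_of_sigmaCompact X₀) (MulAction.surjective_smul H X₀)
  refine ⟨Subtype.val '' K, hK.image continuous_subtype_val, ?_, fun X => ?_⟩
  · rintro _ ⟨g, -, rfl⟩
    exact g.2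
  · obtain ⟨g, hg, h⟩ := hK' X
    exact ⟨g.1, ⟨g, hg, rfl⟩, h⟩

/-- entries of a compact set of matrices -/
theorem exists_bound {K : Set (FormGroup σ J)} (hK : IsCompact K) :
    ∃ C : ℝ, 0 < C ∧ ∀ g ∈ K, ∀ a b, ‖g.1.1 a b‖ ≤ C ∧ ‖(g⁻¹).1.1 a b‖ ≤ C := by
  have hc : Continuous fun g : FormGroup σ J => g.1.1 :=
    Vale.Agent.P092.H303.isClosedEmbedding_val.continuous.comp continuous_subtype_val
  have hci : Continuous fun g : FormGroup σ J => (g⁻¹).1.1 := hc.comp continuous_inv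
  have h1 : ∀ p : n × n, ∃ C : ℝ, ∀ g ∈ K, ‖g.1.1 p.1 p.2‖ ≤ C ∧ ‖(g⁻¹).1.1 p.1 p.2‖ ≤ C := by
    intro p
    have e1 : Continuous fun g : FormGroup σ J => g.1.1 p.1 p.2 :=
      (continuous_apply_apply p.1 p.2).comp hc
    have e2 : Continuous fun g : FormGroup σ J => (g⁻¹).1.1 p.1 p.2 :=
      (continuous_apply_apply p.1 p.2).comp hci
    obtain ⟨C1, h1⟩ := hK.exists_bound_of_continuousOn e1.continuousOn
    obtain ⟨C2, h2⟩ := hK.exists_bound_of_continuousOn e2.continuousOn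
    exact ⟨max C1 C2, fun g hg => ⟨(h1 g hg).trans (le_max_left _ _),
      (h2 g hg).trans (le_max_right _ _)⟩⟩
  choose C hC using h1
  refine ⟨∑ p, |C p| + 1, by positivity, fun g hg a b => ?_⟩
  have h2 : C (a, b) ≤ ∑ p, |C p| + 1 := by
    have h3 : |C (a, b)| ≤ ∑ p, |C p| :=
      Finset.single_le_sum (f := fun p => |C p|) (fun p _ => abs_nonneg _) (Finset.mem_univ (a, b))
    linarith [le_abs_self (C (a, b))]
  exact ⟨((hC (a, b) g hg).1).trans h2, ((hC (a, b) g hg).2).trans h2⟩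

theorem mem_smul_iff (g : FormGroup σ J) (X₀ : SGr σ J j) (x : n → k) :
    x ∈ (g • X₀).S ↔ x ᵥ* g.1.1 ∈ X₀.S := by
  rw [smul_S]
  constructor
  · rintro ⟨y, hy, rfl⟩
    have : (y ᵥ* (g.1⁻¹).1) ᵥ* g.1.1 = y := vecMul_inv_cancel y g.1
    change (y ᵥ* (g.1⁻¹).1) ᵥ* g.1.1 ∈ X₀.S
    rw [this]
    exact hy
  · intro h
    exact ⟨x ᵥ* g.1.1, h, vecMul_cancel_inv x g.1⟩

/-- **FRAMES**, any form, any base space -/
theorem frames' (hσ : Continuous σ) (hF : Frm σ ε J) (X₀ : SGr σ J j) :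
    ∃ C : ℝ, 0 < C ∧ ∀ X : SGr σ J j, ∃ g : FormGroup σ J, g • X₀ = X ∧
      ∃ κ κ' : Matrix n n k, κ = (g.1.1)ᵀ ∧ κ' * κ = 1 ∧ κ * κ' = 1 ∧
      (∀ a b, ‖κ a b‖ ≤ C) ∧ (∀ a b, ‖κ' a b‖ ≤ C) ∧
      (∀ x y, hf σ J (κ *ᵥ x) (κ *ᵥ y) = hf σ J x y) ∧ ∀ x, x ∈ X.S ↔ κ *ᵥ x ∈ X₀.S := by
  obtain ⟨K, hK, hK'⟩ := exists_cpt hσ hF X₀
  obtain ⟨C, hC, hb⟩ := exists_bound hK
  refine ⟨C, hC, fun X => ?_⟩
  obtain ⟨g, hg, rfl⟩ := hK' X
  have e1 : g.1.1 * (g⁻¹).1.1 = 1 := by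
    have h : g.1 * (g⁻¹).1 = 1 := by
      change (g * g⁻¹).1 = 1
      rw [mul_inv_cancel]; rfl
    have h2 := congrArg Subtype.val h
    exact h2
  have e2 : (g⁻¹).1.1 * g.1.1 = 1 := by
    have h : (g⁻¹).1 * g.1 = 1 := by
      change (g⁻¹ * g).1 = 1
      rw [inv_mul_cancel]; rfl
    have h2 := congrArg Subtype.val h
    exact h2
  refine ⟨g, rfl, (g.1.1)ᵀ, ((g⁻¹).1.1)ᵀ, rfl, ?_, ?_, fun a b => (hb g hg b a).1,
    fun a b => (hb g hg b a).2, fun x y => ?_, fun x => ?_⟩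
  · rw [← Matrix.transpose_mul, e1, Matrix.transpose_one]
  · rw [← Matrix.transpose_mul, e2, Matrix.transpose_one]
  · rw [Matrix.mulVec_transpose, Matrix.mulVec_transpose]
    exact mem_formGroup.1 g.2 x y
  · rw [Matrix.mulVec_transpose]
    exact mem_smul_iff g X₀ x

end gen

section std

variable {ω : Type} [Fintype ω] [DecidableEq ω] {k : Type} [Field k]
  {σ : k →+* k} {ε : k} {J₀ : Matrix ω ω k} {r : ℕ}

/-- the base singular subspace: the vectors with only the first `r` coordinates -/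
def U₀ (k : Type) [Field k] (r : ℕ) (ω : Type) : Submodule k (Idx r ω → k) where
  carrier := {x | (∀ i, x (.inl (.inr i)) = 0) ∧ ∀ i, x (.inr i) = 0}
  add_mem' {x y} hx hy := ⟨fun i => by rw [Pi.add_apply, hx.1, hy.1, add_zero],
    fun i => by rw [Pi.add_apply, hx.2, hy.2, add_zero]⟩
  zero_mem' := ⟨fun i => rfl, fun i => rfl⟩
  smul_mem' a {x} hx := ⟨fun i => by rw [Pi.smul_apply, hx.1, smul_zero],
    fun i => by rw [Pi.smul_apply, hx.2, smul_zero]⟩

theorem mem_U₀ {x : Idx r ω → k} :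
    x ∈ U₀ k r ω ↔ (∀ i, x (.inl (.inr i)) = 0) ∧ ∀ i, x (.inr i) = 0 := Iff.rfl

/-- the coordinates of `U₀` -/
def eU₀ (k : Type) [Field k] (r : ℕ) (ω : Type) : U₀ k r ω ≃ₗ[k] (Fin r → k) where
  toFun x i := x.1 (.inl (.inl i))
  map_add' x y := rfl
  map_smul' a x := rfl
  invFun y := ⟨Sum.elim (Sum.elim y 0) 0, fun i => rfl, fun i => rfl⟩
  left_inv x := by
    refine Subtype.ext (funext fun p => ?_)
    rcases p with (i | i) | i
    · rfl
    · exact (x.2.1 i).symm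
    · exact (x.2.2 i).symm
  right_inv y := rfl

/-- the base point of `SGr` -/
def X₀ (σ : k →+* k) (ε : k) (J₀ : Matrix ω ω k) (r : ℕ) : SGr σ (hyp r ε J₀) r :=
  SGr.mk' (U₀ k r ω) (fun x hx y hy => by
    rw [hf_hyp]
    have e1 : (fun i => x (.inr i)) = (0 : ω → k) := funext fun i => hx.2 i
    rw [e1, hf_zero_left]
    simp only [hx.1, hy.1, map_zero, mul_zero, zero_mul, Finset.sum_const_zero, add_zero])
    ((eU₀ k r ω).finrank_eq.trans (Module.finrank_fin_fun k))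

end std

/-- **(K1)** -/
theorem frames {ω : Type} [Fintype ω] [DecidableEq ω] {k : Type} [NontriviallyNormedField k]
    [ProperSpace k] {σ : k →+* k} {ε : k} {J₀ : Matrix ω ω k} {r : ℕ} (hσ : Continuous σ)
    (hF : Frm σ ε (hyp r ε J₀)) :
    ∃ C : ℝ, 0 < C ∧ ∀ X : SGr σ (hyp r ε J₀) r,
      ∃ κ κ' : Matrix (Idx r ω) (Idx r ω) k, κ' * κ = 1 ∧ κ * κ' = 1 ∧
      (∀ a b, ‖κ a b‖ ≤ C) ∧ (∀ a b, ‖κ' a b‖ ≤ C) ∧
      (∀ x y, hf σ (hyp r ε J₀) (κ *ᵥ x) (κ *ᵥ y) = hf σ (hyp r ε J₀) x y) ∧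
      ∀ x, x ∈ X.S ↔ (∀ i, (κ *ᵥ x) (.inl (.inr i)) = 0) ∧ ∀ i, (κ *ᵥ x) (.inr i) = 0 := by
  obtain ⟨C, hC, h⟩ := frames' hσ hF (X₀ σ ε J₀ r)
  refine ⟨C, hC, fun X => ?_⟩
  obtain ⟨g, -, κ, κ', -, h1, h2, h3, h4, h5, h6⟩ := h X
  exact ⟨κ, κ', h1, h2, h3, h4, h5, h6⟩

end Vale.Agent.P092.H866.K1
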