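import Mathlib

/-!
P092 (helper866).  The Hilbert space `ℓ²(ι; K)` and the operators `1 ⊗ A`.
-/

set_option linter.all false

open scoped InnerProductSpace Topology ENNReal
open Filter ContinuousLinearMap

namespace Vale.Agent.P092.H866

/-- `ℓ²(ι; K)` -/
abbrev LK (ι K : Type) [NormedAddCommGroup K] : Type := lp (fun _ : ι => K) 2

variable {ι K : Type} [NormedAddCommGroup K] [InnerProductSpace ℂ K] [CompleteSpace K]

omit [InnerProductSpace ℂ K] [CompleteSpace K] in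
theorem mem2_iff {f : ι → K} : Memℓp f 2 ↔ Summable fun i => ‖f i‖ ^ 2 := by
  rw [memℓp_gen_iff (by norm_num : 0 < (2 : ℝ≥0∞).toReal)]
  have : ∀ i, ‖f i‖ ^ (2 : ℝ≥0∞).toReal = ‖f i‖ ^ 2 := by
    intro i
    rw [ENNReal.toReal_ofNat]
    exact_mod_cast Real.rpow_natCast _ 2
  simp only [this]

theorem hasSum_sq (f : LK ι K) : HasSum (fun i => ‖f i‖ ^ 2) (‖f‖ ^ 2) := by
  have h1 := lp.hasSum_inner (𝕜 := ℂ) f f
  have h2 : HasSum (fun i => (‖f i‖ ^ 2 : ℂ)) ((‖f‖ ^ 2 : ℝ) : ℂ) := by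
    have e1 : ∀ i, ⟪f i, f i⟫_ℂ = (‖f i‖ ^ 2 : ℂ) := fun i => inner_self_eq_norm_sq_to_K _
    have e2 : ⟪f, f⟫_ℂ = ((‖f‖ ^ 2 : ℝ) : ℂ) := by
      rw [inner_self_eq_norm_sq_to_K]; push_cast; rfl
    rw [e2] at h1
    simpa only [e1] using h1
  have h3 := (Complex.reCLM.hasSum h2)
  have e3 : ∀ i, Complex.reCLM (‖f i‖ ^ 2 : ℂ) = ‖f i‖ ^ 2 := by
    intro i
    change (((‖f i‖ : ℝ) : ℂ) ^ 2).re = _
    rw [← Complex.ofReal_pow, Complex.ofReal_re]
  have e4 : Complex.reCLM ((‖f‖ ^ 2 : ℝ) : ℂ) = ‖f‖ ^ 2 := Complex.ofReal_re _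
  rw [e4] at h3
  exact h3.congr_fun fun i => (e3 i).symm

theorem norm_le_of {f : LK ι K} {g : LK ι K} {C : ℝ} (hC : 0 ≤ C) (h : ∀ i, ‖f i‖ ≤ C * ‖g i‖) :
    ‖f‖ ≤ C * ‖g‖ := by
  have h1 : ‖f‖ ^ 2 ≤ C ^ 2 * ‖g‖ ^ 2 := by
    refine hasSum_le (fun i => ?_) (hasSum_sq f) ((hasSum_sq g).mul_left (C ^ 2))
    rw [← mul_pow]
    exact pow_le_pow_left₀ (norm_nonneg _) (h i) 2
  rw [← mul_pow] at h1
  exact (pow_le_pow_iff_left₀ (norm_nonneg _) (by positivity) two_ne_zero).mp h1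

theorem norm_eq_of {f : LK ι K} {g : LK ι K} (h : ∀ i, ‖f i‖ = ‖g i‖) : ‖f‖ = ‖g‖ := by
  refine le_antisymm ?_ ?_
  · have := norm_le_of (f := f) (g := g) (C := 1) zero_le_one fun i => by rw [one_mul, h]
    rwa [one_mul] at this
  · have := norm_le_of (f := g) (g := f) (C := 1) zero_le_one fun i => by rw [one_mul, h]
    rwa [one_mul] at this

theorem mem2_map (A : K →L[ℂ] K) {f : ι → K} (hf : Memℓp f 2) : Memℓp (fun i => A (f i)) 2 := by
  rw [mem2_iff] at hf ⊢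
  refine Summable.of_nonneg_of_le (fun i => by positivity) (fun i => ?_) (hf.mul_left (‖A‖ ^ 2))
  rw [← mul_pow]
  exact pow_le_pow_left₀ (norm_nonneg _) (A.le_opNorm _) 2

/-- The operator `1 ⊗ A` on `ℓ²(ι; K)`. -/
noncomputable def Lm (A : K →L[ℂ] K) : LK ι K →L[ℂ] LK ι K :=
  LinearMap.mkContinuous
    { toFun := fun f => ⟨fun i => A (f i), mem2_map A (lp.memℓp f)⟩
      map_add' := fun f g => by
        apply lp.ext
        funext i
        exact map_add A (f i) (g i)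
      map_smul' := fun c f => by
        apply lp.ext
        funext i
        exact map_smul A c (f i) } ‖A‖
    (fun f => norm_le_of (norm_nonneg _) fun i => A.le_opNorm _)

theorem Lm_apply (A : K →L[ℂ] K) (f : LK ι K) (i : ι) : (Lm A f : LK ι K) i = A (f i) := rfl

theorem norm_Lm_le (A : K →L[ℂ] K) (f : LK ι K) : ‖Lm A f‖ ≤ ‖A‖ * ‖f‖ :=
  norm_le_of (norm_nonneg _) fun i => A.le_opNorm _

theorem Lm_mul (A B : K →L[ℂ] K) (f : LK ι K) : Lm (A * B) f = Lm A (Lm B f) := by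
  apply lp.ext; funext i; rfl

theorem Lm_add (A B : K →L[ℂ] K) (f : LK ι K) : Lm (A + B) f = Lm A f + Lm B f := by
  apply lp.ext; funext i; rfl

theorem Lm_smul (c : ℂ) (A : K →L[ℂ] K) (f : LK ι K) : Lm (c • A) f = c • Lm A f := by
  apply lp.ext; funext i; rfl

theorem Lm_sub (A B : K →L[ℂ] K) (f : LK ι K) : Lm (A - B) f = Lm A f - Lm B f := by
  apply lp.ext; funext i; rfl

theorem Lm_one (f : LK ι K) : Lm (1 : K →L[ℂ] K) f = f := by
  apply lp.ext; funext i; rfl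

theorem inner_Lm (A : K →L[ℂ] K) (f g : LK ι K) : ⟪f, Lm A g⟫_ℂ = ⟪Lm (adjoint A) f, g⟫_ℂ := by
  rw [lp.inner_eq_tsum, lp.inner_eq_tsum]
  refine tsum_congr fun i => ?_
  rw [Lm_apply, Lm_apply, adjoint_inner_left]

/-- evaluation at `i` -/
noncomputable def evi (i : ι) : LK ι K →L[ℂ] K :=
  LinearMap.mkContinuous
    { toFun := fun f => f i
      map_add' := fun f g => rfl
      map_smul' := fun c f => rfl } 1
    (fun f => by rw [one_mul]; exact lp.norm_apply_le_norm two_ne_zero f i)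

theorem evi_apply (i : ι) (f : LK ι K) : evi i f = f i := rfl

/-- The set of vectors `ξ` with `⟪ξ, v g⟫ → 0` is closed for a bounded family `v`. -/
theorem tendsto_of_dense {I E : Type} [NormedAddCommGroup E] [InnerProductSpace ℂ E] {l : Filter I}
    {v : I → E} {M : ℝ} (hv : ∀ g, ‖v g‖ ≤ M) (S : Submodule ℂ E)
    (hS : ∀ ξ ∈ S, Tendsto (fun g => ⟪ξ, v g⟫_ℂ) l (𝓝 0)) {ξ : E} (hξ : ξ ∈ closure (S : Set E)) :
    Tendsto (fun g => ⟪ξ, v g⟫_ℂ) l (𝓝 0) := by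
  rw [Metric.tendsto_nhds]
  intro ε hε
  obtain ⟨η, hη, hd⟩ := Metric.mem_closure_iff.mp hξ (ε / (2 * (|M| + 1))) (by positivity)
  filter_upwards [Metric.tendsto_nhds.mp (hS η hη) (ε / 2) (by positivity)] with g hg
  rw [dist_zero_right] at hg ⊢
  have h1 : ⟪ξ, v g⟫_ℂ = ⟪ξ - η, v g⟫_ℂ + ⟪η, v g⟫_ℂ := by
    rw [← inner_add_left, sub_add_cancel]
  have h2 : ‖⟪ξ - η, v g⟫_ℂ‖ ≤ ε / 2 := by
    refine (norm_inner_le_norm _ _).trans ?_
    rw [dist_eq_norm] at hd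
    calc ‖ξ - η‖ * ‖v g‖ ≤ ε / (2 * (|M| + 1)) * (|M| + 1) := by
          refine mul_le_mul hd.le ?_ (norm_nonneg _) (by positivity)
          have := hv g
          have := le_abs_self M
          linarith
      _ = ε / 2 := by field_simp
  rw [h1]
  have := norm_add_le ⟪ξ - η, v g⟫_ℂ ⟪η, v g⟫_ℂ
  linarith

end Vale.Agent.P092.H866
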