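import Vale.Agent.P092.H866.Conn

/-!
P092 (helper866).  Ergodicity at connected places: the main theorem `conn_zero`.
-/

set_option linter.all false

open scoped InnerProductSpace Topology ENNReal
open Filter ContinuousLinearMap

namespace Vale.Agent.P092.H866

open H160

variable {Γ Λ G : Type} [Group Γ] [Group Λ] [Group G] [TopologicalSpace G]
  {K : Type} [NormedAddCommGroup K]
  [InnerProductSpace ℂ K] [CompleteSpace K] {R : Λ →* (K →L[ℂ] K)} {U : Γ →* (K →L[ℂ] K)} {ω : K}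
  {ι : Type} {C : Subgroup Λ} {x : ι → Λ} {p : Γ →* G}

section left

variable (h : Hyp U R ω C x)

theorem Lm_mem (A : QQ h p) (ξ : Hc h p) : Lm (A : K →L[ℂ] K) (ξ : LK ι K) ∈ Hc h p := by
  have h1 : (ξ : LK ι K) ∈ closure ((LinearMap.range (e₀ h p) : Submodule ℂ (LK ι K)) : Set _) :=
    ξ.2
  refine map_mem_closure (Lm (A : K →L[ℂ] K)).continuous h1 ?_
  rintro _ ⟨X, rfl⟩
  exact ⟨⟨A * X, h.ct_mul A.2 X.2⟩, X.2.toBd.vec_mul A.2.comm⟩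

/-- left multiplication -/
noncomputable def L₀ (A : QQ h p) : Hc h p →L[ℂ] Hc h p :=
  ((Lm (A : K →L[ℂ] K)).comp (Hc h p).subtypeL).codRestrict (Hc h p) fun ξ => Lm_mem h A ξ

theorem L₀_coe (A : QQ h p) (ξ : Hc h p) :
    ((L₀ h A ξ : Hc h p) : LK ι K) = Lm (A : K →L[ℂ] K) (ξ : LK ι K) := rfl

/-- product in the algebra -/
noncomputable def mulQ (A B : QQ h p) : QQ h p := ⟨A * B, h.ct_mul A.2 B.2⟩

noncomputable def adjQ (A : QQ h p) : QQ h p := ⟨adjoint (A : K →L[ℂ] K), h.ct_adj A.2⟩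

theorem L₀_ee (A X : QQ h p) : L₀ h A (ee h p X) = ee h p (mulQ h A X) :=
  Subtype.ext (X.2.toBd.vec_mul A.2.comm).symm

noncomputable def LL : QQ h p →ₗ[ℂ] (Hc h p →L[ℂ] Hc h p) where
  toFun A := L₀ h A
  map_add' A B := by
    ext1 ξ
    exact Subtype.ext (Lm_add (A : K →L[ℂ] K) B (ξ : LK ι K))
  map_smul' c A := by
    ext1 ξ
    exact Subtype.ext (Lm_smul c (A : K →L[ℂ] K) (ξ : LK ι K))

theorem LL_apply (A : QQ h p) (ξ : Hc h p) : LL h A ξ = L₀ h A ξ := rfl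

theorem LL_mul (A B : QQ h p) : LL h A * LL h B = LL h (mulQ h A B) := by
  ext1 ξ
  exact Subtype.ext (Lm_mul (A : K →L[ℂ] K) B (ξ : LK ι K)).symm

theorem LL_adj (A : QQ h p) : adjoint (LL h A) = LL h (adjQ h A) := by
  symm
  rw [eq_adjoint_iff]
  intro ξ η
  change ⟪Lm (adjoint (A : K →L[ℂ] K)) (ξ : LK ι K), (η : LK ι K)⟫_ℂ =
    ⟪(ξ : LK ι K), Lm (A : K →L[ℂ] K) (η : LK ι K)⟫_ℂ
  rw [inner_Lm]

/-- evaluation at `i` -/
noncomputable def evc (i : ι) : Hc h p →L[ℂ] K := (evi i).comp (Hc h p).subtypeL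

theorem evc_apply (i : ι) (ξ : Hc h p) : evc h i ξ = (ξ : LK ι K) i := rfl

theorem evc_LL (i : ι) (A : QQ h p) (ξ : Hc h p) :
    evc h i (LL h A ξ) = (A : K →L[ℂ] K) (evc h i ξ) := rfl

noncomputable def kk (i : ι) : Hc h p →L[ℂ] Hc h p := (adjoint (evc h i)).comp (evc h i)

theorem kk_symm (i : ι) : (kk h i : Hc h p →L[ℂ] Hc h p).IsSymmetric := by
  intro ξ η
  change ⟪adjoint (evc h i) (evc h i ξ), η⟫_ℂ = ⟪ξ, adjoint (evc h i) (evc h i η)⟫_ℂ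
  rw [adjoint_inner_left, adjoint_inner_right]

theorem kk_comm (i : ι) (A : QQ h p) : LL h A * kk h i = kk h i * LL h A := by
  ext1 ξ
  refine ext_inner_right ℂ fun η => ?_
  change ⟪LL h A (adjoint (evc h i) (evc h i ξ)), η⟫_ℂ =
    ⟪adjoint (evc h i) (evc h i (LL h A ξ)), η⟫_ℂ
  rw [adjoint_inner_left, evc_LL]
  have e1 : ⟪LL h A (adjoint (evc h i) (evc h i ξ)), η⟫_ℂ =
      ⟪adjoint (evc h i) (evc h i ξ), LL h (adjQ h A) η⟫_ℂ := by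
    rw [← LL_adj, adjoint_inner_right]
  rw [e1, adjoint_inner_left, evc_LL]
  change ⟪_, adjoint (A : K →L[ℂ] K) _⟫_ℂ = _
  rw [adjoint_inner_right]

theorem kk_zero (i : ι) {ξ : Hc h p} (hξ : kk h i ξ = 0) : evc h i ξ = 0 := by
  have h1 : ⟪evc h i ξ, evc h i ξ⟫_ℂ = 0 := by
    rw [← adjoint_inner_right]
    change ⟪ξ, kk h i ξ⟫_ℂ = 0
    rw [hξ, inner_zero_right]
  exact inner_self_eq_zero.mp h1

end left

section main

variable [IsTopologicalGroup G] (h : Hyp U R ω C x)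

theorem WW_LL (w : Γ) (A : QQ h p) : WW h p w * LL h A * WW h p w⁻¹ = LL h (sgl h p w A) := by
  refine ext_ee h fun X => ?_
  change WW h p w (LL h A (WW h p w⁻¹ (ee h p X))) = LL h (sgl h p w A) (ee h p X)
  rw [WW_ee, LL_apply, LL_apply, L₀_ee, L₀_ee, WW_ee]
  congr 1
  apply Subtype.ext
  change sg U w ((A : K →L[ℂ] K) * sg U w⁻¹ X) = sg U w A * X
  rw [sg_mul', ← sg_mul, mul_inv_cancel, sg_one]

theorem f1_Hc
    (hF1 : ∀ g : Γ, g ≠ 1 → ∀ N ∈ 𝓝 (1 : G), {y | ∃ w, p w ∈ N ∧ y = w * g * w⁻¹}.Infinite)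
    {g : Γ} (hg : g ≠ 1) (ξ η : Hc h p) : ⟪(ξ : LK ι K), Lm (U g) (η : LK ι K)⟫_ℂ = 0 := by
  have h1 : ∀ X : QQ h p, ∀ η : Hc h p, ⟪(ee h p X : LK ι K), Lm (U g) (η : LK ι K)⟫_ℂ = 0 := by
    intro X η
    have h2 : ((innerSL ℂ (ee h p X : LK ι K)).comp (Lm (U g))).comp (Hc h p).subtypeL = 0 := by
      refine ext_ee h fun Y => ?_
      exact f1 h.hU h.hR h.hc h.hx hF1 Y.2 X.2 hg
    exact congrArg (fun T : Hc h p →L[ℂ] ℂ => T η) h2
  have h3 : (innerSL ℂ (Lm (U g) (η : LK ι K))).comp (Hc h p).subtypeL = 0 := by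
    refine ext_ee h fun Y => ?_
    change ⟪Lm (U g) (η : LK ι K), (ee h p Y : LK ι K)⟫_ℂ = 0
    rw [← inner_conj_symm, h1, map_zero]
  have h4 : ⟪Lm (U g) (η : LK ι K), (ξ : LK ι K)⟫_ℂ = 0 :=
    congrArg (fun T : Hc h p →L[ℂ] ℂ => T ξ) h3
  rw [← inner_conj_symm, h4, map_zero]

theorem hasSum_parseval (hU : RegRep U ω) (v : K) :
    HasSum (fun y => ‖⟪U y ω, v⟫_ℂ‖ ^ 2) (‖v‖ ^ 2) := by
  have h2 := hU.hasSum_inner v v
  have h3 := Complex.reCLM.hasSum h2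
  have e1 : Complex.reCLM ⟪v, v⟫_ℂ = ‖v‖ ^ 2 := by
    rw [inner_self_eq_norm_sq_to_K]
    change (((‖v‖ : ℝ) : ℂ) ^ 2).re = _
    rw [← Complex.ofReal_pow, Complex.ofReal_re]
  rw [e1] at h3
  refine h3.congr_fun fun y => ?_
  have e2 : ⟪v, U y ω⟫_ℂ * ⟪U y ω, v⟫_ℂ = ((‖⟪U y ω, v⟫_ℂ‖ ^ 2 : ℝ) : ℂ) := by
    rw [← inner_conj_symm v, mul_comm, Complex.mul_conj, Complex.normSq_eq_norm_sq]
  rw [e2]
  exact (Complex.ofReal_re _).symm

theorem evc_compact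
    (hF1 : ∀ g : Γ, g ≠ 1 → ∀ N ∈ 𝓝 (1 : G), {y | ∃ w, p w ∈ N ∧ y = w * g * w⁻¹}.Infinite)
    (i : ι) : IsCompactOperator (evc h i : Hc h p →L[ℂ] K) := by
  classical
  refine compact_of_sums (evc h i) 1 fun n ξ hξ => ?_
  have hU := h.hU
  -- the orthonormal family of all translates
  have horth : Orthonormal ℂ (fun z : Γ × Fin n => (Lm (U z.1) (ξ z.2 : LK ι K) : LK ι K)) := by
    rw [orthonormal_iff_ite]
    rintro ⟨g, j⟩ ⟨g', j'⟩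
    change ⟪Lm (U g) (ξ j : LK ι K), Lm (U g') (ξ j' : LK ι K)⟫_ℂ = _
    have e1 : ⟪Lm (U g) (ξ j : LK ι K), Lm (U g') (ξ j' : LK ι K)⟫_ℂ =
        ⟪(ξ j : LK ι K), Lm (U (g⁻¹ * g')) (ξ j' : LK ι K)⟫_ℂ := by
      rw [map_mul, Lm_mul, inner_Lm (U g⁻¹), hU.adj, inv_inv]
    rw [e1]
    by_cases hg : g = g'
    · subst hg
      rw [inv_mul_cancel, map_one, Lm_one]
      have h2 := orthonormal_iff_ite.mp hξ j j'
      have h3 : ⟪(ξ j : LK ι K), (ξ j' : LK ι K)⟫_ℂ = if j = j' then 1 else 0 := h2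
      rw [h3]
      simp
    · rw [f1_Hc h hF1 (fun h' => hg (inv_mul_eq_one.mp h'))]
      simp [hg]
  have hb : ∀ s : Finset Γ, ∑ g ∈ s, ∑ j, ‖⟪U g⁻¹ ω, evc h i (ξ j)⟫_ℂ‖ ^ 2 ≤ 1 := by
    intro s
    have h1 := horth.sum_inner_products_le (lp.single 2 i ω : LK ι K) (s := s ×ˢ Finset.univ)
    have h2 : ‖(lp.single 2 i ω : LK ι K)‖ = 1 := by
      rw [lp.norm_single (by norm_num), hU.norm_one]
    rw [h2, one_pow, Finset.sum_product] at h1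
    refine le_trans (le_of_eq ?_) h1
    refine Finset.sum_congr rfl fun g _ => Finset.sum_congr rfl fun j _ => ?_
    congr 1
    have e1 : ⟪(Lm (U g) (ξ j : LK ι K) : LK ι K), (lp.single 2 i ω : LK ι K)⟫_ℂ =
        ⟪U g (evc h i (ξ j)), ω⟫_ℂ := by
      rw [lp.inner_single_right]
      rfl
    have e2 : ⟪U g⁻¹ ω, evc h i (ξ j)⟫_ℂ = ⟪ω, U g (evc h i (ξ j))⟫_ℂ := by
      rw [hU.inner_left, inv_inv]
    change ‖⟪U g⁻¹ ω, evc h i (ξ j)⟫_ℂ‖ =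
      ‖⟪(Lm (U g) (ξ j : LK ι K) : LK ι K), (lp.single 2 i ω : LK ι K)⟫_ℂ‖
    rw [e1, e2]
    exact norm_inner_symm _ _
  have hs : HasSum (fun g => ∑ j, ‖⟪U g⁻¹ ω, evc h i (ξ j)⟫_ℂ‖ ^ 2) (∑ j, ‖evc h i (ξ j)‖ ^ 2) := by
    refine hasSum_sum fun j _ => ?_
    exact (Equiv.inv Γ).hasSum_iff.mpr (hasSum_parseval hU (evc h i (ξ j)))
  exact hasSum_le_of_sum_le hs hb

theorem kk_compact
    (hF1 : ∀ g : Γ, g ≠ 1 → ∀ N ∈ 𝓝 (1 : G), {y | ∃ w, p w ∈ N ∧ y = w * g * w⁻¹}.Infinite)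
    (i : ι) : IsCompactOperator (kk h i : Hc h p →L[ℂ] Hc h p) :=
  (evc_compact h hF1 i).clm_comp (adjoint (evc h i))

/-- continuous operators of finite `2`-norm commute with `U` -/
theorem sg_eq [PreconnectedSpace G] (hp : DenseRange p) (hfd : FD p)
    (hF1 : ∀ g : Γ, g ≠ 1 → ∀ N ∈ 𝓝 (1 : G), {y | ∃ w, p w ∈ N ∧ y = w * g * w⁻¹}.Infinite)
    (A : QQ h p) (w : Γ) : sg U w (A : K →L[ℂ] K) = A := by
  have key : ∀ i, (WW h p w * LL h A * WW h p w⁻¹ - LL h A) * kk h i = 0 := fun i =>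
    kills hp hfd (WW h p) (WW_adj h) (WW_cont h) (LinearMap.range (LL h))
      (by rintro _ ⟨A, rfl⟩ _ ⟨B, rfl⟩; exact ⟨mulQ h A B, (LL_mul h A B).symm⟩)
      (by rintro _ ⟨A, rfl⟩; exact ⟨adjQ h A, (LL_adj h A).symm⟩)
      (by rintro w _ ⟨A, rfl⟩; exact ⟨sgl h p w A, (WW_LL h w A).symm⟩)
      (kk h i) (kk_compact h hF1 i) (kk_symm h i)
      (by rintro _ ⟨A, rfl⟩; exact kk_comm h i A) (LL h A) ⟨A, rfl⟩ w
  set B : QQ h p := sgl h p w A - A with hB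
  have hLB : WW h p w * LL h A * WW h p w⁻¹ - LL h A = LL h B := by
    rw [WW_LL, hB, map_sub]
  -- `B` kills everything
  have h1 : ∀ i (ξ : Hc h p), (B : K →L[ℂ] K) (evc h i ξ) = 0 := by
    intro i ξ
    rw [← evc_LL]
    refine kk_zero h i ?_
    have h2 := key i
    rw [hLB, kk_comm] at h2
    exact congrArg (fun T : Hc h p →L[ℂ] Hc h p => T ξ) h2
  have h2 : ∀ i, adjoint (B : K →L[ℂ] K) (R (x i) ω) = 0 := by
    intro i
    have h3 := h1 i (ee h p (adjQ h B))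
    have h4 : evc h i (ee h p (adjQ h B)) = adjoint (B : K →L[ℂ] K) (R (x i) ω) :=
      vec_apply (adjQ h B).2.toBd.mem i
    rw [h4] at h3
    have h5 : ⟪adjoint (B : K →L[ℂ] K) (R (x i) ω), adjoint (B : K →L[ℂ] K) (R (x i) ω)⟫_ℂ = 0 := by
      rw [adjoint_inner_left, h3, inner_zero_right]
    exact inner_self_eq_zero.mp h5
  have h6 : adjoint (B : K →L[ℂ] K) = 0 := by
    refine h.hR.ext_op fun y => ?_
    obtain ⟨⟨i, c⟩, hy⟩ := h.hx.2 y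
    have hy' : (c : Λ) * x i = y := hy
    have hcm : CmC R C (adjoint (B : K →L[ℂ] K)) := (adjQ h B).2.comm
    rw [← hy', map_mul, mul_ap, hcm.apply c.2, h2, map_zero]
    rfl
  have h7 : (B : K →L[ℂ] K) = 0 := by
    rw [← adjoint_adjoint (B : K →L[ℂ] K), h6, map_zero]
  exact sub_eq_zero.mp h7

include h in
/-- **Ergodicity at connected places.** -/
theorem conn_zero [PreconnectedSpace G] [Infinite ι] (hp : DenseRange p) (hfd : FD p)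
    (hF1 : ∀ g : Γ, g ≠ 1 → ∀ N ∈ 𝓝 (1 : G), {y | ∃ w, p w ∈ N ∧ y = w * g * w⁻¹}.Infinite)
    {X : K →L[ℂ] K} (hX : Ct R U ω C x p X) : X = 0 := by
  have hcomm : Cmm U X := by
    intro w
    have h1 := sg_eq h hp hfd hF1 ⟨X, hX⟩ w
    have h2 : U w * X * U w⁻¹ = X := h1
    calc X * U w = U w * X * U w⁻¹ * U w := by rw [h2]
      _ = U w * X := by rw [mul_assoc, U_inv_mul, mul_one]
  have hRU : ∀ s, Cmm U (R s) := fun s g => (h.hc g s).symm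
  have hXX : Cmm U (adjoint X * X) := (h.hU.cmm_adjoint hcomm).mul hcomm
  have hn : ∀ s, ‖X (R s ω)‖ = ‖X ω‖ := by
    intro s
    have h1 := h.hU.trace_comm (hRU s⁻¹) (hXX.mul (hRU s))
    have e1 : ⟪ω, R s⁻¹ ((adjoint X * X * R s) ω)⟫_ℂ = ⟪X (R s ω), X (R s ω)⟫_ℂ := by
      rw [h.hR.inner_right, inv_inv]
      change ⟪R s ω, adjoint X (X (R s ω))⟫_ℂ = _
      rw [adjoint_inner_right]
    have e2 : ⟪ω, (adjoint X * X * R s) (R s⁻¹ ω)⟫_ℂ = ⟪X ω, X ω⟫_ℂ := by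
      change ⟪ω, adjoint X (X (R s (R s⁻¹ ω)))⟫_ℂ = _
      rw [h.hR.apply_inv, adjoint_inner_right]
    rw [e1, e2, inner_self_eq_norm_sq_to_K, inner_self_eq_norm_sq_to_K] at h1
    have h2 : ‖X (R s ω)‖ ^ 2 = ‖X ω‖ ^ 2 := by exact_mod_cast h1
    exact (pow_left_inj₀ (norm_nonneg _) (norm_nonneg _) two_ne_zero).mp h2
  have hsum := mem2_iff.mp hX.toBd.mem
  simp only [hn] at hsum
  rw [summable_const_iff] at hsum
  have h0 : ‖X ω‖ = 0 := by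
    exact pow_eq_zero_iff two_ne_zero |>.mp hsum
  refine h.hR.ext_op fun s => ?_
  have h1 := hn s
  rw [h0, norm_eq_zero] at h1
  rw [h1]
  rfl

end main

end Vale.Agent.P092.H866
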