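import Vale.Agent.P092.H866.Vec

/-!
P092 (helper866).  (F1): continuous operators of finite `2`-norm are orthogonal to their
translates.
-/

set_option linter.all false

open scoped InnerProductSpace Topology ENNReal
open Filter ContinuousLinearMap

namespace Vale.Agent.P092.H866

open H160

variable {Γ Λ G : Type} [Group Γ] [Group Λ] [Group G] [TopologicalSpace G]
  {K : Type} [NormedAddCommGroup K]
  [InnerProductSpace ℂ K] [CompleteSpace K] {R : Λ →* (K →L[ℂ] K)} {U : Γ →* (K →L[ℂ] K)} {ω : K}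
  {ι : Type} {C : Subgroup Λ} {x : ι → Λ} {p : Γ →* G}

/-- coefficients of a regular representation vanish at infinity -/
theorem coef_zero (hU : RegRep U ω) (a b : K) :
    Tendsto (fun g => ⟪a, U g b⟫_ℂ) cofinite (𝓝 0) := by
  have hden : closure ((Submodule.span ℂ (Set.range fun g => U g ω) : Submodule ℂ K) : Set K) =
      Set.univ := by
    have h1 := hU.basis.dense_span
    have h2 : (Set.range fun g => hU.basis g) = Set.range fun g => U g ω := by
      congr 1; funext g; exact hU.basis_apply g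
    have h3 : (Set.range ⇑hU.basis) = Set.range fun g => U g ω := h2
    rw [h3] at h1
    have h4 := congrArg (fun S : Submodule ℂ K => (S : Set K)) h1
    simpa using h4
  refine tendsto_of_dense (M := ‖b‖) (fun g => (hU.norm_map g b).le)
    (Submodule.span ℂ (Set.range fun g => U g ω)) ?_ (by rw [hden]; trivial)
  intro ξ hξ
  induction hξ using Submodule.span_induction with
  | mem y hy =>
    obtain ⟨z, rfl⟩ := hy
    have h1 : ∀ g, ⟪U z ω, U g b⟫_ℂ = ⟪U (g⁻¹ * z) ω, b⟫_ℂ := by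
      intro g
      rw [hU.inner_right, map_mul, mul_ap]
    simp only [h1]
    have h2 := (hU.summable_coeff b).tendsto_cofinite_zero
    have h3 : Tendsto (fun g => ‖⟪U (g⁻¹ * z) ω, b⟫_ℂ‖ ^ 2) cofinite (𝓝 0) :=
      h2.comp ((mul_left_injective z).comp inv_injective).tendsto_cofinite
    rw [tendsto_zero_iff_norm_tendsto_zero]
    have h4 := (Real.continuous_sqrt.tendsto 0).comp h3
    rw [Real.sqrt_zero] at h4
    refine h4.congr fun g => ?_
    simp only [Function.comp_apply]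
    exact Real.sqrt_sq (norm_nonneg _)
  | zero =>
    simp only [inner_zero_left]
    exact tendsto_const_nhds
  | add u v _ _ hu hv =>
    simp only [inner_add_left]
    simpa using hu.add hv
  | smul c u _ hu =>
    simp only [inner_smul_left]
    simpa using hu.const_mul _

/-- vectors orthogonal in the limit -/
def zl {I E : Type} [NormedAddCommGroup E] [InnerProductSpace ℂ E] (l : Filter I) (v : I → E) :
    Submodule ℂ E where
  carrier := {ξ | Tendsto (fun g => ⟪ξ, v g⟫_ℂ) l (𝓝 0)}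
  add_mem' := by
    intro a b ha hb
    simp only [Set.mem_setOf_eq, inner_add_left] at ha hb ⊢
    simpa using ha.add hb
  zero_mem' := by
    simp only [Set.mem_setOf_eq, inner_zero_left]
    exact tendsto_const_nhds
  smul_mem' := by
    intro c a ha
    simp only [Set.mem_setOf_eq, inner_smul_left] at ha ⊢
    simpa using ha.const_mul _

theorem mem_zl {I E : Type} [NormedAddCommGroup E] [InnerProductSpace ℂ E] {l : Filter I}
    {v : I → E} {ξ : E} : ξ ∈ zl l v ↔ Tendsto (fun g => ⟪ξ, v g⟫_ℂ) l (𝓝 0) := Iff.rfl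

theorem norm_Lm_iso {A : K →L[ℂ] K} (hA : ∀ v, ‖A v‖ = ‖v‖) (f : LK ι K) : ‖Lm A f‖ = ‖f‖ :=
  norm_eq_of fun i => by rw [Lm_apply, hA]

/-- the same for a multiple of the regular representation -/
theorem coef_zero_lp (hU : RegRep U ω) (a b : LK ι K) :
    Tendsto (fun g => ⟪a, Lm (U g) b⟫_ℂ) cofinite (𝓝 0) := by
  classical
  have hnorm : ∀ g, ‖(Lm (U g) b : LK ι K)‖ ≤ ‖b‖ := fun g =>
    (norm_Lm_iso (hU.norm_map g) b).le
  have hsingle : ∀ (i : ι) (v : K),
      (lp.single 2 i v : LK ι K) ∈ zl cofinite (fun g => (Lm (U g) b : LK ι K)) := by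
    intro i v
    rw [mem_zl]
    have h1 : ∀ g, ⟪(lp.single 2 i v : LK ι K), Lm (U g) b⟫_ℂ = ⟪v, U g (b i)⟫_ℂ := by
      intro g
      rw [lp.inner_single_left]
      rfl
    simp only [h1]
    exact coef_zero hU _ _
  have h1 := lp.hasSum_single (by norm_num : (2 : ℝ≥0∞) ≠ ⊤) a
  have h2 : a ∈ closure ((zl cofinite (fun g => (Lm (U g) b : LK ι K)) :
      Submodule ℂ (LK ι K)) : Set (LK ι K)) :=
    mem_closure_of_tendsto h1 (Filter.Eventually.of_forall fun s =>
      Submodule.sum_mem _ fun i _ => hsingle i _)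
  exact tendsto_of_dense hnorm _ (fun ξ hξ => mem_zl.mp hξ) h2

/-- `X` is of finite `2`-norm and continuous for the conjugation action. -/
structure Ct (R : Λ →* (K →L[ℂ] K)) (U : Γ →* (K →L[ℂ] K)) (ω : K) (C : Subgroup Λ) (x : ι → Λ)
    (p : Γ →* G) (X : K →L[ℂ] K) : Prop extends Bd R ω C x X where
  cont : Tendsto (fun w => ‖vec R ω x (sg U w X - X)‖) (comap p (𝓝 1)) (𝓝 0)

section

variable (hU : RegRep U ω) (hR : RegRep R ω) (hc : ∀ g s, U g * R s = R s * U g)
  (hx : Function.Bijective fun z : ι × C => (z.2 : Λ) * x z.1)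

include hU hR hc hx

theorem Ct.tendsto_inv {X : K →L[ℂ] K} (hX : Ct R U ω C x p X) :
    Tendsto (fun w => vec R ω x (sg U w⁻¹ X)) (comap p (𝓝 1)) (𝓝 (vec R ω x X)) := by
  rw [tendsto_iff_norm_sub_tendsto_zero]
  refine hX.cont.congr fun w => ?_
  have hB := hX.toBd
  rw [← (hB.sg hU hR hc hx w⁻¹).vec_sub hB]
  have h1 := ((hB.sg hU hR hc hx w⁻¹).sub hB).norm_sg hU hR hc hx w
  rw [← h1, sg_sub, ← sg_mul, mul_inv_cancel, sg_one, (hB.sg hU hR hc hx w).vec_sub hB,
    hB.vec_sub (hB.sg hU hR hc hx w), norm_sub_rev]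

theorem Ct.tendsto {X : K →L[ℂ] K} (hX : Ct R U ω C x p X) :
    Tendsto (fun w => vec R ω x (sg U w X)) (comap p (𝓝 1)) (𝓝 (vec R ω x X)) := by
  rw [tendsto_iff_norm_sub_tendsto_zero]
  refine hX.cont.congr fun w => ?_
  rw [(hX.toBd.sg hU hR hc hx w).vec_sub hX.toBd]

/-- **(F1)** -/
theorem f1 (hF1 : ∀ h : Γ, h ≠ 1 → ∀ N ∈ 𝓝 (1 : G), {g | ∃ w, p w ∈ N ∧ g = w * h * w⁻¹}.Infinite)
    {S T : K →L[ℂ] K} (hS : Ct R U ω C x p S) (hT : Ct R U ω C x p T) {h : Γ} (hh : h ≠ 1) :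
    ⟪vec R ω x T, Lm (U h) (vec R ω x S)⟫_ℂ = 0 := by
  by_contra hne
  set z := ⟪vec R ω x T, Lm (U h) (vec R ω x S)⟫_ℂ with hz
  have hpos : 0 < ‖z‖ := norm_pos_iff.mpr hne
  -- the coefficient at `w h w⁻¹`
  have h1 : ∀ w, ⟪vec R ω x T, Lm (U (w * h * w⁻¹)) (vec R ω x S)⟫_ℂ =
      ⟪vec R ω x (sg U w⁻¹ T), Lm (U h) (vec R ω x (sg U w⁻¹ S))⟫_ℂ := by
    intro w
    have hS' := hS.toBd.sg hU hR hc hx w⁻¹
    have hT' := hT.toBd.sg hU hR hc hx w⁻¹
    rw [← hS.toBd.vec_mul (cmC_U hc _), ← hS'.vec_mul (cmC_U hc _),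
      ← hT'.inner_sg hU hR hc hx (hS'.mul_left (cmC_U hc h)) w, sg_mul', ← sg_mul, ← sg_mul,
      mul_inv_cancel, sg_one, sg_one]
    congr 3
    rw [sg, map_mul, map_mul]
  have h2 : Tendsto (fun w => ⟪vec R ω x T, Lm (U (w * h * w⁻¹)) (vec R ω x S)⟫_ℂ)
      (comap p (𝓝 1)) (𝓝 z) := by
    simp only [h1]
    exact (hT.tendsto_inv hU hR hc hx).inner
      (((Lm (U h)).continuous.tendsto _).comp (hS.tendsto_inv hU hR hc hx))
  have h3 : ∀ᶠ w in comap p (𝓝 1),
      ‖z‖ / 2 < ‖⟪vec R ω x T, Lm (U (w * h * w⁻¹)) (vec R ω x S)⟫_ℂ‖ :=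
    h2.norm.eventually (lt_mem_nhds (half_lt_self hpos))
  obtain ⟨N, hN, hNS⟩ := Filter.mem_comap.mp h3
  have h4 := (coef_zero_lp (ι := ι) hU (vec R ω x T) (vec R ω x S)).norm
  rw [norm_zero] at h4
  have h5 := h4.eventually (gt_mem_nhds (half_pos hpos))
  rw [Filter.eventually_cofinite] at h5
  refine hF1 h hh N hN (h5.subset ?_)
  rintro g ⟨w, hw, rfl⟩
  exact not_lt.mpr (hNS hw : ‖z‖ / 2 < _).le

end

end Vale.Agent.P092.H866
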