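import Vale.Agent.P092.H160.Rep
import Vale.Agent.P092.H866.Lmul

/-!
P092 (helper866).  The semifinite trace of the commutant of `R(C)`, `C` a subgroup of `Λ`, and its
trace property.
-/

set_option linter.all false

open scoped InnerProductSpace Topology ENNReal
open Filter ContinuousLinearMap

namespace Vale.Agent.P092.H866

open H160

variable {Λ : Type} [Group Λ] {K : Type} [NormedAddCommGroup K] [InnerProductSpace ℂ K]
  [CompleteSpace K] {R : Λ →* (K →L[ℂ] K)} {ω : K} {ι : Type}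

/-- `X` commutes with `R c` for `c ∈ C`. -/
def CmC (R : Λ →* (K →L[ℂ] K)) (C : Subgroup Λ) (X : K →L[ℂ] K) : Prop :=
  ∀ c ∈ C, X * R c = R c * X

namespace CmC

variable {C : Subgroup Λ} {X Y : K →L[ℂ] K}

theorem mul (hX : CmC R C X) (hY : CmC R C Y) : CmC R C (X * Y) := fun c hc => by
  rw [mul_assoc, hY c hc, ← mul_assoc, hX c hc, mul_assoc]

theorem add (hX : CmC R C X) (hY : CmC R C Y) : CmC R C (X + Y) := fun c hc => by
  rw [add_mul, mul_add, hX c hc, hY c hc]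

theorem sub (hX : CmC R C X) (hY : CmC R C Y) : CmC R C (X - Y) := fun c hc => by
  rw [sub_mul, mul_sub, hX c hc, hY c hc]

theorem smul (z : ℂ) (hX : CmC R C X) : CmC R C (z • X) := fun c hc => by
  rw [smul_mul_assoc, mul_smul_comm, hX c hc]

theorem adj (hR : RegRep R ω) (hX : CmC R C X) : CmC R C (adjoint X) := fun c hc => by
  have h1 := congrArg adjoint (hX c⁻¹ (C.inv_mem hc))
  rw [← star_eq_adjoint, ← star_eq_adjoint, star_mul, star_mul, star_eq_adjoint (R c⁻¹),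
    hR.adj, inv_inv, star_eq_adjoint] at h1
  exact h1.symm

theorem of_cmm (hX : Cmm R X) : CmC R C X := fun c _ => hX c

theorem apply (hX : CmC R C X) {c : Λ} (hc : c ∈ C) (v : K) : X (R c v) = R c (X v) :=
  congrArg (fun T : K →L[ℂ] K => T v) (hX c hc)

end CmC

/-- the (extended) square of the `2`-norm -/
noncomputable def N2 (R : Λ →* (K →L[ℂ] K)) (ω : K) (x : ι → Λ) (X : K →L[ℂ] K) : ℝ≥0∞ :=
  ∑' i, ENNReal.ofReal (‖X (R (x i) ω)‖ ^ 2)

theorem parseval (hR : RegRep R ω) (v : K) :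
    ENNReal.ofReal (‖v‖ ^ 2) = ∑' y, ENNReal.ofReal (‖⟪R y ω, v⟫_ℂ‖ ^ 2) := by
  have h1 : HasSum (fun y => ‖⟪R y ω, v⟫_ℂ‖ ^ 2) (‖v‖ ^ 2) := by
    have h2 := hR.hasSum_inner v v
    have h3 := Complex.reCLM.hasSum h2
    have e1 : Complex.reCLM ⟪v, v⟫_ℂ = ‖v‖ ^ 2 := by
      rw [inner_self_eq_norm_sq_to_K]
      change (((‖v‖ : ℝ) : ℂ) ^ 2).re = _
      rw [← Complex.ofReal_pow, Complex.ofReal_re]
    rw [e1] at h3
    refine h3.congr_fun fun y => ?_
    have e2 : ⟪v, R y ω⟫_ℂ * ⟪R y ω, v⟫_ℂ = ((‖⟪R y ω, v⟫_ℂ‖ ^ 2 : ℝ) : ℂ) := by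
      rw [← inner_conj_symm v, mul_comm, Complex.mul_conj, Complex.normSq_eq_norm_sq]
    rw [e2]
    exact (Complex.ofReal_re _).symm
  rw [← h1.tsum_eq, ENNReal.ofReal_tsum_of_nonneg (fun y => by positivity) h1.summable]

theorem coef_adj (hR : RegRep R ω) {C : Subgroup Λ} {X : K →L[ℂ] K} (hX : CmC R C X) {c : Λ}
    (hc : c ∈ C) (a b : Λ) :
    ⟪R (c * a) ω, X (R b ω)⟫_ℂ = (starRingEnd ℂ) ⟪R (c⁻¹ * b) ω, adjoint X (R a ω)⟫_ℂ := by
  rw [inner_conj_symm, adjoint_inner_left, map_mul, map_mul, mul_ap, mul_ap, hR.inner_left,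
    hX.apply (C.inv_mem hc)]

/-- **Trace property** -/
theorem N2_adjoint (hR : RegRep R ω) {C : Subgroup Λ} {x : ι → Λ}
    (hx : Function.Bijective fun z : ι × C => (z.2 : Λ) * x z.1) {X : K →L[ℂ] K}
    (hX : CmC R C X) : N2 R ω x (adjoint X) = N2 R ω x X := by
  have key : ∀ Y : K →L[ℂ] K, N2 R ω x Y =
      ∑' i, ∑' j, ∑' c : C, ENNReal.ofReal (‖⟪R ((c : Λ) * x j) ω, Y (R (x i) ω)⟫_ℂ‖ ^ 2) := by
    intro Y
    refine tsum_congr fun i => ?_
    rw [parseval hR]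
    rw [← (Equiv.ofBijective _ hx).tsum_eq]
    rw [ENNReal.tsum_prod']
    rfl
  rw [key X, key (adjoint X), ENNReal.tsum_comm]
  refine tsum_congr fun j => tsum_congr fun i => ?_
  rw [← (Equiv.inv C).tsum_eq]
  refine tsum_congr fun c => ?_
  have h1 := coef_adj hR hX c.2 (x i) (x j)
  rw [h1, RCLike.norm_conj]
  rfl

end Vale.Agent.P092.H866
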