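import Vale.Agent.P092.H866.VTd
import Vale.Agent.P092.VR.H156.Conn
import Vale.Agent.P092.H333.V.Ov2

/-!
P092 (helper866), project VR: ergodicity at the places which are overgroups of finite index of
factors.
-/

set_option linter.all false

open Filter Topology

namespace Vale.Agent.P092.VR

open Vale.Agent.P092.H160 Vale.Agent.P092.H103 Vale.Agent.P092.H962 Vale.Agent.P092.H333
open Vale.Agent.P092.H333.V
open Vale.Agent.P092.TV628 (TdV ergC_tdV)

variable {M E : Type} [Group M] [TopologicalSpace M] [Group E] [TopologicalSpace E]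
  [IsTopologicalGroup E] {φ : M →* E} {r : ℕ}

/-- **Ergodicity at one place.** -/
theorem erg_ov (h : Ov φ r) {R : Subgroup E} [R.Normal] (hR : IsRad φ R)
    {I Λ Γ : Type} [Group Λ] [Countable Λ] [Group Γ] [Fintype I]
    {α β γ : Γ → (Ell2 (I × Λ) →L[ℂ] Ell2 (I × Λ))}
    (hα : AF α) (hβ : AF β) (hγ : AF γ) (hΓ : SR.St.ICC Γ) (hΛ : SR.St.ICC Λ)
    {p : Γ →* E ⧸ R} (hp : DenseRange p)
    (ho : ∀ U : Subgroup (E ⧸ R), IsOpen (U : Set (E ⧸ R)) → ∀ g : Γ, g ≠ 1 →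
      Set.Infinite {y : Γ | ∃ k ∈ U.comap p, y = k * g * k⁻¹}) :
    H333.Amp.ErgC p (V3 hα hβ hγ) (A3R hα hβ hγ) (B3R hα hβ hγ) := by
  rcases h.qf.erg with hc | ht
  · haveI := nn_fin (R := R) h.fin
    exact ergC_conn_over (NN φ R) (nn_open h.opn) (conn_nn h hR hc) (facS_nn h hR) hΓ hΛ hα hβ hγ hp
  · exact ergC_tdV (tdV_quo h hR ht) hΓ hα hβ hγ hΛ hp ho

end Vale.Agent.P092.VR
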