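import Vale.Agent.P092.H866.VErg
import Vale.Agent.P092.VR.H978.GrpV
import Vale.Agent.P092.H333.FinQT

/-!
P092 (helper866), project VR: ergodicity at all places, for families of overgroups of finite index
of factors.
-/

set_option linter.all false

open Filter Topology

namespace Vale.Agent.P092.VR

open Vale.Agent.P092.SR.St (ICC)
open Vale.Agent.P092.H333.V
open Vale.Agent.P092.QT.NE (ev)

variable {I : Type} [Fintype I] {M E : I → Type} [∀ i, Group (M i)] [∀ i, TopologicalSpace (M i)]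
  [∀ i, Group (E i)] [∀ i, TopologicalSpace (E i)] [∀ i, IsTopologicalGroup (E i)]
  [∀ i, LocallyCompactSpace (E i)] [∀ i, SecondCountableTopology (E i)] [∀ i, T2Space (E i)]
  {φ : ∀ i, M i →* E i} {r : I → ℕ}

/-- **Ergodicity at all places**, family form. -/
theorem ergAllV_fam (h : ∀ i, Ov (φ i) (r i)) {R : ∀ i, Subgroup (E i)} [∀ i, (R i).Normal]
    (hR : ∀ i, IsRad (φ i) (R i)) {Γ : Type} [Group Γ] (q : ∀ i, Γ →* E i)
    (hinj : ∀ g, (∀ i, q i g = 1) → g = 1) (hlat : H515.St.IsLattice (MonoidHom.pi q).range)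
    (hd : ∀ i, DenseRange (q i)) (hicc : ICC Γ) :
    H333.Amp.ErgAllT (fun i => (QuotientGroup.mk' (R i)).comp (q i)) := by
  intro Λ _ _ J _ α hα hΛ i β hβ
  refine erg_ov (h i) (hR i) hα hα hβ hicc hΛ ?_ ?_
  · exact (QuotientGroup.mk'_surjective (R i)).denseRange.comp (hd i)
      QuotientGroup.continuous_mk
  · intro U hU g hg
    exact H978.ricc_quo_open h R hR (fun i => facV_quo (h i) (hR i)) q hinj hlat hicc i (hd i) U
      hU hg

/-- **Ergodicity at all places.** -/
theorem ergAllV (h : ∀ i, Ov (φ i) (r i)) {R : ∀ i, Subgroup (E i)} [∀ i, (R i).Normal]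
    (hR : ∀ i, IsRad (φ i) (R i)) (Γ : Subgroup (∀ i, E i)) (hlat : H515.St.IsLattice Γ)
    (hd : ∀ i, DenseRange (ev Γ i)) (hicc : ICC Γ) :
    H333.Amp.ErgAllT (fun i => (QuotientGroup.mk' (R i)).comp (ev Γ i)) := by
  refine ergAllV_fam h hR (ev Γ) (fun g hg => Subtype.ext (funext hg)) ?_ hd hicc
  have e : (MonoidHom.pi (ev Γ)).range = Γ := by
    ext x
    constructor
    · rintro ⟨g, rfl⟩
      exact g.2
    · intro hx
      exact ⟨⟨x, hx⟩, rfl⟩
  rw [e]
  exact hlat

end Vale.Agent.P092.VR
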