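import Vale.Agent.P092.VR.Ov
import Vale.Agent.P092.H628.TV6

/-!
P092 (helper866), project VR, [V-TDV]: overgroups of finite index of totally disconnected factors.
-/

set_option linter.all false

open Filter Topology

namespace Vale.Agent.P092.VR

open Vale.Agent.P092.H259 (PQ pq)
open Vale.Agent.P092.TV628 (TdV)

variable {M E : Type} [Group M] [TopologicalSpace M] [Group E] [TopologicalSpace E]
  {φ : M →* E} {r : ℕ}

/-- A factor is not compact. -/
theorem Ov.noncompact (h : Ov φ r) : ¬ IsCompact (Set.univ : Set M) := by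
  intro hc
  haveI : CompactSpace M := ⟨hc⟩
  apply h.qf.fac.nc
  exact Quotient.compactSpace

/-- The index of the image. -/
theorem Ov.index_ne (h : Ov φ r) (R : Subgroup E) [R.Normal] :
    ((QuotientGroup.mk' R).comp φ).range.index ≠ 0 := by
  have h1 : ((QuotientGroup.mk' R).comp φ).range = φ.range.map (QuotientGroup.mk' R) := by
    rw [MonoidHom.range_comp]
  rw [h1]
  have h2 := Subgroup.index_map_dvd φ.range (QuotientGroup.mk'_surjective R)
  intro h0
  rw [h0] at h2
  exact h.fin.index_ne_zero (Nat.eq_zero_of_zero_dvd h2)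

/-- **[V-TDV]** -/
theorem tdV_of_ov (h : Ov φ r) (ht : QC.Td M) : TdV E := by
  haveI := h.top
  haveI := h.qf.top
  refine TdV.of_hom φ h.cont h.opn ?_ h.fin.index_ne_zero ht h.noncompact
  rw [(MonoidHom.ker_eq_bot_iff φ).2 h.inj]
  simp

/-- **[V-TDV]**, modulo the radical. -/
theorem tdV_quo (h : Ov φ r) {R : Subgroup E} [R.Normal] (hR : IsRad φ R) (ht : QC.Td M) :
    TdV (E ⧸ R) := by
  haveI := h.top
  haveI := h.qf.top
  haveI := h.qf.fin
  refine TdV.of_hom ((QuotientGroup.mk' R).comp φ)
    (QuotientGroup.continuous_mk.comp h.cont) (QuotientGroup.isOpenMap_coe.comp h.opn) ?_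
    (h.index_ne R) ht h.noncompact
  rw [← MonoidHom.comap_ker, QuotientGroup.ker_mk', hR.comap]
  exact Set.toFinite _

end Vale.Agent.P092.VR
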