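import Vale.Agent.P092.H866.Tp

/-!
P092 (helper866).  Operators of finite `2`-norm in the commutant of `R(C)` as vectors, the
conjugation action of `U`, and the statement (F1).
-/

set_option linter.all false

open scoped InnerProductSpace Topology ENNReal
open Filter ContinuousLinearMap

namespace Vale.Agent.P092.H866

open H160

variable {Γ Λ : Type} [Group Γ] [Group Λ] {K : Type} [NormedAddCommGroup K]
  [InnerProductSpace ℂ K] [CompleteSpace K] {R : Λ →* (K →L[ℂ] K)} {U : Γ →* (K →L[ℂ] K)} {ω : K}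
  {ι : Type} {C : Subgroup Λ} {x : ι → Λ}

/-- `X` commutes with `R(C)` and has finite `2`-norm. -/
structure Bd (R : Λ →* (K →L[ℂ] K)) (ω : K) (C : Subgroup Λ) (x : ι → Λ) (X : K →L[ℂ] K) :
    Prop where
  comm : CmC R C X
  mem : Memℓp (fun i => X (R (x i) ω)) 2

open Classical in
/-- the vector of `X` -/
noncomputable def vec (R : Λ →* (K →L[ℂ] K)) (ω : K) (x : ι → Λ) (X : K →L[ℂ] K) : LK ι K :=
  if h : Memℓp (fun i => X (R (x i) ω)) 2 then ⟨fun i => X (R (x i) ω), h⟩ else 0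

theorem vec_apply {X : K →L[ℂ] K} (h : Memℓp (fun i => X (R (x i) ω)) 2) (i : ι) :
    (vec R ω x X : LK ι K) i = X (R (x i) ω) := by
  rw [vec, dif_pos h]

theorem mem_iff {X : K →L[ℂ] K} :
    Memℓp (fun i => X (R (x i) ω)) 2 ↔ N2 R ω x X ≠ ∞ := by
  rw [mem2_iff, N2]
  constructor
  · intro h
    exact h.tsum_ofReal_ne_top
  · intro h
    have h1 := ENNReal.summable_toReal h
    refine h1.congr fun i => ?_
    rw [ENNReal.toReal_ofReal (by positivity)]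

theorem norm_vec {X : K →L[ℂ] K} (h : Memℓp (fun i => X (R (x i) ω)) 2) :
    ENNReal.ofReal (‖vec R ω x X‖ ^ 2) = N2 R ω x X := by
  have h1 := hasSum_sq (vec R ω x X)
  rw [← h1.tsum_eq, ENNReal.ofReal_tsum_of_nonneg (fun y => by positivity) h1.summable, N2]
  refine tsum_congr fun i => ?_
  rw [vec_apply h]

theorem norm_vec_sq {X : K →L[ℂ] K} (h : Memℓp (fun i => X (R (x i) ω)) 2) :
    ‖vec R ω x X‖ ^ 2 = ∑' i, ‖X (R (x i) ω)‖ ^ 2 := by
  have h1 := hasSum_sq (vec R ω x X)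
  rw [← h1.tsum_eq]
  refine tsum_congr fun i => ?_
  rw [vec_apply h]

theorem norm_vec_le {X Y : K →L[ℂ] K} (hX : Memℓp (fun i => X (R (x i) ω)) 2)
    (hY : Memℓp (fun i => Y (R (x i) ω)) 2) {c : ℝ} (hc : 0 ≤ c)
    (h : N2 R ω x X ≤ ENNReal.ofReal (c ^ 2) * N2 R ω x Y) :
    ‖vec R ω x X‖ ≤ c * ‖vec R ω x Y‖ := by
  rw [← norm_vec hX, ← norm_vec hY, ← ENNReal.ofReal_mul (by positivity),
    ENNReal.ofReal_le_ofReal_iff (by positivity), ← mul_pow] at h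
  exact (pow_le_pow_iff_left₀ (norm_nonneg _) (by positivity) two_ne_zero).mp h

theorem norm_vec_eq {X Y : K →L[ℂ] K} (hX : Memℓp (fun i => X (R (x i) ω)) 2)
    (hY : Memℓp (fun i => Y (R (x i) ω)) 2) (h : N2 R ω x X = N2 R ω x Y) :
    ‖vec R ω x X‖ = ‖vec R ω x Y‖ := by
  refine le_antisymm ?_ ?_
  · have := norm_vec_le hX hY zero_le_one (by rw [h]; simp)
    rwa [one_mul] at this
  · have := norm_vec_le hY hX zero_le_one (by rw [h]; simp)
    rwa [one_mul] at this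

theorem N2_mul_le (A X : K →L[ℂ] K) :
    N2 R ω x (A * X) ≤ ENNReal.ofReal (‖A‖ ^ 2) * N2 R ω x X := by
  rw [N2, N2, ← ENNReal.tsum_mul_left]
  refine ENNReal.tsum_le_tsum fun i => ?_
  rw [← ENNReal.ofReal_mul (by positivity), ← mul_pow]
  exact ENNReal.ofReal_le_ofReal (pow_le_pow_left₀ (norm_nonneg _) (A.le_opNorm _) 2)

theorem N2_mul_iso {A : K →L[ℂ] K} (hA : ∀ v, ‖A v‖ = ‖v‖) (X : K →L[ℂ] K) :
    N2 R ω x (A * X) = N2 R ω x X := by
  refine tsum_congr fun i => ?_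
  rw [mul_ap, hA]

theorem adjoint_mul (A B : K →L[ℂ] K) : adjoint (A * B) = adjoint B * adjoint A := by
  rw [← star_eq_adjoint, star_mul]; rfl

section bd

variable (hR : RegRep R ω) (hx : Function.Bijective fun z : ι × C => (z.2 : Λ) * x z.1)

include hR hx

theorem N2_mul_right_le {A X : K →L[ℂ] K} (hA : CmC R C A) (hX : CmC R C X) :
    N2 R ω x (X * A) ≤ ENNReal.ofReal (‖A‖ ^ 2) * N2 R ω x X := by
  rw [← N2_adjoint hR hx (hX.mul hA), adjoint_mul, ← N2_adjoint hR hx hX]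
  refine (N2_mul_le _ _).trans ?_
  rw [LinearIsometryEquiv.norm_map]

theorem Bd.adj {X : K →L[ℂ] K} (hX : Bd R ω C x X) : Bd R ω C x (adjoint X) :=
  ⟨hX.comm.adj hR, by rw [mem_iff, N2_adjoint hR hx hX.comm]; exact mem_iff.mp hX.mem⟩

theorem Bd.norm_adj {X : K →L[ℂ] K} (hX : Bd R ω C x X) :
    ‖vec R ω x (adjoint X)‖ = ‖vec R ω x X‖ :=
  norm_vec_eq (hX.adj hR hx).mem hX.mem (N2_adjoint hR hx hX.comm)

omit hR hx in
theorem Bd.mul_left {A X : K →L[ℂ] K} (hA : CmC R C A) (hX : Bd R ω C x X) :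
    Bd R ω C x (A * X) :=
  ⟨hA.mul hX.comm, mem2_map A hX.mem⟩

theorem Bd.mul_right {A X : K →L[ℂ] K} (hA : CmC R C A) (hX : Bd R ω C x X) :
    Bd R ω C x (X * A) :=
  ⟨hX.comm.mul hA, by
    rw [mem_iff]
    refine ne_top_of_le_ne_top ?_ (N2_mul_right_le hR hx hA hX.comm)
    exact ENNReal.mul_ne_top ENNReal.ofReal_ne_top (mem_iff.mp hX.mem)⟩

omit hR hx in
theorem Bd.norm_mul_left {A X : K →L[ℂ] K} (hA : CmC R C A) (hX : Bd R ω C x X) :
    ‖vec R ω x (A * X)‖ ≤ ‖A‖ * ‖vec R ω x X‖ :=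
  norm_vec_le (hX.mul_left hA).mem hX.mem (norm_nonneg _) (N2_mul_le _ _)

theorem Bd.norm_mul_right {A X : K →L[ℂ] K} (hA : CmC R C A) (hX : Bd R ω C x X) :
    ‖vec R ω x (X * A)‖ ≤ ‖A‖ * ‖vec R ω x X‖ :=
  norm_vec_le (hX.mul_right hR hx hA).mem hX.mem (norm_nonneg _)
    (N2_mul_right_le hR hx hA hX.comm)

end bd

theorem Bd.add {X Y : K →L[ℂ] K} (hX : Bd R ω C x X) (hY : Bd R ω C x Y) :
    Bd R ω C x (X + Y) :=
  ⟨hX.comm.add hY.comm, hX.mem.add hY.mem⟩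

theorem Bd.smul {X : K →L[ℂ] K} (c : ℂ) (hX : Bd R ω C x X) : Bd R ω C x (c • X) :=
  ⟨hX.comm.smul c, hX.mem.const_smul c⟩

theorem Bd.sub {X Y : K →L[ℂ] K} (hX : Bd R ω C x X) (hY : Bd R ω C x Y) :
    Bd R ω C x (X - Y) :=
  ⟨hX.comm.sub hY.comm, hX.mem.sub hY.mem⟩

theorem Bd.vec_add {X Y : K →L[ℂ] K} (hX : Bd R ω C x X) (hY : Bd R ω C x Y) :
    vec R ω x (X + Y) = vec R ω x X + vec R ω x Y := by
  apply lp.ext; funext i
  rw [vec_apply (hX.add hY).mem, lp.coeFn_add, Pi.add_apply, vec_apply hX.mem, vec_apply hY.mem]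
  rfl

theorem Bd.vec_smul {X : K →L[ℂ] K} (c : ℂ) (hX : Bd R ω C x X) :
    vec R ω x (c • X) = c • vec R ω x X := by
  apply lp.ext; funext i
  rw [vec_apply (hX.smul c).mem, lp.coeFn_smul, Pi.smul_apply, vec_apply hX.mem]
  rfl

theorem Bd.vec_sub {X Y : K →L[ℂ] K} (hX : Bd R ω C x X) (hY : Bd R ω C x Y) :
    vec R ω x (X - Y) = vec R ω x X - vec R ω x Y := by
  apply lp.ext; funext i
  rw [vec_apply (hX.sub hY).mem, lp.coeFn_sub, Pi.sub_apply, vec_apply hX.mem, vec_apply hY.mem]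
  rfl

theorem Bd.vec_mul {A X : K →L[ℂ] K} (hA : CmC R C A) (hX : Bd R ω C x X) :
    vec R ω x (A * X) = Lm A (vec R ω x X) := by
  apply lp.ext; funext i
  rw [vec_apply (hX.mul_left hA).mem, Lm_apply, vec_apply hX.mem]
  rfl

/-- conjugation by `U w` -/
noncomputable def sg (U : Γ →* (K →L[ℂ] K)) (w : Γ) (X : K →L[ℂ] K) : K →L[ℂ] K :=
  U w * X * U w⁻¹

theorem U_inv_mul (w : Γ) : U w⁻¹ * U w = 1 := by rw [← map_mul, inv_mul_cancel, map_one]
theorem U_mul_inv (w : Γ) : U w * U w⁻¹ = 1 := by rw [← map_mul, mul_inv_cancel, map_one]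

theorem sg_one (X : K →L[ℂ] K) : sg U 1 X = X := by simp [sg]

theorem sg_mul (w v : Γ) (X : K →L[ℂ] K) : sg U (w * v) X = sg U w (sg U v X) := by
  rw [sg, sg, sg, mul_inv_rev, map_mul, map_mul]; simp only [mul_assoc]

theorem sg_mul' (w : Γ) (X Y : K →L[ℂ] K) : sg U w (X * Y) = sg U w X * sg U w Y := by
  rw [sg, sg, sg]
  have h : U w * X * U w⁻¹ * (U w * Y * U w⁻¹) = U w * X * (U w⁻¹ * U w) * Y * U w⁻¹ := by
    simp only [mul_assoc]
  rw [h, U_inv_mul, mul_one]; simp only [mul_assoc]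

theorem sg_add (w : Γ) (X Y : K →L[ℂ] K) : sg U w (X + Y) = sg U w X + sg U w Y := by
  rw [sg, sg, sg, mul_add, add_mul]

theorem sg_sub (w : Γ) (X Y : K →L[ℂ] K) : sg U w (X - Y) = sg U w X - sg U w Y := by
  rw [sg, sg, sg, mul_sub, sub_mul]

theorem sg_smul (w : Γ) (c : ℂ) (X : K →L[ℂ] K) : sg U w (c • X) = c • sg U w X := by
  rw [sg, sg, mul_smul_comm, smul_mul_assoc]

theorem sg_adjoint (hU : RegRep U ω) (w : Γ) (X : K →L[ℂ] K) :
    adjoint (sg U w X) = sg U w (adjoint X) := by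
  rw [sg, sg, adjoint_mul, adjoint_mul, hU.adj, hU.adj, inv_inv, mul_assoc]

theorem norm_sg (hU : RegRep U ω) (w : Γ) (X : K →L[ℂ] K) : ‖sg U w X‖ ≤ ‖X‖ := by
  refine ContinuousLinearMap.opNorm_le_bound _ (norm_nonneg _) fun v => ?_
  change ‖U w (X (U w⁻¹ v))‖ ≤ _
  rw [hU.norm_map]
  refine (X.le_opNorm _).trans ?_
  rw [hU.norm_map]

section sg

variable (hU : RegRep U ω) (hR : RegRep R ω) (hc : ∀ g s, U g * R s = R s * U g)
  (hx : Function.Bijective fun z : ι × C => (z.2 : Λ) * x z.1)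

include hc in
theorem cmC_U (w : Γ) : CmC R C (U w) := fun c _ => hc w c

include hU hR hc hx

theorem Bd.sg {X : K →L[ℂ] K} (hX : Bd R ω C x X) (w : Γ) : Bd R ω C x (sg U w X) :=
  (hX.mul_left (cmC_U hc w)).mul_right hR hx (cmC_U hc w⁻¹)

theorem Bd.norm_sg {X : K →L[ℂ] K} (hX : Bd R ω C x X) (w : Γ) :
    ‖vec R ω x (H866.sg U w X)‖ = ‖vec R ω x X‖ := by
  refine norm_vec_eq (hX.sg hU hR hc hx w).mem hX.mem ?_
  have hX1 : CmC R C (X * U w⁻¹) := hX.comm.mul (cmC_U hc w⁻¹)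
  rw [H866.sg, mul_assoc, N2_mul_iso (hU.norm_map w), ← N2_adjoint hR hx hX1, adjoint_mul, hU.adj,
    inv_inv, N2_mul_iso (hU.norm_map w), N2_adjoint hR hx hX.comm]

theorem Bd.inner_sg {X Y : K →L[ℂ] K} (hX : Bd R ω C x X) (hY : Bd R ω C x Y) (w : Γ) :
    ⟪vec R ω x (H866.sg U w X), vec R ω x (H866.sg U w Y)⟫_ℂ = ⟪vec R ω x X, vec R ω x Y⟫_ℂ := by
  have key : ∀ c : ℂ, ‖vec R ω x (H866.sg U w X) + c • vec R ω x (H866.sg U w Y)‖ =
      ‖vec R ω x X + c • vec R ω x Y‖ := by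
    intro c
    rw [← hY.vec_smul c, ← hX.vec_add (hY.smul c), ← (hY.sg hU hR hc hx w).vec_smul c,
      ← (hX.sg hU hR hc hx w).vec_add ((hY.sg hU hR hc hx w).smul c), ← sg_smul, ← sg_add]
    exact (hX.add (hY.smul c)).norm_sg hU hR hc hx w
  rw [inner_eq_sum_norm_sq_div_four, inner_eq_sum_norm_sq_div_four]
  have k1 := key 1
  have k2 := key (-1)
  have k3 := key Complex.I
  have k4 := key (-Complex.I)
  rw [one_smul, one_smul] at k1
  rw [neg_one_smul, neg_one_smul, ← sub_eq_add_neg, ← sub_eq_add_neg] at k2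
  rw [neg_smul, neg_smul, ← sub_eq_add_neg, ← sub_eq_add_neg] at k4
  have e1 : (RCLike.I : ℂ) = Complex.I := rfl
  rw [e1, k1, k2, k3, k4]

end sg

end Vale.Agent.P092.H866
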